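import Vale.Agent.P011.MathlibUsed
import Vale.Agent.P011S.Defs
import Vale.Agent.P011S.Defs2

set_option linter.all false

section

section
/-!
Gaussian elimination for invertible matrices over a division ring: homomorphisms to commutative
groups killing transvections are determined on diagonal matrices.
-/

set_option linter.unusedSectionVars false
set_option linter.unusedSimpArgs false

open Matrix

namespace Vale.Agent.P011S

variable {Δ : Type} [DivisionRing Δ] {n : Type} [Fintype n] [DecidableEq n]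

/-- transvections as units -/
def tvU (i j : n) (h : i ≠ j) (c : Δ) : (Matrix n n Δ)ˣ where
  val := 1 + Matrix.single i j c
  inv := 1 - Matrix.single i j c
  val_inv := by
    rw [add_mul, mul_sub, mul_sub, Matrix.single_mul_single_of_ne _ _ _ _ h.symm]
    simp
  inv_val := by
    rw [sub_mul, mul_add, mul_add, Matrix.single_mul_single_of_ne _ _ _ _ h.symm]
    simp

theorem tvU_mul_apply (i j : n) (h : i ≠ j) (c : Δ) (g : (Matrix n n Δ)ˣ) (k l : n) :
    ((tvU i j h c * g : (Matrix n n Δ)ˣ) : Matrix n n Δ) k l =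
      (g : Matrix n n Δ) k l + if k = i then c * (g : Matrix n n Δ) j l else 0 := by
  rw [Units.val_mul]
  change ((1 + Matrix.single i j c) * (g : Matrix n n Δ)) k l = _
  rw [add_mul, one_mul, Matrix.add_apply]
  congr 1
  by_cases hk : k = i
  · subst hk
    rw [if_pos rfl, Matrix.single_mul_apply_same]
  · rw [if_neg hk, Matrix.single_mul_apply_of_ne _ _ _ _ _ hk]

/-- diagonal units with one entry -/
def dgU (i : n) (δ : Δˣ) : (Matrix n n Δ)ˣ where
  val := Matrix.diagonal (Function.update 1 i (δ : Δ))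
  inv := Matrix.diagonal (Function.update 1 i ((δ⁻¹ : Δˣ) : Δ))
  val_inv := by
    rw [Matrix.diagonal_mul_diagonal, ← Matrix.diagonal_one]
    congr 1
    funext k
    by_cases hk : k = i
    · subst hk; simp
    · simp [Function.update_of_ne hk]
  inv_val := by
    rw [Matrix.diagonal_mul_diagonal, ← Matrix.diagonal_one]
    congr 1
    funext k
    by_cases hk : k = i
    · subst hk; simp
    · simp [Function.update_of_ne hk]

theorem dgU_val (i : n) (δ : Δˣ) :
    ((dgU i δ : (Matrix n n Δ)ˣ) : Matrix n n Δ) = Matrix.diagonal (Function.update 1 i (δ : Δ)) :=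
  rfl

theorem dgU_mul (i : n) (a b : Δˣ) : dgU i (a * b) = dgU i a * dgU i b := by
  apply Units.ext
  rw [Units.val_mul, dgU_val, dgU_val, dgU_val, Matrix.diagonal_mul_diagonal]
  congr 1
  funext k
  by_cases hk : k = i
  · subst hk; simp
  · simp [Function.update_of_ne hk]

variable {C : Type} [CommGroup C]

/-- in characteristic different from two transvections are killed by homomorphisms to
commutative groups -/
theorem chi_tvU (h2 : (2 : Δ) ≠ 0) (χ : (Matrix n n Δ)ˣ →* C) (i j : n) (h : i ≠ j) (c : Δ) :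
    χ (tvU i j h c) = 1 := by
  have e1 : dgU i (Units.mk0 (2 : Δ) h2) * tvU i j h c =
      tvU i j h c * (tvU i j h c * dgU i (Units.mk0 (2 : Δ) h2)) := by
    apply Units.ext
    ext k l
    rw [tvU_mul_apply, tvU_mul_apply, tvU_mul_apply, Units.val_mul, dgU_val, Matrix.diagonal_mul]
    change _ * ((1 + Matrix.single i j c : Matrix n n Δ) k l) = _
    rw [Matrix.add_apply, if_neg (Ne.symm h), add_zero]
    by_cases hk : k = i
    · subst hk
      rw [if_pos rfl, Matrix.diagonal_apply, Matrix.diagonal_apply, Function.update_self,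
        Units.val_mk0, Matrix.one_apply, Matrix.single_apply]
      by_cases hl : k = l
      · subst hl
        simp [h.symm]
      · by_cases hj : j = l
        · subst hj
          rw [if_neg hl, if_neg hl, if_pos ⟨rfl, rfl⟩, if_pos rfl,
            Function.update_of_ne (Ne.symm h)]
          simp [two_mul]
        · simp [hl, hj]
    · rw [if_neg hk, Function.update_of_ne hk, Matrix.single_apply_of_row_ne (Ne.symm hk)]
      rw [Matrix.one_apply, Matrix.diagonal_apply]
      by_cases hl : k = l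
      · subst hl; simp [Function.update_of_ne hk, hk]
      · simp [hl, hk]
  have e2 := congrArg χ e1
  rw [map_mul, map_mul, map_mul, mul_comm (χ (dgU _ _)), mul_left_cancel_iff] at e2
  exact (mul_eq_right.mp e2.symm)

/-- the columns in `S` are standard -/
def StdC (S : Finset n) (g : (Matrix n n Δ)ˣ) : Prop :=
  ∀ s ∈ S, ∀ k, (g : Matrix n n Δ) k s = (1 : Matrix n n Δ) k s

theorem StdC.tv {S : Finset n} {g : (Matrix n n Δ)ˣ} (hg : StdC S g) {i j : n} (h : i ≠ j)
    (hj : j ∉ S) (c : Δ) : StdC S (tvU i j h c * g) := by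
  intro s hs k
  have hjs : j ≠ s := fun e => hj (e ▸ hs)
  rw [tvU_mul_apply, hg s hs, hg s hs, Matrix.one_apply_ne hjs, mul_zero, ite_self, add_zero]

theorem StdC.exists_ne {S : Finset n} {g : (Matrix n n Δ)ˣ} (hg : StdC S g) {j : n}
    (hj : j ∉ S) : ∃ i, i ∉ S ∧ (g : Matrix n n Δ) i j ≠ 0 := by
  by_contra hcon
  push Not at hcon
  have h1 : (g : Matrix n n Δ) *ᵥ (fun k => (if k = j then 1 else 0) -
      if k ∈ S then (g : Matrix n n Δ) k j else 0) = 0 := by
    funext k
    have e : ∀ l, (g : Matrix n n Δ) k l * ((if l = j then 1 else 0) -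
        if l ∈ S then (g : Matrix n n Δ) l j else 0) =
        (if l = j then (g : Matrix n n Δ) k l else 0) -
        if l ∈ S then (1 : Matrix n n Δ) k l * (g : Matrix n n Δ) l j else 0 := by
      intro l
      rw [mul_sub]
      congr 1
      · rw [mul_ite, mul_one, mul_zero]
      · by_cases hl : l ∈ S
        · rw [if_pos hl, if_pos hl, hg l hl]
        · rw [if_neg hl, if_neg hl, mul_zero]
    rw [Matrix.mulVec, dotProduct, Finset.sum_congr rfl fun l _ => e l, Finset.sum_sub_distrib,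
      Finset.sum_ite_eq' Finset.univ j, if_pos (Finset.mem_univ j)]
    by_cases hk : k ∈ S
    · rw [Finset.sum_eq_single k]
      · rw [if_pos hk, Matrix.one_apply_eq, one_mul, sub_self]; rfl
      · intro l _ hl
        rw [Matrix.one_apply_ne (Ne.symm hl), zero_mul, ite_self]
      · intro h; exact absurd (Finset.mem_univ k) h
    · rw [hcon k hk, Finset.sum_eq_zero, sub_zero]; rfl
      intro l _
      by_cases hl : l ∈ S
      · have hkl : k ≠ l := fun e => hk (e ▸ hl)
        rw [if_pos hl, Matrix.one_apply_ne hkl, zero_mul]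
      · rw [if_neg hl]
  have h2 := congrArg (fun v => ((g⁻¹ : (Matrix n n Δ)ˣ) : Matrix n n Δ) *ᵥ v) h1
  simp only [Matrix.mulVec_mulVec, Units.inv_mul, Matrix.one_mulVec, Matrix.mulVec_zero] at h2
  have h3 := congrFun h2 j
  rw [if_pos rfl, if_neg hj, sub_zero] at h3
  exact one_ne_zero h3

theorem StdC.clear {S : Finset n} {g : (Matrix n n Δ)ˣ} (hg : StdC S g) {j : n}
    (hj : j ∉ S) (hp : (g : Matrix n n Δ) j j ≠ 0) (χ : (Matrix n n Δ)ˣ →* C)
    (hχ : ∀ (i j : n) (h : i ≠ j) (c : Δ), χ (tvU i j h c) = 1) (T : Finset n) :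
    j ∉ T → ∃ g' : (Matrix n n Δ)ˣ, χ g' = χ g ∧ StdC S g' ∧
      (g' : Matrix n n Δ) j j = (g : Matrix n n Δ) j j ∧ ∀ k ∈ T, (g' : Matrix n n Δ) k j = 0 := by
  induction T using Finset.induction_on with
  | empty => intro _; exact ⟨g, rfl, hg, rfl, fun k hk => by simp at hk⟩
  | insert a T haT ih =>
    intro hjT
    have hja : a ≠ j := fun e => hjT (by simp [e])
    obtain ⟨g', h1, h2, h3, h4⟩ := ih (fun h => hjT (by simp [h]))
    refine ⟨tvU a j hja (-((g' : Matrix n n Δ) a j * ((g' : Matrix n n Δ) j j)⁻¹)) * g', ?_,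
      h2.tv hja hj _, ?_, ?_⟩
    · rw [map_mul, hχ, one_mul, h1]
    · rw [tvU_mul_apply, if_neg (Ne.symm hja), add_zero, h3]
    · intro k hk
      rw [tvU_mul_apply]
      by_cases hka : k = a
      · subst hka
        rw [if_pos rfl, neg_mul, inv_mul_cancel_right₀ (by rw [h3]; exact hp), add_neg_cancel]
      · rw [if_neg hka, add_zero]
        exact h4 k ((Finset.mem_insert.mp hk).resolve_left hka)

theorem StdC.insert {S : Finset n} {g : (Matrix n n Δ)ˣ} (hg : StdC S g) {j i0 : n}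
    (hj : j ∉ S) (hi0 : i0 ∉ S) (hji : j ≠ i0) (χ : (Matrix n n Δ)ˣ →* C)
    (hχ : ∀ (i j : n) (h : i ≠ j) (c : Δ), χ (tvU i j h c) = 1) :
    ∃ g' : (Matrix n n Δ)ˣ, χ g' = χ g ∧ StdC (insert j S) g' := by
  -- first make another entry of the column nonzero
  obtain ⟨g1, h1, h2, i, hi, hij, hne⟩ : ∃ g1 : (Matrix n n Δ)ˣ, χ g1 = χ g ∧ StdC S g1 ∧
      ∃ i, i ∉ S ∧ i ≠ j ∧ (g1 : Matrix n n Δ) i j ≠ 0 := by
    obtain ⟨i, hi, hne⟩ := hg.exists_ne hj
    by_cases hij : i = j
    · subst hij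
      by_cases hz : (g : Matrix n n Δ) i0 i = 0
      · refine ⟨tvU i0 i hji.symm 1 * g, by rw [map_mul, hχ, one_mul], hg.tv _ hj _, i0, hi0,
          hji.symm, ?_⟩
        rw [tvU_mul_apply, if_pos rfl, hz, zero_add, one_mul]
        exact hne
      · exact ⟨g, rfl, hg, i0, hi0, hji.symm, hz⟩
    · exact ⟨g, rfl, hg, i, hi, hij, hne⟩
  -- make the pivot one
  obtain ⟨g2, h3, h4, h5⟩ : ∃ g2 : (Matrix n n Δ)ˣ, χ g2 = χ g ∧ StdC S g2 ∧
      (g2 : Matrix n n Δ) j j = 1 := by
    refine ⟨tvU j i hij.symm ((1 - (g1 : Matrix n n Δ) j j) * ((g1 : Matrix n n Δ) i j)⁻¹) * g1,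
      by rw [map_mul, hχ, one_mul, h1], h2.tv _ hi _, ?_⟩
    rw [tvU_mul_apply, if_pos rfl, inv_mul_cancel_right₀ hne]
    abel
  obtain ⟨g3, h6, h7, h8, h9⟩ := h4.clear hj (by rw [h5]; exact one_ne_zero) χ hχ
    (Finset.univ.erase j) (by simp only [Finset.mem_erase, ne_eq, not_true_eq_false, Finset.mem_univ, and_true, not_false_eq_true])
  refine ⟨g3, h6.trans h3, ?_⟩
  intro s hs k
  rcases Finset.mem_insert.mp hs with rfl | hs
  · by_cases hk : k = s
    · subst hk
      rw [h8, h5, Matrix.one_apply_eq]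
    · rw [h9 k (by simp only [Finset.mem_erase, ne_eq, hk, not_false_eq_true, Finset.mem_univ, and_self]), Matrix.one_apply_ne hk]
  · exact h7 s hs k

/-- **Gaussian elimination.** -/
theorem exists_dgU (χ : (Matrix n n Δ)ˣ →* C)
    (hχ : ∀ (i j : n) (h : i ≠ j) (c : Δ), χ (tvU i j h c) = 1) (i0 : n)
    (g : (Matrix n n Δ)ˣ) : ∃ δ : Δˣ, χ g = χ (dgU i0 δ) := by
  have key : ∀ S : Finset n, i0 ∉ S → ∃ g' : (Matrix n n Δ)ˣ, χ g' = χ g ∧ StdC S g' := by
    intro S
    induction S using Finset.induction_on with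
    | empty => intro _; exact ⟨g, rfl, fun s hs => by simp at hs⟩
    | insert a S haS ih =>
      intro hS
      obtain ⟨g', h1, h2⟩ := ih (fun h => hS (by simp [h]))
      obtain ⟨g'', h3, h4⟩ := h2.insert haS (i0 := i0) (fun h => hS (by simp [h]))
        (fun e => hS (by simp [e])) χ hχ
      exact ⟨g'', h3.trans h1, h4⟩
  obtain ⟨g1, h1, h2⟩ := key (Finset.univ.erase i0) (by simp only [Finset.mem_erase, ne_eq, not_true_eq_false, Finset.mem_univ, and_true, not_false_eq_true])
  obtain ⟨i, hi, hne⟩ := h2.exists_ne (j := i0) (by simp only [Finset.mem_erase, ne_eq, not_true_eq_false, Finset.mem_univ, and_true, not_false_eq_true])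
  have hi' : i = i0 := by simpa only [Finset.mem_erase, ne_eq, Finset.mem_univ, and_true, Decidable.not_not] using hi
  subst hi'
  obtain ⟨g2, h3, h4, h5, h6⟩ := h2.clear (by simp only [Finset.mem_erase, ne_eq, not_true_eq_false, Finset.mem_univ, and_true, not_false_eq_true]) hne χ hχ (Finset.univ.erase i) (by simp only [Finset.mem_erase, ne_eq, not_true_eq_false, Finset.mem_univ, and_true, not_false_eq_true])
  refine ⟨Units.mk0 _ hne, ?_⟩
  rw [← h1, ← h3]
  congr 1
  apply Units.ext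
  ext k l
  rw [dgU_val, Units.val_mk0, Matrix.diagonal_apply]
  by_cases hl : l = i
  · subst hl
    by_cases hk : k = l
    · subst hk
      rw [if_pos rfl, Function.update_self, h5]
    · rw [if_neg hk, h6 k (by simp only [Finset.mem_erase, ne_eq, hk, not_false_eq_true, Finset.mem_univ, and_self])]
  · rw [h4 l (by simp only [Finset.mem_erase, ne_eq, hl, not_false_eq_true, Finset.mem_univ, and_self]) k, Matrix.one_apply]
    by_cases hk : k = l
    · subst hk
      rw [if_pos rfl, if_pos rfl, Function.update_of_ne hl]; rfl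
    · rw [if_neg hk, if_neg hk]

end Vale.Agent.P011S

end

section
/-!
Representations of a matrix ring over a division algebra over a field: the corner.
-/

set_option linter.unusedSectionVars false
set_option linter.unusedSimpArgs false

open Matrix Module

namespace Vale.Agent.P011S

section

variable {E Δ Ω : Type} [Field E] [DivisionRing Δ] [Algebra E Δ] [Field Ω] [CharZero Ω]
  [Algebra E Ω] {n d : ℕ} [NeZero n]
  (G : Matrix (Fin n) (Fin n) Δ →ₐ[E] Matrix (Fin d) (Fin d) Ω)

theorem corner_mul (a b : Δ) : G (Matrix.single 0 0 a) * G (Matrix.single 0 0 b) =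
    G (Matrix.single 0 0 (a * b)) := by
  rw [← map_mul, Matrix.single_mul_single_same]

/-- the corner subspace -/
noncomputable def cW : Submodule Ω (Fin d → Ω) :=
  LinearMap.range (Matrix.toLin' (G (Matrix.single 0 0 1)))

theorem mem_cW (a : Δ) (x : Fin d → Ω) : G (Matrix.single 0 0 a) *ᵥ x ∈ cW G := by
  refine ⟨G (Matrix.single 0 0 a) *ᵥ x, ?_⟩
  rw [Matrix.toLin'_apply, Matrix.mulVec_mulVec, corner_mul, one_mul]

theorem cW_fix {x : Fin d → Ω} (hx : x ∈ cW G) : G (Matrix.single 0 0 1) *ᵥ x = x := by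
  obtain ⟨y, rfl⟩ := hx
  rw [Matrix.toLin'_apply, Matrix.mulVec_mulVec, corner_mul, one_mul]

/-- the action of the division algebra on the corner -/
noncomputable def cR (a : Δ) : cW G →ₗ[Ω] cW G :=
  (Matrix.toLin' (G (Matrix.single 0 0 a))).restrict fun x _ => by
    rw [Matrix.toLin'_apply]; exact mem_cW G a x

theorem cR_apply (a : Δ) (x : cW G) :
    ((cR G a x : cW G) : Fin d → Ω) = G (Matrix.single 0 0 a) *ᵥ (x : Fin d → Ω) := rfl

/-- the representation of the division algebra on the corner -/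
noncomputable def cF : Δ →ₐ[E] Matrix (Fin (finrank Ω (cW G))) (Fin (finrank Ω (cW G))) Ω where
  toFun a := LinearMap.toMatrix (finBasis Ω (cW G)) (finBasis Ω (cW G)) (cR G a)
  map_one' := by
    have : cR G 1 = LinearMap.id := by
      ext x : 2
      rw [cR_apply, cW_fix G x.2, LinearMap.id_apply]
    rw [this, LinearMap.toMatrix_id]
  map_mul' a b := by
    have : cR G (a * b) = cR G a ∘ₗ cR G b := by
      ext x : 2
      rw [LinearMap.comp_apply, cR_apply, cR_apply, cR_apply, Matrix.mulVec_mulVec, corner_mul]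
    rw [this, LinearMap.toMatrix_comp _ (finBasis Ω (cW G)) _]
  map_zero' := by
    have : cR G 0 = 0 := by
      ext x : 2
      rw [cR_apply, Matrix.single_zero, map_zero, Matrix.zero_mulVec]
      rfl
    rw [this, map_zero]
  map_add' a b := by
    have : cR G (a + b) = cR G a + cR G b := by
      ext x : 2
      rw [LinearMap.add_apply, Submodule.coe_add, cR_apply, cR_apply, cR_apply,
        ← Matrix.add_mulVec, ← map_add, ← Matrix.single_add]
    rw [this, map_add]
  commutes' k := by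
    have : cR G (algebraMap E Δ k) = (algebraMap E Ω k) • LinearMap.id := by
      ext x : 2
      rw [cR_apply, LinearMap.smul_apply, LinearMap.id_apply, Submodule.coe_smul]
      have h1 : (Matrix.single 0 0 (algebraMap E Δ k) : Matrix (Fin n) (Fin n) Δ) =
          k • Matrix.single 0 0 1 := by
        rw [Matrix.smul_single, Algebra.smul_def, mul_one]
      have h2 : k • G (Matrix.single 0 0 1) = (algebraMap E Ω k) • G (Matrix.single 0 0 1) := by
        ext i j
        rw [Matrix.smul_apply, Matrix.smul_apply, Algebra.smul_def, smul_eq_mul]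
      rw [h1, map_smul, h2, Matrix.smul_mulVec, cW_fix G x.2]
    rw [this, map_smul, LinearMap.toMatrix_id]
    ext i j
    rw [Matrix.smul_apply, Matrix.algebraMap_matrix_apply, Matrix.one_apply]
    split_ifs <;> simp

theorem cF_det (a : Δ) : (cF G a).det = LinearMap.det (cR G a) := LinearMap.det_toMatrix _ _

theorem corner_dim : n * finrank Ω (cW G) = d := by
  have h1 : (G (Matrix.single 0 0 1)).trace = (finrank Ω (cW G) : Ω) := by
    have hproj : LinearMap.IsProj (cW G) (Matrix.toLin' (G (Matrix.single 0 0 1))) :=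
      ⟨fun x => ⟨x, rfl⟩, fun x hx => by rw [Matrix.toLin'_apply]; exact cW_fix G hx⟩
    rw [← hproj.trace, Matrix.trace_toLin'_eq]
  have h2 : ∀ i : Fin n, (G (Matrix.single i i 1)).trace = (finrank Ω (cW G) : Ω) := by
    intro i
    rw [← h1]
    have e1 : (Matrix.single i i 1 : Matrix (Fin n) (Fin n) Δ) =
        Matrix.single i 0 1 * Matrix.single 0 i 1 := by
      rw [Matrix.single_mul_single_same, one_mul]
    have e2 : (Matrix.single 0 0 1 : Matrix (Fin n) (Fin n) Δ) =
        Matrix.single 0 i 1 * Matrix.single i 0 1 := by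
      rw [Matrix.single_mul_single_same, one_mul]
    rw [e1, e2, map_mul, map_mul, Matrix.trace_mul_comm]
  have h3 : (1 : Matrix (Fin n) (Fin n) Δ) = ∑ i, Matrix.single i i 1 := by
    ext a b
    rw [Matrix.sum_apply]
    by_cases hab : a = b
    · subst hab
      rw [Matrix.one_apply_eq, Finset.sum_eq_single a]
      · simp
      · intro c _ hc; rw [Matrix.single_apply_of_row_ne hc]
      · intro h; exact absurd (Finset.mem_univ _) h
    · rw [Matrix.one_apply_ne hab, Finset.sum_eq_zero]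
      intro c _
      by_cases hc : c = a
      · subst hc; rw [Matrix.single_apply_of_col_ne _ _ hab]
      · rw [Matrix.single_apply_of_row_ne hc]
  have h4 : (G 1).trace = (n : Ω) * (finrank Ω (cW G) : Ω) := by
    rw [h3, map_sum, Matrix.trace_sum, Finset.sum_congr rfl fun i _ => h2 i, Finset.sum_const,
      Finset.card_univ, Fintype.card_fin, nsmul_eq_mul]
  rw [map_one, Matrix.trace_one, Fintype.card_fin] at h4
  exact_mod_cast h4.symm

theorem corner_det (δ : Δˣ) : (G (dgU 0 δ : (Matrix (Fin n) (Fin n) Δ)ˣ)).det =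
    (cF G (δ : Δ)).det := by
  have hdg : ((dgU 0 δ : (Matrix (Fin n) (Fin n) Δ)ˣ) : Matrix (Fin n) (Fin n) Δ) =
      1 + Matrix.single 0 0 ((δ : Δ) - 1) := by
    rw [dgU_val]
    ext i j
    rw [Matrix.diagonal_apply, Matrix.add_apply, Matrix.one_apply, Matrix.single_apply]
    by_cases hij : i = j
    · subst hij
      by_cases hi : i = 0
      · subst hi; simp
      · simp [hi, Function.update_of_ne hi, Ne.symm hi]
    · rw [if_neg hij, if_neg hij, if_neg, add_zero]
      rintro ⟨rfl, rfl⟩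
      exact hij rfl
  have hle : cW G ≤ (cW G).comap (Matrix.toLin' (G (dgU 0 δ : (Matrix (Fin n) (Fin n) Δ)ˣ))) := by
    intro x hx
    rw [Submodule.mem_comap, Matrix.toLin'_apply, hdg, map_add, map_one, Matrix.add_mulVec,
      Matrix.one_mulVec]
    exact (cW G).add_mem hx (mem_cW G _ _)
  have hres : (Matrix.toLin' (G (dgU 0 δ : (Matrix (Fin n) (Fin n) Δ)ˣ))).restrict hle =
      cR G (δ : Δ) := by
    ext x : 2
    rw [cR_apply, LinearMap.coe_restrict_apply, Matrix.toLin'_apply, hdg, map_add, map_one,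
      Matrix.add_mulVec, Matrix.one_mulVec]
    nth_rewrite 1 [← cW_fix G x.2]
    rw [← Matrix.add_mulVec, ← map_add, ← Matrix.single_add, add_sub_cancel]
  have hq : (cW G).mapQ (cW G) (Matrix.toLin' (G (dgU 0 δ : (Matrix (Fin n) (Fin n) Δ)ˣ))) hle =
      LinearMap.id := by
    apply LinearMap.ext
    intro y
    obtain ⟨x, rfl⟩ := Submodule.mkQ_surjective _ y
    rw [Submodule.mkQ_apply, Submodule.mapQ_apply, LinearMap.id_apply, Submodule.Quotient.eq,
      Matrix.toLin'_apply, hdg, map_add, map_one, Matrix.add_mulVec, Matrix.one_mulVec,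
      add_sub_cancel_left]
    exact mem_cW G _ _
  rw [← LinearMap.det_toLin', LinearMap.det_eq_det_mul_det (cW G) _ hle, hres, hq,
    LinearMap.det_id, mul_one, cF_det]

/-- the corner over a finite extension bounds the degree of the division algebra -/
theorem corner_dvd [FiniteDimensional E Δ] {q : ℕ} (hq : finrank E Δ = q ^ 2) (hq0 : 0 < q)
    [FiniteDimensional E Ω] (f : Δ →ₐ[E] Matrix (Fin q) (Fin q) Ω) : q ∣ finrank E Ω := by
  let _ : Module Δ (Fin q → Ω) :=
    { smul := fun a v => f a *ᵥ v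
      one_smul := fun v => by
        change f 1 *ᵥ v = v
        rw [map_one, Matrix.one_mulVec]
      mul_smul := fun a b v => by
        change f (a * b) *ᵥ v = f a *ᵥ (f b *ᵥ v)
        rw [map_mul, Matrix.mulVec_mulVec]
      smul_zero := fun a => Matrix.mulVec_zero _
      smul_add := fun a v w => Matrix.mulVec_add _ _ _
      add_smul := fun a b v => by
        change f (a + b) *ᵥ v = f a *ᵥ v + f b *ᵥ v
        rw [map_add, Matrix.add_mulVec]
      zero_smul := fun v => by
        change f 0 *ᵥ v = 0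
        rw [map_zero, Matrix.zero_mulVec] }
  have hsm : ∀ (a : Δ) (v : Fin q → Ω), a • v = f a *ᵥ v := fun a v => rfl
  have : IsScalarTower E Δ (Fin q → Ω) := ⟨fun k a v => by
    rw [hsm, hsm, map_smul, Matrix.smul_mulVec]⟩
  have h1 := finrank_mul_finrank E Δ (Fin q → Ω)
  rw [hq, Module.finrank_pi_fintype, Finset.sum_const, Finset.card_univ, Fintype.card_fin,
    smul_eq_mul, pow_two, mul_assoc] at h1
  exact ⟨_, (Nat.eq_of_mul_eq_mul_left hq0 h1).symm⟩

end

end Vale.Agent.P011S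

end

section
set_option linter.unusedSimpArgs false

/-!
A determinant for matrices over a division ring, with values in a commutative monoid with zero,
attached to a multiplicative function on the division ring taking the value one at `-1`.
-/

namespace Vale.Agent.P011S

open Function

variable {D A : Type} [DivisionRing D] [CommMonoidWithZero A]

/-- row reduction: eliminate the first coordinate with the row `i` -/
def red {n : ℕ} {ι : Type} (v : ι → Fin (n + 1) → D) (i : ι) : {j // j ≠ i} → Fin n → D :=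
  fun j k => v j k.succ - v j 0 * (v i 0)⁻¹ * v i k.succ

open Classical in
/-- the determinant of a family of rows -/
noncomputable def ddet (φ : D →*₀ A) : (n : ℕ) → (ι : Type) → (ι → Fin n → D) → A
  | 0, _, _ => 1
  | n + 1, _, v => if h : ∃ i, v i 0 ≠ 0 then
      φ (v h.choose 0) * ddet φ n {j // j ≠ h.choose} (red v h.choose) else 0

/-- functions behaving like a determinant under row operations -/
structure Vol (φ : D →*₀ A) (n : ℕ) (ι : Type) [DecidableEq ι] (f : (ι → Fin n → D) → A) :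
    Prop where
  smul : ∀ v i (c : D), f (update v i (c • v i)) = φ c * f v
  add : ∀ v i j (c : D), i ≠ j → f (update v i (v i + c • v j)) = f v

section vol

variable {φ : D →*₀ A} {n : ℕ} {ι : Type} [DecidableEq ι] {f : (ι → Fin n → D) → A}

theorem Vol.add_many (hf : Vol φ n ι f) (v : ι → Fin n → D) (i : ι) (c : ι → D)
    (s : Finset ι) (hs : i ∉ s) : f (update v i (v i + ∑ j ∈ s, c j • v j)) = f v := by
  induction s using Finset.induction_on with
  | empty => simp
  | insert a s has ih =>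
    have hia : i ≠ a := fun h => hs (by simp [h])
    have his : i ∉ s := fun h => hs (by simp [h])
    rw [← ih his, ← hf.add (update v i (v i + ∑ j ∈ s, c j • v j)) i a (c a) hia]
    congr 1
    rw [update_idem, update_self, update_of_ne hia.symm, Finset.sum_insert has]
    congr 1
    abel

theorem Vol.add_all (hf : Vol φ n ι f) (v : ι → Fin n → D) (i : ι) (c : ι → D)
    (s : Finset ι) (hs : i ∉ s) :
    f (fun j => if j ∈ s then v j + c j • v i else v j) = f v := by
  induction s using Finset.induction_on with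
  | empty => simp
  | insert a s has ih =>
    have hia : a ≠ i := fun h => hs (by simp [h])
    have his : i ∉ s := fun h => hs (by simp [h])
    rw [← ih his, ← hf.add (fun j => if j ∈ s then v j + c j • v i else v j) a i (c a) hia]
    congr 1
    funext j
    by_cases hj : j = a
    · subst hj
      simp [has, his]
    · rw [update_of_ne hj]
      simp [hj]

theorem Vol.swap (hf : Vol φ n ι f) (hneg : φ (-1) = 1) (v : ι → Fin n → D) (i j : ι)
    (hij : i ≠ j) : f (v ∘ Equiv.swap i j) = f v := by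
  have h1 := hf.add v i j 1 hij
  have h2 := hf.add (update v i (v i + (1 : D) • v j)) j i (-1) hij.symm
  have h3 := hf.add (update (update v i (v i + (1 : D) • v j)) j
    ((update v i (v i + (1 : D) • v j)) j + (-1 : D) • (update v i (v i + (1 : D) • v j)) i)) i j 1
    hij
  have h4 := hf.smul (v ∘ Equiv.swap i j) j (-1)
  rw [hneg, one_mul] at h4
  rw [← h4, ← h1, ← h2, ← h3]
  congr 1
  funext k
  by_cases hki : k = i
  · subst hki
    simp only [comp_apply, Equiv.swap_apply_left, Equiv.swap_apply_right, update_self,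
      update_of_ne hij, update_of_ne hij.symm, one_smul, neg_smul]
    abel
  · by_cases hkj : k = j
    · subst hkj
      simp only [comp_apply, Equiv.swap_apply_left, Equiv.swap_apply_right, update_self,
        update_of_ne hij, update_of_ne hij.symm, one_smul, neg_smul]
      abel
    · simp only [comp_apply, update_of_ne hki, update_of_ne hkj,
        Equiv.swap_apply_of_ne_of_ne hki hkj]

theorem Vol.perm [Finite ι] (hf : Vol φ n ι f) (hneg : φ (-1) = 1) (σ : Equiv.Perm ι) :
    ∀ v : ι → Fin n → D, f (v ∘ σ) = f v := by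
  induction σ using Equiv.Perm.swap_induction_on with
  | one => intro v; rfl
  | swap_mul σ x y hxy ih =>
    intro v
    have : v ∘ (Equiv.swap x y * σ : Equiv.Perm ι) = (v ∘ Equiv.swap x y) ∘ σ := rfl
    rw [this, ih, hf.swap hneg v x y hxy]

end vol

theorem ddet_zero_row {φ : D →*₀ A} {n : ℕ} {ι : Type} {v : ι → Fin (n + 1) → D}
    (h : ∀ i, v i 0 = 0) : ddet φ (n + 1) ι v = 0 := by
  have : ¬ ∃ i, v i 0 ≠ 0 := by push Not; exact h
  rw [ddet, dif_neg this]

/-- the inductive statement -/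
structure Good' (φ : D →*₀ A) (n : ℕ) : Prop where
  vol : ∀ (ι : Type) [DecidableEq ι] [Fintype ι], Fintype.card ι = n → Vol φ n ι (ddet φ n ι)
  reindex : ∀ (ι κ : Type) [Fintype ι] [Fintype κ], Fintype.card ι = n →
    ∀ (e : ι ≃ κ) (v : κ → Fin n → D), ddet φ n ι (v ∘ e) = ddet φ n κ v

section step

variable {φ : D →*₀ A} (hneg : φ (-1) = 1) {n : ℕ}

theorem card_ne {ι : Type} [DecidableEq ι] [Fintype ι] (hι : Fintype.card ι = n + 1) (i : ι) :
    Fintype.card {j // j ≠ i} = n := by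
  rw [Fintype.card_subtype_compl, hι]
  simp only [Fintype.card_unique, add_tsub_cancel_right]

include hneg in
theorem ddet_indep (hG : Good' φ n) {ι : Type} [Fintype ι] (hι : Fintype.card ι = n + 1)
    (v : ι → Fin (n + 1) → D) {i k : ι} (hi : v i 0 ≠ 0) (hk : v k 0 ≠ 0) :
    φ (v i 0) * ddet φ n _ (red v i) = φ (v k 0) * ddet φ n _ (red v k) := by
  classical
  by_cases hik : i = k
  · subst hik; rfl
  let e : {j // j ≠ i} ≃ {j // j ≠ k} := (Equiv.swap i k).subtypeEquiv (by
    intro a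
    constructor
    · intro h h'
      exact h (by rw [Equiv.swap_apply_eq_iff, Equiv.swap_apply_right] at h'; exact h')
    · intro h h'
      exact h (by rw [h', Equiv.swap_apply_left]))
  have h1 := hG.reindex {j // j ≠ i} {j // j ≠ k} (card_ne hι i) e (red v k)
  have hvol := hG.vol {j // j ≠ i} (card_ne hι i)
  obtain ⟨a, ha⟩ : ∃ a : {j // j ≠ i}, a = ⟨k, Ne.symm hik⟩ := ⟨_, rfl⟩
  have e1 : ∀ j : {j // j ≠ i}, j ≠ a → ((e j : {j // j ≠ k}) : ι) = j := by
    intro j hj
    change Equiv.swap i k (j : ι) = j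
    apply Equiv.swap_apply_of_ne_of_ne j.2
    intro h
    apply hj
    rw [ha]
    exact Subtype.ext h
  have e2 : ((e a : {j // j ≠ k}) : ι) = i := by
    change Equiv.swap i k (a : ι) = i
    rw [ha]
    exact Equiv.swap_apply_right i k
  have h2 := hvol.add_all (red v i) a (fun j => -(v j 0 * (v k 0)⁻¹)) (Finset.univ.erase a)
    (Finset.notMem_erase _ _)
  have h3 := hvol.smul (fun j => if j ∈ Finset.univ.erase a then
    red v i j + (-(v j 0 * (v k 0)⁻¹)) • red v i a else red v i j) a (-(v i 0 * (v k 0)⁻¹))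
  rw [h2] at h3
  have h4 : (red v k) ∘ e = update (fun j => if j ∈ Finset.univ.erase a then
    red v i j + (-(v j 0 * (v k 0)⁻¹)) • red v i a else red v i j) a
      ((-(v i 0 * (v k 0)⁻¹)) • (fun j => if j ∈ Finset.univ.erase a then
    red v i j + (-(v j 0 * (v k 0)⁻¹)) • red v i a else red v i j) a) := by
    funext j
    by_cases hj : j = a
    · subst hj
      rw [update_self]
      simp only [Finset.mem_erase, ne_eq, not_true_eq_false, false_and, if_false]
      funext t
      simp only [comp_apply, red, Pi.smul_apply, smul_eq_mul]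
      rw [e2]
      have hjk : ((j : {j // j ≠ i}) : ι) = k := by rw [ha]
      rw [hjk, mul_sub, neg_mul, neg_mul, mul_assoc (v k 0)]
      have : v i 0 * (v k 0)⁻¹ * (v k 0 * ((v i 0)⁻¹ * v i t.succ)) = v i t.succ := by
        rw [mul_assoc, inv_mul_cancel_left₀ hk, mul_inv_cancel_left₀ hi]
      rw [this]
      abel
    · rw [update_of_ne hj]
      simp only [Finset.mem_erase, ne_eq, hj, not_false_eq_true, Finset.mem_univ, and_self,
        if_true]
      funext t
      simp only [comp_apply, red, Pi.add_apply, Pi.smul_apply, smul_eq_mul]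
      rw [e1 j hj]
      have hjk : ((a : {j // j ≠ i}) : ι) = k := by rw [ha]
      rw [hjk, neg_mul, mul_sub, mul_assoc (v k 0)]
      have : v j 0 * (v k 0)⁻¹ * (v k 0 * ((v i 0)⁻¹ * v i t.succ)) =
          v j 0 * (v i 0)⁻¹ * v i t.succ := by
        rw [mul_assoc, inv_mul_cancel_left₀ hk, mul_assoc]
      rw [this]
      abel
  rw [← h1, h4, h3, ← mul_assoc, ← map_mul]
  congr 1
  have : φ (v k 0 * -(v i 0 * (v k 0)⁻¹)) = φ (v k 0) * (φ (-1) * (φ (v i 0) * φ (v k 0)⁻¹)) := by
    rw [← map_mul, ← map_mul, ← map_mul, neg_one_mul]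
  rw [this, hneg, one_mul, mul_left_comm, ← map_mul, mul_inv_cancel₀ hk, map_one, mul_one]

include hneg in
theorem ddet_eq (hG : Good' φ n) {ι : Type} [Fintype ι] (hι : Fintype.card ι = n + 1)
    (v : ι → Fin (n + 1) → D) {i : ι} (hi : v i 0 ≠ 0) :
    ddet φ (n + 1) ι v = φ (v i 0) * ddet φ n _ (red v i) := by
  have h : ∃ i, v i 0 ≠ 0 := ⟨i, hi⟩
  rw [ddet, dif_pos h]
  exact ddet_indep hneg hG hι v h.choose_spec hi

include hneg in
theorem good_succ (hG : Good' φ n) : Good' φ (n + 1) := by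
  constructor
  · intro ι _ _ hι
    constructor
    · intro v l c
      by_cases hA : ∃ i, i ≠ l ∧ v i 0 ≠ 0
      · obtain ⟨i, hil, hi⟩ := hA
        have hi' : update v l (c • v l) i 0 ≠ 0 := by rw [update_of_ne hil]; exact hi
        rw [ddet_eq hneg hG hι _ hi', ddet_eq hneg hG hι _ hi, update_of_ne hil]
        have h1 := (hG.vol {j // j ≠ i} (card_ne hι i)).smul (red v i) ⟨l, hil.symm⟩ c
        have h2 : red (update v l (c • v l)) i =
            update (red v i) ⟨l, hil.symm⟩ (c • red v i ⟨l, hil.symm⟩) := by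
          funext j
          by_cases hj : j = ⟨l, hil.symm⟩
          · subst hj
            rw [update_self]
            funext t
            simp only [red, update_self, update_of_ne hil, Pi.smul_apply, smul_eq_mul, mul_sub,
              mul_assoc]
          · rw [update_of_ne hj]
            have hjl : (j : ι) ≠ l := fun h => hj (Subtype.ext h)
            funext t
            simp only [red, update_of_ne hjl, update_of_ne hil]
        rw [h2, h1, mul_left_comm]
      · push Not at hA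
        by_cases hl : v l 0 = 0
        · rw [ddet_zero_row (v := v), mul_zero, ddet_zero_row]
          · intro i
            by_cases hil : i = l
            · subst hil; simp [hl]
            · rw [update_of_ne hil]; exact hA i hil
          · intro i
            by_cases hil : i = l
            · subst hil; exact hl
            · exact hA i hil
        · by_cases hc : c = 0
          · rw [hc, map_zero, zero_mul, ddet_zero_row]
            intro i
            by_cases hil : i = l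
            · subst hil; simp
            · rw [update_of_ne hil]; exact hA i hil
          · have hl' : update v l (c • v l) l 0 ≠ 0 := by
              rw [update_self]
              exact mul_ne_zero hc hl
            rw [ddet_eq hneg hG hι _ hl', ddet_eq hneg hG hι _ hl, update_self, ← mul_assoc]
            simp only [Pi.smul_apply, smul_eq_mul]
            rw [map_mul]
            congr 2
            funext j t
            simp only [red, update_of_ne j.2, update_self, Pi.smul_apply, smul_eq_mul]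
            rw [mul_inv_rev, mul_assoc, mul_assoc, inv_mul_cancel_left₀ hc, mul_assoc]
    · intro v l k c hlk
      by_cases hk : v k 0 = 0
      · by_cases hB : ∃ i, i ≠ l ∧ v i 0 ≠ 0
        · obtain ⟨i, hil, hi⟩ := hB
          have hik : i ≠ k := fun h => hi (h ▸ hk)
          have hi' : update v l (v l + c • v k) i 0 ≠ 0 := by rw [update_of_ne hil]; exact hi
          rw [ddet_eq hneg hG hι _ hi', ddet_eq hneg hG hι _ hi, update_of_ne hil]
          have h1 := (hG.vol {j // j ≠ i} (card_ne hι i)).add (red v i) ⟨l, hil.symm⟩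
            ⟨k, hik.symm⟩ c (fun h => hlk (congrArg Subtype.val h))
          rw [← h1]
          congr 2
          funext j
          by_cases hj : j = ⟨l, hil.symm⟩
          · subst hj
            rw [update_self]
            funext t
            simp only [red, update_self, update_of_ne hil, Pi.smul_apply, Pi.add_apply,
              smul_eq_mul]
            rw [add_mul, add_mul, mul_sub, mul_assoc c, mul_assoc c]
            abel
          · rw [update_of_ne hj]
            have hjl : (j : ι) ≠ l := fun h => hj (Subtype.ext h)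
            funext t
            simp only [red, update_of_ne hjl, update_of_ne hil]
        · push Not at hB
          have hl0 : update v l (v l + c • v k) l 0 = v l 0 := by
            rw [update_self]
            simp [hk]
          by_cases hl : v l 0 = 0
          · rw [ddet_zero_row (v := v), ddet_zero_row]
            · intro i
              by_cases hil : i = l
              · subst hil; rw [hl0, hl]
              · rw [update_of_ne hil]; exact hB i hil
            · intro i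
              by_cases hil : i = l
              · subst hil; exact hl
              · exact hB i hil
          · rw [ddet_eq hneg hG hι _ (i := l) (by rw [hl0]; exact hl),
              ddet_eq hneg hG hι _ hl, hl0]
            congr 2
            funext j t
            simp only [red, update_of_ne j.2]
            rw [hB j j.2]
            simp only [ne_eq, update_self, Pi.add_apply, Pi.smul_apply, smul_eq_mul, zero_mul, sub_zero]
      · have hk' : update v l (v l + c • v k) k 0 ≠ 0 := by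
          rw [update_of_ne hlk.symm]; exact hk
        rw [ddet_eq hneg hG hι _ hk', ddet_eq hneg hG hι _ hk, update_of_ne hlk.symm]
        congr 2
        funext j t
        by_cases hjl : (j : ι) = l
        · simp only [red, hjl, update_self, update_of_ne hlk.symm, Pi.add_apply, Pi.smul_apply,
            smul_eq_mul]
          rw [add_mul, add_mul, mul_inv_cancel_right₀ hk]
          abel
        · simp only [red, update_of_ne hjl, update_of_ne hlk.symm]
  · intro ι κ _ _ hι e v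
    by_cases h : ∃ i, v i 0 ≠ 0
    · obtain ⟨i, hi⟩ := h
      have hκ : Fintype.card κ = n + 1 := by rw [← Fintype.card_congr e, hι]
      have hi' : (v ∘ e) (e.symm i) 0 ≠ 0 := by simpa using hi
      rw [ddet_eq hneg hG hκ v hi, ddet_eq hneg hG hι (v ∘ e) hi']
      classical
      let e' : {j // j ≠ e.symm i} ≃ {j // j ≠ i} := e.subtypeEquiv (by
        intro a
        rw [Ne, Ne, Equiv.eq_symm_apply])
      have h1 := hG.reindex _ _ (card_ne hι (e.symm i)) e' (red v i)
      rw [← h1]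
      congr 1
      · simp
      · congr 1
        funext j t
        simp only [red, ne_eq, comp_apply, Equiv.apply_symm_apply, Equiv.subtypeEquiv_apply, e']
    · push Not at h
      rw [ddet_zero_row h, ddet_zero_row]
      intro i
      exact h _

end step

theorem good_all {φ : D →*₀ A} (hneg : φ (-1) = 1) : ∀ n, Good' φ n := by
  intro n
  induction n with
  | zero =>
    constructor
    · intro ι _ _ hι
      have : IsEmpty ι := Fintype.card_eq_zero_iff.mp hι
      exact ⟨fun v i => isEmptyElim i, fun v i => isEmptyElim i⟩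
    · intro ι κ _ _ _ e v
      rfl
  | succ n ih => exact good_succ hneg ih

end Vale.Agent.P011S

end

section
/-!
Multiplicativity of the determinant.
-/

set_option linter.unusedSimpArgs false

namespace Vale.Agent.P011S

open Function

variable {D A : Type} [DivisionRing D] [CommMonoidWithZero A]

/-- a family of rows spanning everything -/
def Spans {n : ℕ} {ι : Type} [Fintype ι] (v : ι → Fin n → D) : Prop :=
  ∀ t : Fin n → D, ∃ x : ι → D, ∑ i, x i • v i = t

theorem Spans.exists_ne {n : ℕ} {ι : Type} [Fintype ι] {v : ι → Fin (n + 1) → D}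
    (hv : Spans v) : ∃ i, v i 0 ≠ 0 := by
  by_contra hcon
  push Not at hcon
  obtain ⟨x, hx⟩ := hv (Pi.single 0 1)
  have h1 := congrFun hx 0
  rw [Finset.sum_apply, Pi.single_eq_same] at h1
  apply zero_ne_one (α := D)
  rw [← h1]
  symm
  apply Finset.sum_eq_zero
  intro i _
  rw [Pi.smul_apply, hcon i, smul_zero]

theorem Spans.red {n : ℕ} {ι : Type} [Fintype ι] [DecidableEq ι] {v : ι → Fin (n + 1) → D}
    (hv : Spans v) {i : ι} (hi : v i 0 ≠ 0) : Spans (red v i) := by
  intro t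
  obtain ⟨x, hx⟩ := hv (Fin.cons 0 t)
  refine ⟨fun j => x j, ?_⟩
  have h0 : ∑ j, x j * v j 0 = 0 := by
    have := congrFun hx 0
    rw [Finset.sum_apply] at this
    simpa only [Pi.smul_apply, smul_eq_mul, Fin.cons_zero] using this
  funext k
  have h1 : ∑ j, x j * v j k.succ = t k := by
    have := congrFun hx k.succ
    rw [Finset.sum_apply] at this
    simpa only [Pi.smul_apply, smul_eq_mul, Fin.cons_succ] using this
  have h2 : ∑ j, x j * (v j k.succ - v j 0 * (v i 0)⁻¹ * v i k.succ) = t k := by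
    simp only [mul_sub, Finset.sum_sub_distrib]
    rw [h1]
    have h3 : ∑ j, x j * (v j 0 * (v i 0)⁻¹ * v i k.succ) =
        (∑ j, x j * v j 0) * ((v i 0)⁻¹ * v i k.succ) := by
      rw [Finset.sum_mul]
      refine Finset.sum_congr rfl fun j _ => ?_
      simp only [mul_assoc]
    rw [h3, h0, zero_mul, sub_zero]
  rw [Finset.sum_apply, ← h2]
  simp only [Pi.smul_apply, smul_eq_mul, Vale.Agent.P011S.red]
  rw [← Finset.add_sum_erase _ _ (Finset.mem_univ i), mul_inv_cancel₀ hi, one_mul, sub_self,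
    mul_zero, zero_add]
  symm
  rw [← Finset.sum_subtype (Finset.univ.erase i) (p := fun j => j ≠ i) (by intro j; simp only [Finset.mem_erase, ne_eq, Finset.mem_univ, and_true])
    (fun j => x j * (v j k.succ - v j 0 * (v i 0)⁻¹ * v i k.succ))]

/-- standard families -/
def std {n : ℕ} {ι : Type} (e : ι ≃ Fin n) : ι → Fin n → D := fun i => Pi.single (e i) 1

section

variable {φ : D →*₀ A} (hneg : φ (-1) = 1)

theorem Vol.std_eq {n : ℕ} {ι : Type} [DecidableEq ι] [Finite ι] {f : (ι → Fin n → D) → A}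
    (hf : Vol φ n ι f) (hneg : φ (-1) = 1) (e e' : ι ≃ Fin n) : f (std e) = f (std e') := by
  have h := hf.perm hneg (e.trans e'.symm) (std e')
  rw [← h]
  congr 1
  funext i
  simp [std]

include hneg in
/-- uniqueness of the determinant -/
theorem vol_eq : ∀ (n : ℕ) (ι : Type) [DecidableEq ι] [Fintype ι], Fintype.card ι = n →
    ∀ f : (ι → Fin n → D) → A, Vol φ n ι f → ∀ v : ι → Fin n → D, Spans v →
      ∀ e : ι ≃ Fin n, f v = ddet φ n ι v * f (std e) := by
  intro n
  induction n with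
  | zero =>
    intro ι _ _ hι f _ v _ e
    have : IsEmpty ι := Fintype.card_eq_zero_iff.mp hι
    rw [ddet, one_mul]
    congr 1
    funext i
    exact isEmptyElim i
  | succ n ih =>
    intro ι _ _ hι f hf v hv e
    obtain ⟨i, hi⟩ := hv.exists_ne
    have hG := good_all hneg n
    rw [ddet_eq hneg hG hι v hi]
    -- clear the first column
    have h1 := hf.add_all v i (fun j => -(v j 0 * (v i 0)⁻¹)) (Finset.univ.erase i)
      (Finset.notMem_erase _ _)
    obtain ⟨F, hF⟩ : ∃ F : ({j // j ≠ i} → Fin n → D) → ι → Fin (n + 1) → D, ∀ w, F w =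
        fun j => if h : j ≠ i then Fin.cons 0 (w ⟨j, h⟩) else v i := ⟨_, fun _ => rfl⟩
    have hFv : ∀ (w : {j // j ≠ i} → Fin n → D) (l : {j // j ≠ i}),
        F w (l : ι) = Fin.cons 0 (w l) := by
      intro w l
      rw [hF]
      simp only
      rw [dif_pos l.2]
    have hFi : ∀ w, F w i = v i := by
      intro w
      rw [hF]
      simp
    have h2 : f v = f (F (Vale.Agent.P011S.red v i)) := by
      rw [← h1]
      congr 1
      funext j
      by_cases hj : j = i
      · subst hj; simp only [Finset.mem_erase, ne_eq, not_true_eq_false, Finset.mem_univ, and_true, ↓reduceIte, hFi]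
      · have h5 := hFv (Vale.Agent.P011S.red v i) ⟨j, hj⟩
        simp only at h5
        rw [h5]
        simp only [Finset.mem_erase, ne_eq, hj, not_false_eq_true, Finset.mem_univ, and_self,
          if_true]
        funext t
        refine Fin.cases ?_ (fun k => ?_) t
        · simp only [Fin.cons_zero, Pi.add_apply, Pi.smul_apply, smul_eq_mul, neg_mul]
          rw [inv_mul_cancel_right₀ hi]; abel
        · simp only [Fin.cons_succ, Pi.add_apply, Pi.smul_apply, smul_eq_mul, neg_mul,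
            Vale.Agent.P011S.red]
          abel
    have hupd : ∀ (w : {j // j ≠ i} → Fin n → D) (l : {j // j ≠ i}) (r : Fin n → D),
        F (update w l r) = update (F w) (l : ι) (Fin.cons 0 r) := by
      intro w l r
      funext j
      by_cases hj : j = i
      · subst hj
        rw [update_of_ne (Ne.symm l.2), hFi, hFi]
      · by_cases hjl : j = l
        · subst hjl
          rw [update_self, hFv, update_self]
        · rw [update_of_ne hjl]
          have h5 := hFv (update w l r) ⟨j, hj⟩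
          have h6 := hFv w ⟨j, hj⟩
          simp only at h5 h6
          rw [h5, h6, update_of_ne]
          intro h
          exact hjl (congrArg Subtype.val h)
    have hgv : Vol φ n {j // j ≠ i} (fun w => f (F w)) := by
      constructor
      · intro w l c
        have h5 := hf.smul (F w) (l : ι) c
        rw [hFv] at h5
        change f (F (update w l (c • w l))) = _
        rw [hupd, ← h5]
        congr 2
        funext t
        refine Fin.cases ?_ (fun k => ?_) t <;> simp
      · intro w l k c hlk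
        have h5 := hf.add (F w) (l : ι) (k : ι) c (fun h => hlk (Subtype.ext h))
        rw [hFv, hFv] at h5
        change f (F (update w l (w l + c • w k))) = _
        rw [hupd, ← h5]
        congr 2
        funext t
        refine Fin.cases ?_ (fun k => ?_) t <;> simp
    have hcard := card_ne hι i
    obtain ⟨e'⟩ : Nonempty ({j // j ≠ i} ≃ Fin n) :=
      ⟨Fintype.equivFinOfCardEq hcard⟩
    have h3 := ih {j // j ≠ i} hcard _ hgv _ (hv.red hi) e'
    -- the standard value of `g`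
    obtain ⟨e'', he1, he2⟩ : ∃ e'' : ι ≃ Fin (n + 1), e'' i = 0 ∧
        ∀ j : {j // j ≠ i}, e'' j = (e' j).succ := by
      refine ⟨(Equiv.optionSubtypeNe i).symm.trans
        ((Equiv.optionCongr e').trans (finSuccEquiv n).symm), ?_, ?_⟩
      · simp
      · intro j
        rw [Equiv.trans_apply, Equiv.optionSubtypeNe_symm_of_ne j.2]
        simp only [ne_eq, Subtype.coe_eta, Equiv.trans_apply, Equiv.optionCongr_apply, Option.map_some, finSuccEquiv_symm_some]
    have h4 : f (F (std e')) = φ (v i 0) * f (std e'') := by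
      rw [← hf.smul (std e'') i (v i 0)]
      have h5 := hf.add_many (update (std e'') i (v i 0 • (std e'' i : Fin (n + 1) → D))) i
        (fun j => v i (e'' j)) (Finset.univ.erase i) (Finset.notMem_erase _ _)
      rw [← h5, update_idem, update_self]
      congr 1
      funext j
      by_cases hj : j = i
      · subst hj
        rw [update_self, hFi]
        have h6 : ∑ k ∈ Finset.univ.erase j, v j (e'' k) •
            update (std e'') j (v j 0 • (std e'' j : Fin (n + 1) → D)) k =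
            ∑ k ∈ Finset.univ.erase j, v j (e'' k) • (Pi.single (e'' k) 1 : Fin (n + 1) → D) := by
          refine Finset.sum_congr rfl fun k hk => ?_
          rw [update_of_ne (Finset.ne_of_mem_erase hk)]
          rfl
        rw [h6]
        have h7 : v j 0 • (std e'' j : Fin (n + 1) → D) =
            v j (e'' j) • (Pi.single (e'' j) 1 : Fin (n + 1) → D) := by
          rw [he1]
          simp [std, he1]
        rw [h7, Finset.add_sum_erase _ (fun k => v j (e'' k) •
          (Pi.single (e'' k) 1 : Fin (n + 1) → D)) (Finset.mem_univ j)]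
        rw [Equiv.sum_comp e'' (fun k => v j k • (Pi.single k 1 : Fin (n + 1) → D))]
        funext t
        rw [Finset.sum_apply]
        simp only [Pi.smul_apply, Pi.single_apply, smul_eq_mul, mul_ite, mul_one, mul_zero, Finset.sum_ite_eq, Finset.mem_univ, ↓reduceIte]
      · rw [update_of_ne hj]
        have h8 := he2 ⟨j, hj⟩
        have h9 := hFv (std e') ⟨j, hj⟩
        simp only at h8 h9
        rw [h9]
        simp only [std]
        rw [h8]
        funext t
        refine Fin.cases ?_ (fun k => ?_) t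
        · simp
        · simp [Pi.single_apply]
    rw [h2, h3, h4, hf.std_eq hneg e'' e]
    rw [← mul_assoc, mul_comm (φ (v i 0))]

end

/-- the determinant of a square matrix -/
noncomputable def mdet (φ : D →*₀ A) {n : ℕ} (M : Matrix (Fin n) (Fin n) D) : A :=
  ddet φ n (Fin n) fun i => M i

section

variable {φ : D →*₀ A} (hneg : φ (-1) = 1) {n : ℕ}

include hneg

theorem ddet_std : ∀ (n : ℕ) (ι : Type) [Fintype ι], Fintype.card ι = n →
    ∀ e : ι ≃ Fin n, ddet φ n ι (std e) = 1 := by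
  intro n
  induction n with
  | zero => intro ι _ _ e; rfl
  | succ n ih =>
    intro ι _ hι e
    classical
    obtain ⟨i, hi⟩ : ∃ i, e i = 0 := ⟨e.symm 0, by simp only [Equiv.apply_symm_apply]⟩
    have hi0 : (std e : ι → Fin (n + 1) → D) i 0 ≠ 0 := by simp [std, hi]
    rw [ddet_eq hneg (good_all hneg n) hι _ hi0]
    have hcard := card_ne hι i
    have hne : ∀ j : {j // j ≠ i}, e j ≠ 0 := by
      intro j h
      exact j.2 (e.injective (h.trans hi.symm))
    let e' : {j // j ≠ i} ≃ Fin n :=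
      (e.subtypeEquiv (q := fun k => k ≠ 0) (by
        intro a
        rw [← hi, e.injective.ne_iff])).trans (finSuccAboveEquiv 0).symm
    have he' : ∀ j : {j // j ≠ i}, (e' j).succ = e j := by
      intro j
      have h1 : finSuccAboveEquiv 0 (e' j) = ⟨e j, hne j⟩ := by
        simp only [e', Equiv.trans_apply]
        exact (finSuccAboveEquiv 0).apply_symm_apply _
      have h2 := congrArg Subtype.val h1
      simpa only [ne_eq, finSuccAboveEquiv_apply, Fin.zero_succAbove] using h2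
    have h1 : red (std e) i = (std e' : {j // j ≠ i} → Fin n → D) := by
      funext j t
      have h3 : (std e : ι → Fin (n + 1) → D) j 0 = 0 := by
        simp only [std]
        rw [Pi.single_eq_of_ne (Ne.symm (hne j))]
      simp only [red]
      rw [h3, zero_mul, zero_mul, sub_zero]
      simp only [std, ← he' j, Pi.single_apply, Fin.succ_inj]
    rw [h1, ih _ hcard e', mul_one]
    simp only [std, hi, Pi.single_eq_same, map_one]

theorem mdet_one : mdet φ (1 : Matrix (Fin n) (Fin n) D) = 1 := by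
  have h := ddet_std (φ := φ) hneg n (Fin n) (Fintype.card_fin n) (Equiv.refl _)
  unfold mdet
  rw [← h]
  congr 1
  funext i j
  simp [std, Matrix.one_apply, Pi.single_apply, eq_comm]

theorem vol_ddet : Vol φ n (Fin n) (ddet φ n (Fin n)) :=
  (good_all hneg n).vol (Fin n) (Fintype.card_fin n)

theorem mdet_mul {M : Matrix (Fin n) (Fin n) D} (hM : IsUnit M) (N : Matrix (Fin n) (Fin n) D) :
    mdet φ (M * N) = mdet φ M * mdet φ N := by
  obtain ⟨U, rfl⟩ := hM
  have hsp : Spans fun i => (U : Matrix (Fin n) (Fin n) D) i := by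
    intro t
    refine ⟨Matrix.vecMul t (↑U⁻¹ : Matrix (Fin n) (Fin n) D), ?_⟩
    have h1 : Matrix.vecMul (Matrix.vecMul t (↑U⁻¹ : Matrix (Fin n) (Fin n) D)) ↑U = t := by
      rw [Matrix.vecMul_vecMul, Units.inv_mul, Matrix.vecMul_one]
    funext k
    rw [Finset.sum_apply]
    have h2 := congrFun h1 k
    rw [← h2]
    rfl
  have hvol : Vol φ n (Fin n) (fun v => ddet φ n (Fin n) fun i => Matrix.vecMul (v i) N) := by
    have h0 := vol_ddet (φ := φ) hneg (n := n)
    constructor
    · intro v i c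
      rw [← h0.smul (fun i => Matrix.vecMul (v i) N) i c]
      congr 1
      funext j
      by_cases hj : j = i
      · subst hj
        rw [update_self, update_self, Matrix.smul_vecMul]
      · rw [update_of_ne hj, update_of_ne hj]
    · intro v i j c hij
      rw [← h0.add (fun i => Matrix.vecMul (v i) N) i j c hij]
      congr 1
      funext k
      by_cases hk : k = i
      · subst hk
        rw [update_self, update_self, Matrix.add_vecMul, Matrix.smul_vecMul]
      · rw [update_of_ne hk, update_of_ne hk]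
  have h := vol_eq hneg n (Fin n) (Fintype.card_fin n) _ hvol _ hsp (Equiv.refl _)
  have e1 : mdet φ ((U : Matrix (Fin n) (Fin n) D) * N) =
      ddet φ n (Fin n) fun i => Matrix.vecMul ((U : Matrix (Fin n) (Fin n) D) i) N := by
    unfold mdet
    congr 1
  have e2 : mdet φ N = ddet φ n (Fin n) fun i => Matrix.vecMul
      ((std (Equiv.refl (Fin n)) : Fin n → Fin n → D) i) N := by
    unfold mdet
    congr 1
    funext i j
    simp only [Matrix.vecMul, dotProduct, std, Equiv.refl_apply, Pi.single_apply, ite_mul, one_mul, zero_mul, Finset.sum_ite_eq', Finset.mem_univ, ↓reduceIte]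
  rw [e1, e2]
  exact h

/-- rows multiplied by scalars -/
theorem ddet_smul_rows (v : Fin n → Fin n → D) (c : Fin n → D) :
    ddet φ n (Fin n) (fun i => c i • v i) = (∏ i, φ (c i)) * ddet φ n (Fin n) v := by
  have h0 := vol_ddet (φ := φ) hneg (n := n)
  have key : ∀ s : Finset (Fin n), ddet φ n (Fin n) (fun i => if i ∈ s then c i • v i else v i) =
      (∏ i ∈ s, φ (c i)) * ddet φ n (Fin n) v := by
    intro s
    induction s using Finset.induction_on with
    | empty => simp
    | insert a s has ih =>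
      rw [Finset.prod_insert has, mul_assoc, ← ih, ← h0.smul _ a (c a)]
      congr 1
      funext j
      by_cases hj : j = a
      · subst hj
        simp [has]
      · rw [update_of_ne hj]
        simp [hj]
  have := key Finset.univ
  simpa only [Finset.mem_univ, ↓reduceIte] using this

theorem mdet_diagonal (c : Fin n → D) : mdet φ (Matrix.diagonal c) = ∏ i, φ (c i) := by
  have h := ddet_smul_rows (φ := φ) hneg (fun i => (1 : Matrix (Fin n) (Fin n) D) i) c
  have h1 : ddet φ n (Fin n) (fun i => (1 : Matrix (Fin n) (Fin n) D) i) = 1 := mdet_one hneg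
  rw [h1, mul_one] at h
  rw [← h]
  unfold mdet
  congr 1
  funext i j
  by_cases hij : i = j
  · subst hij; simp
  · simp [hij]

/-- the value on matrices over a commutative subfield -/
theorem mdet_map {L : Type} [Field L] (j : L →+* D) (M : Matrix (Fin n) (Fin n) L)
    (hM : M.det ≠ 0) : mdet φ (M.map j) = φ (j M.det) := by
  refine Matrix.diagonal_transvection_induction_of_det_ne_zero
    (fun M : Matrix (Fin n) (Fin n) L => mdet φ (M.map j) = φ (j M.det)) M hM ?_ ?_ ?_
  · intro c hc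
    have h1 : (Matrix.diagonal c).map j = Matrix.diagonal fun i => j (c i) := by
      rw [Matrix.diagonal_map (map_zero j)]
    change mdet φ ((Matrix.diagonal c).map j) = _
    rw [h1, mdet_diagonal hneg, Matrix.det_diagonal]
    exact (map_prod (((φ : D →*₀ A) : D →* A).comp (j : L →* D)) c Finset.univ).symm
  · intro t
    have h1 := (vol_ddet (φ := φ) hneg (n := n)).add (fun i => (1 : Matrix (Fin n) (Fin n) D) i)
      t.i t.j (j t.c) t.hij
    have h2 : ddet φ n (Fin n) (fun i => (1 : Matrix (Fin n) (Fin n) D) i) = 1 := mdet_one hneg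
    rw [h2] at h1
    change mdet φ (t.toMatrix.map j) = _
    rw [Matrix.TransvectionStruct.det, map_one, map_one, ← h1]
    unfold mdet
    congr 1
    funext k l
    by_cases hk : k = t.i
    · subst hk
      rw [update_self]
      simp only [Matrix.map_apply, Matrix.TransvectionStruct.toMatrix, Matrix.transvection,
        Matrix.add_apply, Matrix.single_apply, Pi.add_apply, Pi.smul_apply, smul_eq_mul,
        Matrix.one_apply, map_add]
      by_cases hl : t.j = l
      · subst hl; simp [t.hij]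
      · simp [hl, apply_ite j]
    · rw [update_of_ne hk]
      simp only [Matrix.TransvectionStruct.toMatrix, Matrix.transvection, Matrix.map_apply, Matrix.add_apply, Matrix.one_apply, Matrix.single_apply, map_add]
      have h3 : ¬ (t.i = k ∧ t.j = l) := fun h => hk h.1.symm
      simp only [apply_ite j, map_one, map_zero, h3, ↓reduceIte, add_zero]
  · intro P Q hP hQ ihP ihQ
    have hPu : IsUnit (P.map j) := by
      have : IsUnit P := (Matrix.isUnit_iff_isUnit_det P).mpr (isUnit_iff_ne_zero.mpr hP)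
      exact this.map (RingHom.mapMatrix j)
    change mdet φ ((P * Q).map j) = _
    rw [Matrix.map_mul, mdet_mul hneg hPu, Matrix.det_mul, map_mul, map_mul]
    exact congrArg₂ _ ihP ihQ

end

end Vale.Agent.P011S

end

section
/-!
Involutions of the second kind on a matrix algebra over a division algebra fix, up to
conjugation, the first matrix unit.
-/

set_option linter.unusedSectionVars false
set_option linter.unusedSimpArgs false

open Matrix

namespace Vale.Agent.P011S

variable {Δ : Type} [DivisionRing Δ] {n : ℕ} [NeZero n]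

/-- the first matrix unit -/
def eU (n : ℕ) (Δ : Type) [DivisionRing Δ] [NeZero n] : Matrix (Fin n) (Fin n) Δ :=
  Matrix.single 0 0 1

theorem eU_mul_self : eU n Δ * eU n Δ = eU n Δ := by
  rw [eU, Matrix.single_mul_single_same, one_mul]

theorem eU_ne_zero : eU n Δ ≠ 0 := by
  intro h
  have := congrFun (congrFun h 0) 0
  rw [eU, Matrix.single_apply_same] at this
  exact one_ne_zero this

/-- `1 + t` with `t ^ 2 = 0` as a unit -/
def nilU (t : Matrix (Fin n) (Fin n) Δ) (ht : t * t = 0) : (Matrix (Fin n) (Fin n) Δ)ˣ where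
  val := 1 + t
  inv := 1 - t
  val_inv := by rw [add_mul, mul_sub, mul_sub, ht]; simp
  inv_val := by rw [sub_mul, mul_add, mul_add, ht]; simp

theorem exists_gl_col_aux (x : Matrix (Fin n) (Fin n) Δ) (hx : x * eU n Δ = x)
    (h0 : x 0 0 ≠ 0) : ∃ g : (Matrix (Fin n) (Fin n) Δ)ˣ,
      (g : Matrix (Fin n) (Fin n) Δ) * eU n Δ = x := by
  obtain ⟨x1, hx1⟩ : ∃ x1, x1 = x * Matrix.single 0 0 (x 0 0)⁻¹ := ⟨_, rfl⟩
  have h1 : x1 * eU n Δ = x1 := by
    rw [hx1, eU, mul_assoc, Matrix.single_mul_single_same, mul_one]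
  have h2 : eU n Δ * x1 = eU n Δ := by
    rw [hx1, ← mul_assoc]
    ext i j
    by_cases hj : j = 0
    · subst hj
      rw [Matrix.mul_single_apply_same]
      by_cases hi : i = 0
      · subst hi
        rw [eU, Matrix.single_mul_apply_same, one_mul, mul_inv_cancel₀ h0,
          Matrix.single_apply_same]
      · rw [eU, Matrix.single_mul_apply_of_ne _ _ _ _ _ hi, zero_mul,
          Matrix.single_apply_of_row_ne (Ne.symm hi)]
    · rw [Matrix.mul_single_apply_of_ne _ _ _ _ _ hj, eU,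
        Matrix.single_apply_of_col_ne _ _ (Ne.symm hj)]
  have h3 : (x1 - eU n Δ) * (x1 - eU n Δ) = 0 := by
    have h4 : x1 * x1 = x1 := by
      calc x1 * x1 = x1 * (eU n Δ * x1) := by rw [← mul_assoc, h1]
        _ = x1 := by rw [h2, h1]
    rw [mul_sub, sub_mul, sub_mul, h4, h1, h2, eU_mul_self]
    simp
  refine ⟨nilU _ h3 * dgU 0 (Units.mk0 _ h0), ?_⟩
  have h5 : ((dgU 0 (Units.mk0 _ h0) : (Matrix (Fin n) (Fin n) Δ)ˣ) :
      Matrix (Fin n) (Fin n) Δ) * eU n Δ =
      Matrix.single 0 0 (x 0 0) := by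
    rw [dgU_val, Units.val_mk0]
    ext i j
    rw [Matrix.diagonal_mul, eU, Matrix.single_apply, Matrix.single_apply]
    by_cases hi : 0 = i
    · subst hi; simp only [Function.update_self, true_and, mul_ite, mul_one, mul_zero]
    · simp [hi]
  have h6 : x1 * Matrix.single 0 0 (x 0 0) = x := by
    rw [hx1, mul_assoc, Matrix.single_mul_single_same, inv_mul_cancel₀ h0]
    exact hx
  have h7 : eU n Δ * Matrix.single 0 0 (x 0 0) = Matrix.single 0 0 (x 0 0) := by
    rw [eU, Matrix.single_mul_single_same, one_mul]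
  rw [Units.val_mul, mul_assoc, h5]
  change (1 + (x1 - eU n Δ)) * _ = x
  rw [add_mul, sub_mul, one_mul, h6, h7]
  abel

theorem exists_gl_col (x : Matrix (Fin n) (Fin n) Δ) (hx : x * eU n Δ = x) (hx0 : x ≠ 0) :
    ∃ g : (Matrix (Fin n) (Fin n) Δ)ˣ, (g : Matrix (Fin n) (Fin n) Δ) * eU n Δ = x := by
  by_cases h0 : x 0 0 = 0
  · obtain ⟨i, hi⟩ : ∃ i, x i 0 ≠ 0 := by
      by_contra hcon
      push Not at hcon
      apply hx0
      rw [← hx]
      ext i j
      by_cases hj : j = 0
      · subst hj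
        rw [eU, Matrix.mul_single_apply_same, hcon, zero_mul]; rfl
      · rw [eU, Matrix.mul_single_apply_of_ne _ _ _ _ _ hj]; rfl
    have hi0 : (0 : Fin n) ≠ i := by rintro rfl; exact hi h0
    obtain ⟨T, hT⟩ : ∃ T : (Matrix (Fin n) (Fin n) Δ)ˣ, T = tvU 0 i hi0 1 := ⟨_, rfl⟩
    have h1 : ((T : Matrix (Fin n) (Fin n) Δ) * x) 0 0 ≠ 0 := by
      rw [hT]
      change (((1 + Matrix.single 0 i 1 : Matrix (Fin n) (Fin n) Δ)) * x) 0 0 ≠ 0
      rw [add_mul, one_mul, Matrix.add_apply, h0, zero_add, Matrix.single_mul_apply_same, one_mul]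
      exact hi
    obtain ⟨g, hg⟩ := exists_gl_col_aux ((T : Matrix (Fin n) (Fin n) Δ) * x)
      (by rw [mul_assoc, hx]) h1
    refine ⟨T⁻¹ * g, ?_⟩
    rw [Units.val_mul, mul_assoc, hg, Units.inv_mul_cancel_left]
  · exact exists_gl_col_aux x hx h0

theorem exists_gl (x z : Matrix (Fin n) (Fin n) Δ) (hx : x * eU n Δ = x) (hz : eU n Δ * z = z)
    (hzx : z * x = eU n Δ) : ∃ C : (Matrix (Fin n) (Fin n) Δ)ˣ,
      (C : Matrix (Fin n) (Fin n) Δ) * eU n Δ = x ∧
      eU n Δ * ((C⁻¹ : (Matrix (Fin n) (Fin n) Δ)ˣ) : Matrix (Fin n) (Fin n) Δ) = z := by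
  have hx0 : x ≠ 0 := by
    rintro rfl
    rw [mul_zero] at hzx
    exact eU_ne_zero hzx.symm
  obtain ⟨g, hg⟩ := exists_gl_col x hx hx0
  obtain ⟨z', hz'⟩ : ∃ z', z' = z * (g : Matrix (Fin n) (Fin n) Δ) := ⟨_, rfl⟩
  have h1 : eU n Δ * z' = z' := by rw [hz', ← mul_assoc, hz]
  have h2 : z' * eU n Δ = eU n Δ := by rw [hz', mul_assoc, hg, hzx]
  have h3 : z' * z' = z' := by
    calc z' * z' = z' * (eU n Δ * z') := by rw [h1]
      _ = z' := by rw [← mul_assoc, h2, h1]
  have h4 : (z' - eU n Δ) * (z' - eU n Δ) = 0 := by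
    rw [mul_sub, sub_mul, sub_mul, h3, h1, h2, eU_mul_self]
    simp
  refine ⟨g * (nilU _ h4)⁻¹, ?_, ?_⟩
  · have h5 : (((nilU _ h4)⁻¹ : (Matrix (Fin n) (Fin n) Δ)ˣ) : Matrix (Fin n) (Fin n) Δ) *
        eU n Δ = eU n Δ := by
      change (1 - (z' - eU n Δ)) * eU n Δ = eU n Δ
      rw [sub_mul, sub_mul, h2, eU_mul_self, one_mul]
      abel
    rw [Units.val_mul, mul_assoc, h5, hg]
  · have h5 : eU n Δ * ((nilU _ h4 : (Matrix (Fin n) (Fin n) Δ)ˣ) : Matrix (Fin n) (Fin n) Δ) =
        z' := by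
      change eU n Δ * (1 + (z' - eU n Δ)) = z'
      rw [mul_add, mul_sub, h1, eU_mul_self, mul_one]
      abel
    rw [_root_.mul_inv_rev, inv_inv, Units.val_mul, ← mul_assoc, h5, hz', mul_assoc, Units.mul_inv,
      mul_one]

/-- a symmetric idempotent conjugate to the first matrix unit -/
theorem exists_sym (s : Matrix (Fin n) (Fin n) Δ → Matrix (Fin n) (Fin n) Δ)
    (hadd : ∀ x y, s (x + y) = s x + s y) (hmul : ∀ x y, s (x * y) = s y * s x)
    (hss : ∀ x, s (s x) = x) (ζ : Matrix (Fin n) (Fin n) Δ) (hζ : ∀ x, ζ * x = x * ζ)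
    (hζs : s ζ = -ζ) (hζu : IsUnit ζ) (h2 : (2 : Δ) ≠ 0) :
    ∃ C : (Matrix (Fin n) (Fin n) Δ)ˣ,
      s ((C : Matrix (Fin n) (Fin n) Δ) * eU n Δ *
        ((C⁻¹ : (Matrix (Fin n) (Fin n) Δ)ˣ) : Matrix (Fin n) (Fin n) Δ)) =
      (C : Matrix (Fin n) (Fin n) Δ) * eU n Δ *
        ((C⁻¹ : (Matrix (Fin n) (Fin n) Δ)ˣ) : Matrix (Fin n) (Fin n) Δ) := by
  have hs0 : s 0 = 0 := by
    have := hadd 0 0
    rw [add_zero] at this
    exact left_eq_add.mp this
  obtain ⟨e', he'⟩ : ∃ e', e' = s (eU n Δ) := ⟨_, rfl⟩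
  have he'e' : e' * e' = e' := by rw [he', ← hmul, eU_mul_self]
  have he'0 : e' ≠ 0 := by
    intro h
    rw [h] at he'
    have := congrArg s he'
    rw [hs0, hss] at this
    exact eU_ne_zero this.symm
  obtain ⟨y, hy, hy0⟩ : ∃ y, y * eU n Δ = y ∧ s y * y ≠ 0 := by
    by_contra hcon
    push Not at hcon
    have k1 : ∀ y z, y * eU n Δ = y → z * eU n Δ = z → s y * z + s z * y = 0 := by
      intro y z hy hz
      have h := hcon (y + z) (by rw [add_mul, hy, hz])
      rw [hadd, add_mul, mul_add, mul_add, hcon y hy, hcon z hz, zero_add, add_zero] at h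
      exact h
    have k2 : ∀ y z, y * eU n Δ = y → z * eU n Δ = z → s y * z = 0 := by
      intro y z hy hz
      have h1 := k1 y z hy hz
      have h2' := k1 (ζ * y) z (by rw [mul_assoc, hy]) hz
      rw [hmul, hζs, mul_neg, neg_mul, ← hζ, ← mul_assoc, ← hζ, mul_assoc, mul_assoc] at h2'
      have h3 : ζ * (s z * y - s y * z) = 0 := by
        rw [mul_sub, ← h2']
        abel
      have h4 : s z * y - s y * z = 0 := by
        obtain ⟨Z, rfl⟩ := hζu
        have := congrArg (fun w => ((Z⁻¹ : (Matrix (Fin n) (Fin n) Δ)ˣ) :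
          Matrix (Fin n) (Fin n) Δ) * w) h3
        simpa only [Units.inv_mul_cancel_left, mul_zero] using this
      have h5 : s y * z + s y * z = 0 := by
        rw [sub_eq_zero] at h4
        rw [h4] at h1
        exact h1
      ext i j
      have h6 := congrFun (congrFun h5 i) j
      rw [Matrix.add_apply, ← two_mul] at h6
      exact (mul_eq_zero.mp h6).resolve_left h2
    obtain ⟨i, j, hij⟩ : ∃ i j, e' i j ≠ 0 := by
      by_contra hcon'
      push Not at hcon'
      exact he'0 (by ext i j; exact hcon' i j)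
    have h := k2 (eU n Δ) (Matrix.single j 0 1) eU_mul_self (by
      rw [eU, Matrix.single_mul_single_same, one_mul])
    rw [← he'] at h
    have h7 := congrFun (congrFun h i) 0
    rw [Matrix.mul_single_apply_same, mul_one] at h7
    exact hij h7
  obtain ⟨u, hu⟩ : ∃ u, u = s y * y := ⟨_, rfl⟩
  rw [← hu] at hy0
  have hue : u * eU n Δ = u := by rw [hu, mul_assoc, hy]
  have hsu : s u = u := by rw [hu, hmul, hss]
  have he'u : e' * u = u := by
    have h := congrArg s hue
    rw [hmul, hsu, ← he'] at h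
    exact h
  obtain ⟨i, hi⟩ : ∃ i, u i 0 ≠ 0 := by
    by_contra hcon
    push Not at hcon
    apply hy0
    rw [← hue]
    ext i j
    by_cases hj : j = 0
    · subst hj
      rw [eU, Matrix.mul_single_apply_same, hcon, zero_mul]; rfl
    · rw [eU, Matrix.mul_single_apply_of_ne _ _ _ _ _ hj]; rfl
  obtain ⟨w1, hw1⟩ : ∃ w1 : Matrix (Fin n) (Fin n) Δ,
      w1 = Matrix.single 0 i (u i 0)⁻¹ := ⟨_, rfl⟩
  obtain ⟨w, hw⟩ : ∃ w : Matrix (Fin n) (Fin n) Δ, w = w1 * e' := ⟨_, rfl⟩
  have hwu : w * u = eU n Δ := by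
    have haux : w1 * u = w1 * u * eU n Δ := by rw [mul_assoc, hue]
    rw [hw, mul_assoc, he'u, haux, hw1]
    ext k l
    by_cases hl : l = 0
    · subst hl
      rw [eU, Matrix.mul_single_apply_same, mul_one]
      by_cases hk : k = 0
      · subst hk
        rw [Matrix.single_mul_apply_same, Matrix.single_apply_same, inv_mul_cancel₀ hi]
      · rw [Matrix.single_mul_apply_of_ne _ _ _ _ _ hk,
          Matrix.single_apply_of_row_ne (Ne.symm hk)]
    · rw [eU, Matrix.mul_single_apply_of_ne _ _ _ _ _ hl,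
        Matrix.single_apply_of_col_ne _ _ (Ne.symm hl)]
  have husw : u * s w = e' := by
    have h := congrArg s hwu
    rwa [hmul, hsu, ← he'] at h
  have hwe' : w * e' = w := by rw [hw, mul_assoc, he'e']
  have hw2 : w = eU n Δ * s w := by
    calc w = w * (u * s w) := by rw [husw, hwe']
      _ = eU n Δ * s w := by rw [← mul_assoc, hwu]
  have hsw : s w = w := by
    conv_lhs => rw [hw2, hmul, hss, ← he', hwe']
  have hew : eU n Δ * w = w := by
    conv_rhs => rw [hw2, hsw]
  obtain ⟨C, hC1, hC2⟩ := exists_gl y (w * s y) hy (by rw [← mul_assoc, hew])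
    (by rw [mul_assoc, ← hu, hwu])
  refine ⟨C, ?_⟩
  have h1 : (C : Matrix (Fin n) (Fin n) Δ) * eU n Δ *
      ((C⁻¹ : (Matrix (Fin n) (Fin n) Δ)ˣ) : Matrix (Fin n) (Fin n) Δ) = y * (w * s y) := by
    rw [← hC2, ← mul_assoc y, hy, ← hC1]
  rw [h1, hmul, hmul, hss, hsw, mul_assoc]

end Vale.Agent.P011S

end
end

section

section
set_option linter.unusedSectionVars false
set_option linter.unusedSimpArgs false

open Matrix

namespace Vale.Agent.P011S

/-- Formally positive star division ring: sums of hermitian squares vanish only trivially. -/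
class FormPos (D : Type) [DivisionRing D] [StarRing D] : Prop where
  eq_zero : ∀ (n : ℕ) (x : Fin n → D), ∑ i, star (x i) * x i = 0 → x = 0

variable {D : Type} [DivisionRing D] [StarRing D]
variable {ν κ ι : Type} [Fintype ν] [DecidableEq ν] [Fintype κ] [DecidableEq κ] [Fintype ι]
  [DecidableEq ι]

/-- Positive semidefinite matrices (in the formal sense). -/
def PSD (s : Matrix ν ν D) : Prop :=
  ∃ (n : ℕ) (x : Matrix (Fin n) ν D), s = xᴴ * x

/-- Positive definite matrices (in the formal sense). -/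
def PD (s : Matrix ν ν D) : Prop := PSD s ∧ IsUnit s

omit [Fintype ν] [DecidableEq ν] in
omit [DecidableEq ι] in
theorem PSD.of (x : Matrix ι ν D) : PSD (xᴴ * x) := by
  classical
  let e := Fintype.equivFin ι
  refine ⟨Fintype.card ι, x.submatrix e.symm id, ?_⟩
  ext i j
  simp only [Matrix.mul_apply, Matrix.conjTranspose_apply, Matrix.submatrix_apply, id]
  exact (Equiv.sum_comp e.symm (fun k => star (x k i) * x k j)).symm

omit [Fintype ν] [DecidableEq ν] in
theorem PSD.herm {s : Matrix ν ν D} (h : PSD s) : sᴴ = s := by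
  obtain ⟨n, x, rfl⟩ := h
  simp only [conjTranspose_mul, conjTranspose_conjTranspose]

omit [Fintype ν] [DecidableEq ν] in
theorem PSD.zero : PSD (0 : Matrix ν ν D) := ⟨0, 0, by simp only [conjTranspose_zero, Matrix.mul_zero]⟩

theorem PSD.one : PSD (1 : Matrix ν ν D) := by
  have := PSD.of (1 : Matrix ν ν D)
  simpa only [conjTranspose_one, mul_one] using this

omit [Fintype ν] [DecidableEq ν] in
theorem PSD.add {s t : Matrix ν ν D} (hs : PSD s) (ht : PSD t) : PSD (s + t) := by
  obtain ⟨n, x, rfl⟩ := hs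
  obtain ⟨m, y, rfl⟩ := ht
  have := PSD.of (Matrix.fromRows x y)
  rwa [Matrix.conjTranspose_fromRows_eq_fromCols_conjTranspose, Matrix.fromCols_mul_fromRows] at this

omit [Fintype ν] [DecidableEq ν] in
theorem PSD.sum {α : Type} {s : Finset α} {f : α → Matrix ν ν D} (h : ∀ a ∈ s, PSD (f a)) :
    PSD (∑ a ∈ s, f a) := by
  classical
  induction s using Finset.induction_on with
  | empty => simpa using PSD.zero
  | insert a s ha ih =>
    rw [Finset.sum_insert ha]
    exact (h a (Finset.mem_insert_self _ _)).add (ih fun b hb => h b (Finset.mem_insert_of_mem hb))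

omit [DecidableEq ν] [Fintype κ] [DecidableEq κ] in
theorem PSD.conj {s : Matrix ν ν D} (h : PSD s) (p : Matrix ν κ D) : PSD (pᴴ * s * p) := by
  obtain ⟨n, x, rfl⟩ := h
  have := PSD.of (x * p)
  rwa [Matrix.conjTranspose_mul, Matrix.mul_assoc, ← Matrix.mul_assoc xᴴ, ← Matrix.mul_assoc] at this

variable [CharZero D]

theorem star_rat_smul' (q : ℚ) (a : D) : star (q • a) = q • star a := by
  rw [Rat.smul_def, Rat.smul_def, star_mul, star_ratCast, Rat.cast_comm]

omit [Fintype ν] [DecidableEq ν] [Fintype κ] [DecidableEq κ] in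
theorem conjTranspose_rat_smul (q : ℚ) (a : Matrix ν κ D) : (q • a)ᴴ = q • aᴴ := by
  ext i j
  simp only [conjTranspose_apply, Matrix.smul_apply, star_rat_smul]

omit [Fintype ν] [DecidableEq ν] in
theorem PSD.nsmul {s : Matrix ν ν D} (h : PSD s) (n : ℕ) : PSD (n • s) := by
  induction n with
  | zero => simpa using PSD.zero
  | succ k ih => rw [succ_nsmul]; exact ih.add h

omit [Fintype ν] [DecidableEq ν] in
theorem PSD.smul {s : Matrix ν ν D} (h : PSD s) {q : ℚ} (hq : 0 ≤ q) : PSD (q • s) := by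
  obtain ⟨n, x, rfl⟩ := h
  have h1 : PSD (((q.den : ℚ)⁻¹ • x)ᴴ * ((q.den : ℚ)⁻¹ • x)) := PSD.of _
  have h2 := h1.nsmul (q.num.toNat * q.den)
  have h3 : (q.num.toNat * q.den) • (((q.den : ℚ)⁻¹ • x)ᴴ * ((q.den : ℚ)⁻¹ • x)) =
      q • (xᴴ * x) := by
    rw [conjTranspose_rat_smul, Matrix.smul_mul, Matrix.mul_smul, smul_smul,
      ← Nat.cast_smul_eq_nsmul ℚ, smul_smul]
    congr 1
    have hd : (q.den : ℚ) ≠ 0 := by exact_mod_cast q.den_ne_zero
    have hn : ((q.num.toNat : ℕ) : ℚ) = q.num := by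
      have : ((q.num.toNat : ℕ) : ℤ) = q.num := Int.toNat_of_nonneg (Rat.num_nonneg.mpr hq)
      exact_mod_cast this
    push_cast
    rw [hn]
    field_simp
    have := Rat.num_div_den q
    field_simp at this
    linarith only [this]
  rwa [h3] at h2

/-! ### Formal positivity and invertibility -/

omit [CharZero D] in
theorem eq_zero_of_conjTranspose_mul_self [FormPos D] {x : Matrix ι ν D} (h : xᴴ * x = 0) :
    x = 0 := by
  ext i j
  let e := Fintype.equivFin ι
  have h1 : ∑ k : Fin (Fintype.card ι), star (x (e.symm k) j) * x (e.symm k) j = 0 := by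
    have := congrFun (congrFun h j) j
    simp only [Matrix.mul_apply, Matrix.conjTranspose_apply, Matrix.zero_apply] at this
    rw [Equiv.sum_comp e.symm (fun k => star (x k j) * x k j)]
    exact this
  have h2 := FormPos.eq_zero _ (fun k => x (e.symm k) j) h1
  have h3 := congrFun h2 (e i)
  simpa using h3

theorem PSD.eq_zero_of_neg [FormPos D] {s : Matrix ν ν D} (h : PSD s) (h' : PSD (-s)) : s = 0 := by
  obtain ⟨n, x, rfl⟩ := h
  obtain ⟨m, y, hy⟩ := h'
  have h0 : (Matrix.fromRows x y)ᴴ * (Matrix.fromRows x y) = 0 := by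
    rw [Matrix.conjTranspose_fromRows_eq_fromCols_conjTranspose, Matrix.fromCols_mul_fromRows,
      ← hy]
    simp
  have h1 := eq_zero_of_conjTranspose_mul_self h0
  have h2 : x = 0 := by
    ext i j
    have := congrFun (congrFun h1 (Sum.inl i)) j
    simpa using this
  simp only [h2, conjTranspose_zero, Matrix.mul_zero]

variable [FiniteDimensional ℚ D]

theorem isUnit_of_left_inj (x : Matrix ν ν D) (h : ∀ w : Matrix ν ν D, x * w = 0 → w = 0) :
    IsUnit x := by
  have inj : Function.Injective (LinearMap.mulLeft ℚ x) := by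
    rw [injective_iff_map_eq_zero]
    intro w hw
    exact h w hw
  have surj := LinearMap.injective_iff_surjective.mp inj
  obtain ⟨y, hy⟩ := surj 1
  rw [LinearMap.mulLeft_apply] at hy
  have h2 : y * x = 1 := by
    have : x * (y * x - 1) = 0 := by
      rw [Matrix.mul_sub, ← Matrix.mul_assoc, hy]; simp
    exact sub_eq_zero.mp (h _ this)
  exact ⟨⟨x, y, hy, h2⟩, rfl⟩

theorem PD.add_PSD [FormPos D] {s t : Matrix ν ν D} (hs : PD s) (ht : PSD t) : PD (s + t) := by
  refine ⟨hs.1.add ht, ?_⟩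
  apply isUnit_of_left_inj
  intro w hw
  obtain ⟨n, x, hx⟩ := hs.1
  obtain ⟨m, y, hy⟩ := ht
  have h0 : (Matrix.fromRows (x * w) (y * w))ᴴ * (Matrix.fromRows (x * w) (y * w)) = 0 := by
    rw [Matrix.conjTranspose_fromRows_eq_fromCols_conjTranspose, Matrix.fromCols_mul_fromRows]
    have : wᴴ * ((s + t) * w) = 0 := by rw [hw]; simp
    rw [hx, hy] at this
    rw [← this]
    simp only [Matrix.conjTranspose_mul, Matrix.mul_assoc, Matrix.add_mul, Matrix.mul_add]
  have h1 := eq_zero_of_conjTranspose_mul_self h0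
  have h2 : x * w = 0 := by
    ext i j
    have := congrFun (congrFun h1 (Sum.inl i)) j
    simpa using this
  have h3 : s * w = 0 := by rw [hx, Matrix.mul_assoc, h2, Matrix.mul_zero]
  obtain ⟨u, hu⟩ := hs.2
  have : (↑u⁻¹ : Matrix ν ν D) * (s * w) = 0 := by rw [h3, Matrix.mul_zero]
  rwa [← hu, ← Matrix.mul_assoc, Units.inv_mul, Matrix.one_mul] at this

theorem PSD.add_PD [FormPos D] {s t : Matrix ν ν D} (hs : PSD s) (ht : PD t) : PD (s + t) := by
  rw [add_comm]; exact ht.add_PSD hs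

omit [FiniteDimensional ℚ D] [CharZero D] in
theorem PD.one : PD (1 : Matrix ν ν D) := ⟨PSD.one, isUnit_one⟩

omit [FiniteDimensional ℚ D] in
theorem PD.smul {s : Matrix ν ν D} (h : PD s) {q : ℚ} (hq : 0 < q) : PD (q • s) := by
  refine ⟨h.1.smul hq.le, ?_⟩
  obtain ⟨u, hu⟩ := h.2
  refine ⟨⟨q • s, q⁻¹ • (↑u⁻¹ : Matrix ν ν D), ?_, ?_⟩, rfl⟩
  · rw [Matrix.smul_mul, Matrix.mul_smul, smul_smul, ← hu, Units.mul_inv,
      mul_inv_cancel₀ hq.ne', one_smul]
  · rw [Matrix.smul_mul, Matrix.mul_smul, smul_smul, ← hu, Units.inv_mul,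
      inv_mul_cancel₀ hq.ne', one_smul]

omit [CharZero D] [FiniteDimensional ℚ D] in
theorem conjTranspose_units_inv (u : (Matrix ν ν D)ˣ) (h : (u : Matrix ν ν D)ᴴ = u) :
    (↑u⁻¹ : Matrix ν ν D)ᴴ = ↑u⁻¹ := by
  have h1 : (↑u⁻¹ : Matrix ν ν D)ᴴ * u = 1 := by
    conv_lhs => rw [← h]
    rw [← Matrix.conjTranspose_mul, Units.mul_inv, Matrix.conjTranspose_one]
  calc (↑u⁻¹ : Matrix ν ν D)ᴴ = (↑u⁻¹ : Matrix ν ν D)ᴴ * (u * ↑u⁻¹) := by
        rw [Units.mul_inv, Matrix.mul_one]
    _ = ↑u⁻¹ := by rw [← Matrix.mul_assoc, h1, Matrix.one_mul]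

omit [CharZero D] [FiniteDimensional ℚ D] in
theorem PSD.inv {u : (Matrix ν ν D)ˣ} (h : PSD (u : Matrix ν ν D)) :
    PSD (↑u⁻¹ : Matrix ν ν D) := by
  have h1 := h.conj (↑u⁻¹ : Matrix ν ν D)
  rwa [conjTranspose_units_inv u h.herm, Units.inv_mul, Matrix.one_mul] at h1

omit [CharZero D] [FiniteDimensional ℚ D] in
theorem PD.inv {u : (Matrix ν ν D)ˣ} (h : PD (u : Matrix ν ν D)) :
    PD (↑u⁻¹ : Matrix ν ν D) := ⟨h.1.inv, Units.isUnit _⟩

/-- inversion is antitone -/
theorem PSD.inv_antitone {x y xi yi : Matrix ν ν D} (x1 : x * xi = 1) (x2 : xi * x = 1)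
    (y1 : y * yi = 1) (y2 : yi * y = 1) (hx : PSD x)
    (hy : PSD y) (h : PSD (x - y)) :
    PSD (yi - xi) := by
  have hxi : xiᴴ = xi := conjTranspose_units_inv ⟨x, xi, x1, x2⟩ hx.herm
  have hyi : PSD yi := PSD.inv (u := ⟨y, yi, y1, y2⟩) hy
  have hd : (x - y)ᴴ = x - y := h.herm
  have h1 := h.conj xi
  have h2 := hyi.conj ((x - y) * xi)
  have h3 := h1.add h2
  convert h3 using 1
  rw [Matrix.conjTranspose_mul, hd, hxi]
  have a1 : (x - y) * xi = 1 - y * xi := by rw [Matrix.sub_mul, x1]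
  have a2 : xi * (x - y) = 1 - xi * y := by rw [Matrix.mul_sub, x2]
  have a3 : (1 - xi * y) * yi = yi - xi := by
    rw [Matrix.sub_mul, Matrix.one_mul, Matrix.mul_assoc, y1, Matrix.mul_one]
  have a4 : (yi - xi) * (1 - y * xi) = yi - xi - (1 - xi * y) * xi := by
    rw [Matrix.mul_sub, Matrix.mul_one, ← Matrix.mul_assoc, Matrix.sub_mul yi xi y, y2]
  rw [a2, a1, a3, a4]
  abel

/-! ### Order unit -/

theorem PSD.of_herm_sq {s : Matrix ν ν D} (h : sᴴ = s) : PSD (s * s) := by
  have := PSD.of s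
  rwa [h] at this

/-- every hermitian matrix is bounded by a multiple of a fixed PSD matrix -/
theorem exists_psd_bound : ∃ c : Matrix ν ν D, PSD c ∧
    ∀ s : Matrix ν ν D, sᴴ = s → ∃ N : ℕ, PSD ((N : ℚ) • c - s) := by
  classical
  obtain ⟨b, hbs, hspan, hli⟩ := exists_linearIndependent ℚ {s : Matrix ν ν D | PSD s}
  have hfin : b.Finite := hli.setFinite
  let t := hfin.toFinset
  refine ⟨∑ x ∈ t, x, PSD.sum fun x hx => hbs (hfin.mem_toFinset.mp hx), fun s hs => ?_⟩
  have hmem : s ∈ Submodule.span ℚ {s : Matrix ν ν D | PSD s} := by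
    have e : s = (1/4 : ℚ) • ((1 + s) * (1 + s)) - (1/4 : ℚ) • ((1 - s) * (1 - s)) := by
      rw [← smul_sub]
      have : (1 + s) * (1 + s) - (1 - s) * (1 - s) = (4 : ℚ) • s := by
        have h4 : (4 : ℚ) • s = (4 : ℕ) • s := by
          rw [← Nat.cast_smul_eq_nsmul ℚ]; norm_num
        rw [h4]
        noncomm_ring
      rw [this, smul_smul]; (clear b hbs hspan hli hfin t hs this; norm_num)
    rw [e]
    refine Submodule.sub_mem _ (Submodule.smul_mem _ _ (Submodule.subset_span ?_))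
      (Submodule.smul_mem _ _ (Submodule.subset_span ?_))
    · exact PSD.of_herm_sq (by rw [Matrix.conjTranspose_add, hs, Matrix.conjTranspose_one])
    · exact PSD.of_herm_sq (by rw [Matrix.conjTranspose_sub, hs, Matrix.conjTranspose_one])
  rw [← hspan] at hmem
  have hb : (b : Set (Matrix ν ν D)) = (t : Set (Matrix ν ν D)) := by simp [t]
  rw [hb, Submodule.mem_span_finset] at hmem
  obtain ⟨f, -, hf⟩ := hmem
  obtain ⟨N, hN⟩ : ∃ N : ℕ, ∀ x ∈ t, f x ≤ N := by
    refine ⟨∑ x ∈ t, ⌈|f x|⌉₊, fun x hx => ?_⟩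
    calc f x ≤ |f x| := le_abs_self _
      _ ≤ (⌈|f x|⌉₊ : ℚ) := Nat.le_ceil _
      _ ≤ ((∑ x ∈ t, ⌈|f x|⌉₊ : ℕ) : ℚ) := by
        exact_mod_cast Finset.single_le_sum (f := fun x => ⌈|f x|⌉₊) (fun _ _ => Nat.zero_le _) hx
  refine ⟨N, ?_⟩
  rw [← hf, Finset.smul_sum, ← Finset.sum_sub_distrib]
  refine PSD.sum fun x hx => ?_
  rw [← sub_smul]
  exact PSD.smul (hbs (hfin.mem_toFinset.mp hx)) (sub_nonneg.mpr (hN x hx))

/-- `1` is an order unit. -/
theorem exists_bound (s : Matrix ν ν D) (hs : sᴴ = s) :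
    ∃ N : ℕ, 0 < N ∧ PSD ((N : ℚ) • (1 : Matrix ν ν D) - s) := by
  obtain ⟨c, hc, hb⟩ := exists_psd_bound (D := D) (ν := ν)
  obtain ⟨N2, h2⟩ := hb (c * c) (by rw [Matrix.conjTranspose_mul, hc.herm])
  obtain ⟨N1, h1⟩ := hb s hs
  let M : ℚ := (N2 : ℚ) + 1
  have hM : 0 < M := by (clear * -; positivity)
  have h2' : PSD (M • c - c * c) := by
    have : M • c - c * c = ((N2 : ℚ) • c - c * c) + c := by
      simp only [M, add_smul, one_smul]; abel
    rw [this]; exact h2.add hc
  have h3 : PSD (M • (1 : Matrix ν ν D) - c) := by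
    have hsq : PSD ((M • (1 : Matrix ν ν D) - c) * (M • (1 : Matrix ν ν D) - c)) :=
      PSD.of_herm_sq (by
        rw [Matrix.conjTranspose_sub, conjTranspose_rat_smul, Matrix.conjTranspose_one, hc.herm])
    have hsum := (hsq.add h2').smul (inv_nonneg.mpr hM.le)
    convert hsum using 1
    have : (M • (1 : Matrix ν ν D) - c) * (M • (1 : Matrix ν ν D) - c) + (M • c - c * c)
        = M • (M • (1 : Matrix ν ν D) - c) := by
      rw [Matrix.sub_mul, Matrix.mul_sub, Matrix.mul_sub]
      simp only [Matrix.smul_mul, Matrix.mul_smul, Matrix.one_mul, Matrix.mul_one, smul_sub]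
      abel
    rw [this, smul_smul, inv_mul_cancel₀ hM.ne', one_smul]
  have h4 : PSD ((N1 * M) • (1 : Matrix ν ν D) - s) := by
    have := (h3.smul (q := (N1 : ℚ)) (by (clear * -; positivity))).add h1
    convert this using 1
    rw [smul_sub, smul_smul]; abel
  refine ⟨N1 * (N2 + 1) + 1, by (clear * -; positivity), ?_⟩
  have := h4.add (PSD.one (D := D) (ν := ν))
  convert this using 1
  simp only [M]
  push_cast
  rw [add_smul, one_smul]
  abel

theorem rat_smul_one_mul (q : ℚ) (a : Matrix ν ν D) : (q • (1 : Matrix ν ν D)) * a = q • a := by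
  rw [Matrix.smul_mul, Matrix.one_mul]

theorem PD.exists_inv {s : Matrix ν ν D} (h : PD s) :
    ∃ si : Matrix ν ν D, s * si = 1 ∧ si * s = 1 ∧ PD si := by
  obtain ⟨u, hu⟩ := h.2
  refine ⟨↑u⁻¹, by rw [← hu, Units.mul_inv], by rw [← hu, Units.inv_mul], ?_⟩
  apply PD.inv
  rwa [hu]

/-- a positive definite matrix is bounded below by a positive rational -/
theorem PD.exists_lower {a : Matrix ν ν D} (h : PD a) :
    ∃ ε : ℚ, 0 < ε ∧ PSD (a - ε • (1 : Matrix ν ν D)) := by
  obtain ⟨b, h1, h2, hb⟩ := h.exists_inv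
  obtain ⟨N, hN, hNb⟩ := exists_bound b hb.1.herm
  have hN' : (0 : ℚ) < N := by exact_mod_cast hN
  refine ⟨(N : ℚ)⁻¹, inv_pos.mpr hN', ?_⟩
  have := PSD.inv_antitone (x := (N : ℚ) • (1 : Matrix ν ν D)) (xi := (N : ℚ)⁻¹ • 1)
    (y := b) (yi := a) (by rw [rat_smul_one_mul, smul_smul, mul_inv_cancel₀ hN'.ne', one_smul])
    (by rw [rat_smul_one_mul, smul_smul, inv_mul_cancel₀ hN'.ne', one_smul]) h2 h1
    (PSD.one.smul hN'.le) hb.1 hNb
  exact this

theorem PD.of_lower [FormPos D] {a : Matrix ν ν D} {ε : ℚ} (hε : 0 < ε)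
    (h : PSD (a - ε • (1 : Matrix ν ν D))) : PD a := by
  have := h.add_PD (PD.one.smul hε)
  rwa [sub_add_cancel] at this

/-- comparison: `b` hermitian, `a` PD : `a - ε b` is PSD for small `ε`. -/
theorem PD.exists_upper {a : Matrix ν ν D} (h : PD a) (b : Matrix ν ν D) (hb : bᴴ = b) :
    ∃ N : ℕ, 0 < N ∧ PSD ((N : ℚ) • a - b) := by
  obtain ⟨ε, hε, h1⟩ := h.exists_lower
  obtain ⟨N, hN, h2⟩ := exists_bound b hb
  obtain ⟨M, hM⟩ := exists_nat_gt ((N : ℚ) / ε)
  have hN' : (0 : ℚ) < N := by exact_mod_cast hN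
  have hM0 : (0 : ℚ) < M := lt_trans (by positivity) hM
  refine ⟨M, by exact_mod_cast hM0, ?_⟩
  have hMN : (N : ℚ) ≤ M * ε := by
    rw [div_lt_iff₀ hε] at hM; exact hM.le
  have h3 := h1.smul (q := (M : ℚ)) hM0.le
  have h4 := (PSD.one (D := D) (ν := ν)).smul (q := M * ε - N) (by linarith only [hMN])
  have := (h3.add h4).add h2
  convert this using 1
  rw [smul_sub, smul_smul, sub_smul]
  abel

end Vale.Agent.P011S

end

section
set_option linter.unusedSectionVars false
set_option linter.unusedSimpArgs false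

open Matrix

namespace Vale.Agent.P011S

/-- reduction of the number of squares for a bilinear map over the rationals -/
theorem bilin_reduce {X Y : Type} [AddCommGroup X] [Module ℚ X] [AddCommGroup Y] [Module ℚ Y]
    (B : X →ₗ[ℚ] X →ₗ[ℚ] Y) {ι : Type} [Fintype ι] :
    ∀ (r : ℕ) (b : Fin r → X) (c : ι → Fin r → ℚ),
      ∃ (d : Fin r → ℚ) (y : Fin r → X), (∀ j, 0 ≤ d j) ∧
        ∑ i, B (∑ j, c i j • b j) (∑ j, c i j • b j) = ∑ j, d j • B (y j) (y j) := by
  intro r
  induction r with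
  | zero => intro b c; exact ⟨fun _ => 0, fun _ => 0, fun j => le_rfl, by simp⟩
  | succ r ih =>
    intro b c
    set d0 : ℚ := ∑ i, c i 0 ^ 2 with hd0
    have hd0nn : 0 ≤ d0 := Finset.sum_nonneg fun i _ => sq_nonneg _
    by_cases h0 : d0 = 0
    · have hc0 : ∀ i, c i 0 = 0 := by
        intro i
        have := (Finset.sum_eq_zero_iff_of_nonneg (fun i _ => sq_nonneg (c i 0))).mp h0 i
          (Finset.mem_univ i)
        exact pow_eq_zero_iff (two_ne_zero) |>.mp this
      obtain ⟨d, y, hd, hy⟩ := ih (fun j => b j.succ) (fun i j => c i j.succ)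
      refine ⟨Fin.cons 0 d, Fin.cons 0 y, ?_, ?_⟩
      · intro j
        refine Fin.cases ?_ (fun j => ?_) j
        · simp
        · simpa only [Fin.cons_succ] using hd j
      · rw [Fin.sum_univ_succ (f := fun j => (Fin.cons 0 d : Fin (r+1) → ℚ) j •
          B ((Fin.cons 0 y : Fin (r+1) → X) j) ((Fin.cons 0 y : Fin (r+1) → X) j))]
        simp only [Fin.cons_zero, zero_smul, Fin.cons_succ, zero_add]
        rw [← hy]
        refine Finset.sum_congr rfl fun i _ => ?_
        rw [Fin.sum_univ_succ, hc0 i, zero_smul, zero_add]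
    · set x : ι → X := fun i => ∑ j, c i j • b j with hx
      set y0 : X := ∑ i, (c i 0 / d0) • x i with hy0
      set e : Fin (r+1) → ℚ := fun j => ∑ i, (c i 0 / d0) * c i j with he
      have he0 : e 0 = 1 := by
        simp only [he]
        have : ∀ i, c i 0 / d0 * c i 0 = c i 0 ^ 2 / d0 := fun i => by ring
        simp only [this]
        rw [← Finset.sum_div, ← hd0, div_self h0]
      have hy0e : y0 = ∑ j, e j • b j := by
        simp only [hy0, hx, he, Finset.smul_sum, Finset.sum_smul, smul_smul]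
        exact Finset.sum_comm
      have hx' : ∀ i, x i - c i 0 • y0 = ∑ j : Fin r, (c i j.succ - c i 0 * e j.succ) • b j.succ := by
        intro i
        have : x i - c i 0 • y0 = ∑ j, (c i j - c i 0 * e j) • b j := by
          rw [hy0e, Finset.smul_sum, hx]
          simp only [sub_smul, smul_smul, Finset.sum_sub_distrib]
        rw [this, Fin.sum_univ_succ, he0]
        simp only [mul_one, sub_self, zero_smul, zero_add]
      obtain ⟨d, y, hd, hy⟩ := ih (fun j => b j.succ) (fun i j => c i j.succ - c i 0 * e j.succ)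
      refine ⟨Fin.cons d0 d, Fin.cons y0 y, ?_, ?_⟩
      · intro j
        refine Fin.cases ?_ (fun j => ?_) j
        · simpa only [Fin.cons_zero] using hd0nn
        · simpa only [Fin.cons_succ] using hd j
      · rw [Fin.sum_univ_succ (f := fun j => (Fin.cons d0 d : Fin (r+1) → ℚ) j •
          B ((Fin.cons y0 y : Fin (r+1) → X) j) ((Fin.cons y0 y : Fin (r+1) → X) j))]
        simp only [Fin.cons_zero, Fin.cons_succ]
        rw [← hy]
        simp only [← hx']
        have hs : ∑ i, c i 0 • x i = d0 • y0 := by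
          rw [hy0, Finset.smul_sum]
          refine Finset.sum_congr rfl fun i _ => ?_
          rw [smul_smul]; congr 1; (clear * - h0; field_simp)
        have e1 : ∑ i, c i 0 • B y0 (x i) = d0 • B y0 y0 := by
          have : ∑ i, c i 0 • B y0 (x i) = B y0 (∑ i, c i 0 • x i) := by simp only [map_sum, map_smul]
          rw [this, hs, map_smul]
        have e2 : ∑ i, c i 0 • B (x i) y0 = d0 • B y0 y0 := by
          have : ∑ i, c i 0 • B (x i) y0 = B (∑ i, c i 0 • x i) y0 := by
            simp only [map_sum, map_smul, LinearMap.sum_apply, LinearMap.smul_apply]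
          rw [this, hs, map_smul, LinearMap.smul_apply]
        have e3 : ∑ i, B (x i - c i 0 • y0) (x i - c i 0 • y0)
            = ∑ i, B (x i) (x i) - ∑ i, c i 0 • B y0 (x i) - ∑ i, c i 0 • B (x i) y0
              + ∑ i, (c i 0 ^ 2) • B y0 y0 := by
          rw [← Finset.sum_sub_distrib, ← Finset.sum_sub_distrib, ← Finset.sum_add_distrib]
          refine Finset.sum_congr rfl fun i _ => ?_
          simp only [map_sub, map_smul, LinearMap.sub_apply, LinearMap.smul_apply, smul_sub, pow_two, mul_smul]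
          abel
        rw [e3, e1, e2, ← Finset.sum_smul, ← hd0]
        abel

/-- every nonnegative rational is a sum of four rational squares -/
theorem rat_four_squares (q : ℚ) (hq : 0 ≤ q) : ∃ f : Fin 4 → ℚ, q = ∑ j, f j ^ 2 := by
  obtain ⟨a, b, c, d, h⟩ := Nat.sum_four_squares (q.num.toNat * q.den)
  have hd : (q.den : ℚ) ≠ 0 := by exact_mod_cast q.den_ne_zero
  refine ⟨![a / q.den, b / q.den, c / q.den, d / q.den], ?_⟩
  have hn : ((q.num.toNat : ℕ) : ℚ) = q.num := by
    have : ((q.num.toNat : ℕ) : ℤ) = q.num := Int.toNat_of_nonneg (Rat.num_nonneg.mpr hq)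
    exact_mod_cast this
  have h' : (a : ℚ)^2 + b^2 + c^2 + d^2 = q.num * q.den := by
    rw [← hn]; exact_mod_cast h
  have hq' : (q.num : ℚ) = q * q.den := by
    exact (Rat.mul_den_eq_num q).symm
  rw [Fin.sum_univ_four]
  simp only [Matrix.cons_val_zero, Matrix.cons_val_one, Matrix.cons_val]
  field_simp
  rw [hq'] at h'
  linarith only [h']

variable {D : Type} [DivisionRing D] [StarRing D]
variable {ν : Type} [Fintype ν] [DecidableEq ν] [CharZero D] [FiniteDimensional ℚ D]

/-- the rank one hermitian bilinear map -/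
def rankOne (ν D : Type) [DivisionRing D] [StarRing D] [CharZero D] :
    (ν → D) →ₗ[ℚ] (ν → D) →ₗ[ℚ] Matrix ν ν D :=
  LinearMap.mk₂ ℚ (fun v w => Matrix.vecMulVec (star v) w)
    (fun v v' w => by ext i j; simp [Matrix.vecMulVec, add_mul])
    (fun q v w => by ext i j; simp [Matrix.vecMulVec, star_rat_smul'])
    (fun v w w' => by ext i j; simp [Matrix.vecMulVec, mul_add])
    (fun q v w => by ext i j; simp [Matrix.vecMulVec])

theorem conjTranspose_mul_self_eq {ι : Type} [Fintype ι] (x : Matrix ι ν D) :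
    xᴴ * x = ∑ i, rankOne ν D (x i) (x i) := by
  ext a b
  rw [Matrix.mul_apply, Matrix.sum_apply]
  rfl

/-- every PSD matrix is a bounded number of hermitian squares -/
theorem PSD.exists_fin {s : Matrix ν ν D} (h : PSD s) {N : ℕ}
    (hN : 4 * (Fintype.card ν * Module.finrank ℚ D) ≤ N) : ∃ x : Matrix (Fin N) ν D, s = xᴴ * x := by
  obtain ⟨n, x, rfl⟩ := h
  set r := Module.finrank ℚ (ν → D) with hr
  have hr' : r = Fintype.card ν * Module.finrank ℚ D := by
    rw [hr, Module.finrank_pi_fintype]; simp only [Finset.sum_const, Finset.card_univ, smul_eq_mul]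
  let b : Module.Basis (Fin r) ℚ (ν → D) := Module.finBasis ℚ (ν → D)
  obtain ⟨d, y, hd, hy⟩ := bilin_reduce (rankOne ν D) r b (fun i j => b.repr (x i) j)
  simp only [b.sum_repr] at hy
  rw [conjTranspose_mul_self_eq, hy]
  choose f hf using fun j => rat_four_squares (d j) (hd j)
  have key : ∑ j, d j • rankOne ν D (y j) (y j)
      = ∑ p : Fin r × Fin 4, rankOne ν D (f p.1 p.2 • y p.1) (f p.1 p.2 • y p.1) := by
    rw [Fintype.sum_prod_type]
    refine Finset.sum_congr rfl fun j _ => ?_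
    simp only [map_smul, LinearMap.smul_apply, smul_smul]
    rw [← Finset.sum_smul]
    congr 1
    rw [hf j]
    exact Finset.sum_congr rfl fun i _ => by ring
  let z : Matrix (Fin r × Fin 4) ν D := Matrix.of fun p => f p.1 p.2 • y p.1
  have key2 : ∑ p : Fin r × Fin 4, rankOne ν D (f p.1 p.2 • y p.1) (f p.1 p.2 • y p.1) = zᴴ * z :=
    (conjTranspose_mul_self_eq z).symm
  rw [key, key2]
  -- now embed the index type `Fin r × Fin 4` in `Fin N`
  have hcard : Fintype.card (Fin r × Fin 4) ≤ N := by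
    simp only [Fintype.card_prod, Fintype.card_fin]
    rw [hr']; omega
  let em : (Fin r × Fin 4) ↪ Fin N :=
    ((Fintype.equivFin _).toEmbedding).trans (Fin.castLEEmb hcard)
  let w : Matrix (Fin N) ν D := Matrix.of fun i a => if h : ∃ p, em p = i then z h.choose a else 0
  have h1 : ∀ p a, w (em p) a = z p a := by
    intro p a
    have hex : ∃ p', em p' = em p := ⟨p, rfl⟩
    simp only [w, Matrix.of_apply]
    rw [dif_pos hex]
    congr 1
    exact em.injective hex.choose_spec
  have h0 : ∀ i a, (¬ ∃ p, em p = i) → w i a = 0 := by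
    intro i a hi
    simp only [w, Matrix.of_apply]
    rw [dif_neg hi]
  refine ⟨w, ?_⟩
  ext a b
  rw [Matrix.mul_apply, Matrix.mul_apply]
  simp only [Matrix.conjTranspose_apply]
  have h3 : ∑ p, star (z p a) * z p b
      = ∑ i ∈ Finset.univ.map em, star (w i a) * w i b := by
    rw [Finset.sum_map]
    exact Finset.sum_congr rfl fun p _ => by rw [h1, h1]
  rw [h3]
  refine Finset.sum_subset (Finset.subset_univ _) fun i _ hi => ?_
  have : ¬ ∃ p, em p = i := by
    rintro ⟨p, rfl⟩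
    exact hi (Finset.mem_map_of_mem _ (Finset.mem_univ _))
  rw [h0 i a this, star_zero, zero_mul]

end Vale.Agent.P011S

end

section
set_option linter.unusedSectionVars false
set_option linter.unusedSimpArgs false

open Matrix

namespace Vale.Agent.P011S

variable {D : Type} [DivisionRing D] [StarRing D]
variable {μ ν κ : Type} [Fintype μ] [DecidableEq μ] [Fintype ν] [DecidableEq ν]
  [Fintype κ] [DecidableEq κ]

theorem mem_UH {H : Matrix μ μ D} {g : (Matrix μ μ D)ˣ} :
    g ∈ UH H ↔ (g : Matrix μ μ D)ᴴ * H * (g : Matrix μ μ D) = H := Iff.rfl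

/-- the underlying matrix of an element of the unitary group -/
def mat {H : Matrix μ μ D} (g : UH H) : Matrix μ μ D := ((g : (Matrix μ μ D)ˣ) : Matrix μ μ D)

theorem mat_injective {H : Matrix μ μ D} : Function.Injective (mat (H := H)) := by
  intro a b h
  exact Subtype.ext (Units.ext h)

@[simp] theorem mat_mul {H : Matrix μ μ D} (a b : UH H) : mat (a * b) = mat a * mat b := rfl
@[simp] theorem mat_one {H : Matrix μ μ D} : mat (1 : UH H) = 1 := rfl
theorem mat_mul_inv {H : Matrix μ μ D} (a : UH H) : mat a * mat a⁻¹ = 1 := by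
  rw [← mat_mul, mul_inv_cancel]; rfl
theorem mat_inv_mul {H : Matrix μ μ D} (a : UH H) : mat a⁻¹ * mat a = 1 := by
  rw [← mat_mul, inv_mul_cancel]; rfl
theorem mat_unitary {H : Matrix μ μ D} (a : UH H) : (mat a)ᴴ * H * mat a = H := a.2

/-- Gram matrices are preserved. -/
theorem gram_mul {H : Matrix μ μ D} (g : UH H) (x : Matrix μ ν D) (y : Matrix μ κ D) :
    (mat g * x)ᴴ * H * (mat g * y) = xᴴ * H * y := by
  rw [Matrix.conjTranspose_mul]
  calc xᴴ * (mat g)ᴴ * H * (mat g * y) = xᴴ * ((mat g)ᴴ * H * mat g) * y := by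
        simp only [Matrix.mul_assoc]
    _ = xᴴ * H * y := by rw [mat_unitary]

theorem unitary_right {H : Matrix μ μ D} (g : UH H) (x : Matrix μ ν D) :
    (mat g * x)ᴴ * H = xᴴ * H * mat g⁻¹ := by
  have h1 := gram_mul g x (mat g⁻¹)
  rw [mat_mul_inv, Matrix.mul_one] at h1
  exact h1

/-- the basic unitary map attached to a frame `x` and an admissible `w` -/
def tm (H : Matrix μ μ D) (x : Matrix μ ν D) (w : Matrix ν ν D) : Matrix μ μ D :=
  1 - x * w * xᴴ * H

theorem tm_mul (H : Matrix μ μ D) (x : Matrix μ ν D) (w w' : Matrix ν ν D) :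
    tm H x w * tm H x w' = tm H x (w + w' - w * (xᴴ * H * x) * w') := by
  unfold tm
  rw [Matrix.mul_sub, Matrix.sub_mul, Matrix.sub_mul]
  simp only [Matrix.mul_add, Matrix.add_mul, Matrix.mul_sub, Matrix.sub_mul, Matrix.mul_one,
    Matrix.one_mul, Matrix.mul_assoc]
  abel

theorem tm_zero (H : Matrix μ μ D) (x : Matrix μ ν D) : tm H x 0 = 1 := by
  simp [tm]

/-- admissibility of `w` for the Gram matrix `G` -/
def Adm (G w : Matrix ν ν D) : Prop := w + wᴴ = w * G * wᴴ ∧ w + wᴴ = wᴴ * G * w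

/-- the element of the unitary group attached to a frame `x` and an admissible `w` -/
def tw (H : Matrix μ μ D) (hH : Hᴴ = H) (x : Matrix μ ν D) (w : Matrix ν ν D)
    (h : Adm (xᴴ * H * x) w) : UH H :=
  ⟨⟨tm H x w, tm H x wᴴ, by rw [tm_mul, ← h.1, sub_self, tm_zero],
    by rw [tm_mul, add_comm wᴴ w, ← h.2, sub_self, tm_zero]⟩, by
    rw [mem_UH]
    change (tm H x w)ᴴ * H * tm H x w = H
    have e : (tm H x w)ᴴ * H = H * tm H x wᴴ := by
      unfold tm
      simp only [Matrix.conjTranspose_sub, Matrix.conjTranspose_one, Matrix.conjTranspose_mul,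
        Matrix.conjTranspose_conjTranspose, hH, Matrix.sub_mul, Matrix.mul_sub, Matrix.one_mul,
        Matrix.mul_one, Matrix.mul_assoc]
    rw [e, Matrix.mul_assoc, tm_mul, add_comm wᴴ w, ← h.2, sub_self, tm_zero, Matrix.mul_one]⟩

@[simp] theorem mat_tw (H : Matrix μ μ D) (hH : Hᴴ = H) (x : Matrix μ ν D) (w : Matrix ν ν D)
    (h : Adm (xᴴ * H * x) w) : mat (tw H hH x w h) = tm H x w := rfl

theorem adm_of_gram_eq {x : Matrix μ ν D} {y : Matrix μ ν D} {H : Matrix μ μ D}
    {w : Matrix ν ν D} (h : Adm (xᴴ * H * x) w) (e : yᴴ * H * y = xᴴ * H * x) :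
    Adm (yᴴ * H * y) w := by rwa [e]

theorem adm_gmul {H : Matrix μ μ D} (g : UH H) {x : Matrix μ ν D}
    {w : Matrix ν ν D} (h : Adm (xᴴ * H * x) w) :
    Adm ((mat g * x)ᴴ * H * (mat g * x)) w := adm_of_gram_eq h (gram_mul g x x)

theorem tw_conj {H : Matrix μ μ D} (hH : Hᴴ = H) (g : UH H) {x : Matrix μ ν D}
    {w : Matrix ν ν D} (h : Adm (xᴴ * H * x) w) :
    g * tw H hH x w h * g⁻¹ = tw H hH (mat g * x) w (adm_gmul g h) := by
  apply mat_injective
  simp only [mat_mul, mat_tw]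
  unfold tm
  rw [Matrix.mul_assoc (mat g * x * w), unitary_right, Matrix.mul_sub, Matrix.mul_one,
    Matrix.sub_mul, mat_mul_inv]
  simp only [Matrix.mul_assoc]

/-- vectors orthogonal to the frame are fixed -/
theorem tm_fix (H : Matrix μ μ D) (x : Matrix μ ν D) (w : Matrix ν ν D) (y : Matrix μ κ D)
    (h : xᴴ * H * y = 0) : tm H x w * y = y := by
  unfold tm
  rw [Matrix.sub_mul, Matrix.one_mul, Matrix.mul_assoc, Matrix.mul_assoc,
    ← Matrix.mul_assoc xᴴ, h]
  simp

/-- admissibility of the inverse of an accretive matrix -/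
theorem adm_inv {G : Matrix ν ν D} {Z W : Matrix ν ν D} (h1 : Z * W = 1) (h2 : W * Z = 1)
    (h : G = Z + Zᴴ) : Adm G W := by
  have h3 : Wᴴ * Zᴴ = 1 := by rw [← Matrix.conjTranspose_mul, h1, Matrix.conjTranspose_one]
  have h4 : Zᴴ * Wᴴ = 1 := by rw [← Matrix.conjTranspose_mul, h2, Matrix.conjTranspose_one]
  constructor
  · rw [h, Matrix.mul_add, Matrix.add_mul, h2, Matrix.one_mul, Matrix.mul_assoc, h4,
      Matrix.mul_one, add_comm]
  · rw [h, Matrix.mul_add, Matrix.add_mul, h3, Matrix.one_mul, Matrix.mul_assoc, h1,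
      Matrix.mul_one, add_comm]

/-- quasi-reflection -/
def qr (H : Matrix μ μ D) (hH : Hᴴ = H) (x : Matrix μ ν D) (Z : (Matrix ν ν D)ˣ)
    (h : xᴴ * H * x = (Z : Matrix ν ν D) + (Z : Matrix ν ν D)ᴴ) : UH H :=
  tw H hH x (↑Z⁻¹ : Matrix ν ν D) (adm_inv (Units.mul_inv Z) (Units.inv_mul Z) h)

@[simp] theorem mat_qr (H : Matrix μ μ D) (hH : Hᴴ = H) (x : Matrix μ ν D) (Z : (Matrix ν ν D)ˣ)
    (h : xᴴ * H * x = (Z : Matrix ν ν D) + (Z : Matrix ν ν D)ᴴ) :
    mat (qr H hH x Z h) = tm H x (↑Z⁻¹ : Matrix ν ν D) := rfl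

/-- the set of one-dimensional quasi-reflections -/
def qrSet (H : Matrix μ μ D) (hH : Hᴴ = H) : Set (UH H) :=
  {g | ∃ (v : Matrix μ Unit D) (Z : (Matrix Unit Unit D)ˣ)
    (h : vᴴ * H * v = (Z : Matrix Unit Unit D) + (Z : Matrix Unit Unit D)ᴴ), g = qr H hH v Z h}

end Vale.Agent.P011S

end

section
set_option linter.unusedSectionVars false
set_option linter.unusedSimpArgs false

open Matrix

namespace Vale.Agent.P011S

variable {D : Type} [DivisionRing D] [StarRing D]
variable {μ ν κ : Type} [Fintype μ] [DecidableEq μ] [Fintype ν] [DecidableEq ν]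
  [Fintype κ] [DecidableEq κ]

theorem isUnit_unit_matrix {z : Matrix Unit Unit D} (h : z ≠ 0) : IsUnit z := by
  have hz : z () () ≠ 0 := by
    intro h0
    apply h
    ext i j
    exact h0
  refine ⟨⟨z, Matrix.of fun _ _ => (z () ())⁻¹, ?_, ?_⟩, rfl⟩
  · ext i j
    rw [Matrix.mul_apply]
    simp only [Finset.univ_unique, PUnit.default_eq_unit, of_apply, mul_inv_cancel₀ hz, Finset.sum_const, Finset.card_singleton, one_smul, one_apply_eq]
  · ext i j
    rw [Matrix.mul_apply]
    simp only [Finset.univ_unique, PUnit.default_eq_unit, of_apply, inv_mul_cancel₀ hz, Finset.sum_const, Finset.card_singleton, one_smul, one_apply_eq]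

/-- columns -/
def col (y : Matrix μ κ D) (j : κ) : Matrix μ Unit D := Matrix.of fun i _ => y i j

theorem mul_col (g : Matrix μ μ D) (y : Matrix μ κ D) (j : κ) : g * col y j = col (g * y) j := by
  ext i k
  simp only [col, Matrix.mul_apply, of_apply]

theorem eq_of_col {x y : Matrix μ κ D} (h : ∀ j, col x j = col y j) : x = y := by
  ext i j
  exact congrFun (congrFun (h j) i) ()

theorem gram_col (H : Matrix μ μ D) (x : Matrix μ κ D) (y : Matrix μ ν D) (i : κ) (j : ν) :
    ((col x i)ᴴ * H * col y j) () () = (xᴴ * H * y) i j := by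
  simp only [col, Matrix.mul_apply, conjTranspose_apply, of_apply]

variable [FormPos D] [CharZero D] [FiniteDimensional ℚ D]

/-- anisotropy of a positive definite form -/
theorem PD.aniso {H : Matrix μ μ D} (hH : PD H) {x : Matrix μ ν D} (h : xᴴ * H * x = 0) :
    x = 0 := by
  obtain ⟨n, a, ha⟩ := hH.1
  have h1 : (a * x)ᴴ * (a * x) = 0 := by
    rw [← h, ha, Matrix.conjTranspose_mul]
    simp only [Matrix.mul_assoc]
  have h2 := eq_zero_of_conjTranspose_mul_self h1
  obtain ⟨u, hu⟩ := hH.2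
  have h3 : H * x = 0 := by rw [ha, Matrix.mul_assoc, h2, Matrix.mul_zero]
  rw [← hu] at h3
  calc x = (↑u⁻¹ : Matrix μ μ D) * ((u : Matrix μ μ D) * x) := by
        rw [← Matrix.mul_assoc, Units.inv_mul, Matrix.one_mul]
    _ = 0 := by rw [h3, Matrix.mul_zero]

theorem PSD.gram {H : Matrix μ μ D} (hH : PSD H) (x : Matrix μ ν D) : PSD (xᴴ * H * x) :=
  hH.conj x

/-- anisotropic hermitian forms -/
structure An (H : Matrix μ μ D) : Prop where
  herm : Hᴴ = H
  anis : ∀ x : Matrix μ Unit D, xᴴ * H * x = 0 → x = 0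

theorem An.aniso {H : Matrix μ μ D} (hH : An H) {x : Matrix μ Unit D} (h : xᴴ * H * x = 0) :
    x = 0 := hH.anis x h

theorem PD.an {H : Matrix μ μ D} (hH : PD H) : An H := ⟨hH.1.herm, fun _ h => hH.aniso h⟩

/-- one quasi-reflection moving `a` to `b` and fixing what is orthogonal to `a - b`. -/
theorem exists_qr {H : Matrix μ μ D} (hH : An H) (a b : Matrix μ Unit D)
    (hab : aᴴ * H * a = bᴴ * H * b) :
    ∃ g ∈ Subgroup.closure (qrSet H hH.herm), mat g * a = b ∧
      ∀ y : Matrix μ Unit D, (a - b)ᴴ * H * y = 0 → mat g * y = y := by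
  by_cases h : a - b = 0
  · refine ⟨1, Subgroup.one_mem _, ?_, fun y _ => by simp⟩
    rw [sub_eq_zero] at h
    simp [h]
  · set w := a - b with hw
    set z := wᴴ * H * a with hz
    have hzz : wᴴ * H * w = z + zᴴ := by
      rw [hz, hw]
      simp only [Matrix.conjTranspose_sub, Matrix.conjTranspose_mul, hH.herm,
        Matrix.conjTranspose_conjTranspose, Matrix.sub_mul, Matrix.mul_sub, ← Matrix.mul_assoc,
        hab]
      abel
    have hz0 : z ≠ 0 := by
      intro h0
      rw [h0, Matrix.conjTranspose_zero, add_zero] at hzz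
      exact h (hH.aniso hzz)
    obtain ⟨Z, hZ⟩ := isUnit_unit_matrix hz0
    have hG : wᴴ * H * w = (Z : Matrix Unit Unit D) + (Z : Matrix Unit Unit D)ᴴ := by
      rw [hZ, hzz]
    refine ⟨qr H hH.herm w Z hG, Subgroup.subset_closure ⟨w, Z, hG, rfl⟩, ?_, ?_⟩
    · rw [mat_qr]
      unfold tm
      rw [Matrix.sub_mul, Matrix.one_mul]
      have : w * (↑Z⁻¹ : Matrix Unit Unit D) * wᴴ * H * a = w := by
        calc w * (↑Z⁻¹ : Matrix Unit Unit D) * wᴴ * H * a
            = w * ((↑Z⁻¹ : Matrix Unit Unit D) * (wᴴ * H * a)) := by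
              simp only [Matrix.mul_assoc]
          _ = w := by rw [← hz, ← hZ, Units.inv_mul, Matrix.mul_one]
      rw [this, hw]
      abel
    · intro y hy
      rw [mat_qr]
      exact tm_fix _ _ _ _ hy

/-- Witt's theorem, with generation by quasi-reflections. -/
theorem witt_fin {H : Matrix μ μ D} (hH : An H) : ∀ (c : ℕ) (x y : Matrix μ (Fin c) D),
    xᴴ * H * x = yᴴ * H * y →
    ∃ g ∈ Subgroup.closure (qrSet H hH.herm), mat g * x = y := by
  intro c
  induction c with
  | zero =>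
    intro x y _
    refine ⟨1, Subgroup.one_mem _, ?_⟩
    ext i j
    exact j.elim0
  | succ c ih =>
    intro x y hxy
    have hsub : (x.submatrix id Fin.succ)ᴴ * H * (x.submatrix id Fin.succ)
        = (y.submatrix id Fin.succ)ᴴ * H * (y.submatrix id Fin.succ) := by
      ext i j
      have := congrFun (congrFun hxy i.succ) j.succ
      simpa only [conjTranspose_submatrix, Matrix.mul_apply, submatrix_apply, id_eq, conjTranspose_apply] using this
    obtain ⟨g1, hg1, hg1x⟩ := ih _ _ hsub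
    have hcol1 : ∀ j : Fin c, col (mat g1 * x) j.succ = col y j.succ := by
      intro j
      ext i k
      have := congrFun (congrFun hg1x i) j
      simpa only [col, Matrix.mul_apply, of_apply, submatrix_apply, id_eq] using this
    have hg : (mat g1 * x)ᴴ * H * (mat g1 * x) = yᴴ * H * y := by rw [gram_mul, hxy]
    have hab : (col (mat g1 * x) 0)ᴴ * H * col (mat g1 * x) 0
        = (col y 0)ᴴ * H * col y 0 := by
      ext i j
      rw [show i = () from rfl, show j = () from rfl, gram_col, gram_col, hg]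
    obtain ⟨g2, hg2, h2a, h2fix⟩ := exists_qr hH _ _ hab
    refine ⟨g2 * g1, Subgroup.mul_mem _ hg2 hg1, ?_⟩
    rw [mat_mul, Matrix.mul_assoc]
    apply eq_of_col
    intro j
    rw [← mul_col]
    refine Fin.cases ?_ (fun j => ?_) j
    · exact h2a
    · rw [hcol1]
      apply h2fix
      rw [Matrix.conjTranspose_sub, Matrix.sub_mul, Matrix.sub_mul]
      rw [sub_eq_zero]
      conv_lhs => rw [← hcol1 j]
      ext i k
      rw [show i = () from rfl, show k = () from rfl, gram_col, gram_col, hg]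

theorem witt {H : Matrix μ μ D} (hH : An H) (x y : Matrix μ ν D)
    (h : xᴴ * H * x = yᴴ * H * y) :
    ∃ g ∈ Subgroup.closure (qrSet H hH.herm), mat g * x = y := by
  let e := Fintype.equivFin ν
  obtain ⟨g, hg, hgx⟩ := witt_fin hH (Fintype.card ν) (x.submatrix id e.symm)
    (y.submatrix id e.symm) (by
      ext i j
      have := congrFun (congrFun h (e.symm i)) (e.symm j)
      simpa only [conjTranspose_submatrix, Matrix.mul_apply, submatrix_apply, id_eq, conjTranspose_apply] using this)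
  refine ⟨g, hg, ?_⟩
  ext i j
  have := congrFun (congrFun hgx i) (e j)
  simpa only [Matrix.mul_apply, submatrix_apply, id_eq, Equiv.symm_apply_apply] using this

/-- the unitary group is generated by quasi-reflections -/
theorem closure_qrSet {H : Matrix μ μ D} (hH : An H) :
    Subgroup.closure (qrSet H hH.herm) = ⊤ := by
  rw [eq_top_iff]
  intro g _
  obtain ⟨g', hg', h⟩ := witt hH (1 : Matrix μ μ D) (mat g) (by
    rw [mat_unitary]; simp)
  rw [Matrix.mul_one] at h
  rwa [← mat_injective h]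

/-- There is room: orthogonally to `κ` given vectors one finds `ν`-frames with any PSD Gram
matrix, as long as `|κ| + |ν| ≤ R`. -/
def Room (H : Matrix μ μ D) (R : ℕ) : Prop :=
  ∀ (κ ν : Type) [Fintype κ] [DecidableEq κ] [Fintype ν] [DecidableEq ν],
    Fintype.card κ + Fintype.card ν ≤ R →
    ∀ (y : Matrix μ κ D) (s : Matrix ν ν D), PSD s →
      ∃ x : Matrix μ ν D, xᴴ * H * x = s ∧ yᴴ * H * x = 0

omit [FormPos D] [FiniteDimensional ℚ D] [CharZero D] in
theorem submatrix_gram {M : ℕ} {H : Matrix μ μ D} {e : Matrix μ (Fin M) D}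
    (he : eᴴ * H * e = 1) {α β : Type} [Fintype α] [Fintype β] [DecidableEq α] [DecidableEq β]
    (f : α → Fin M) (g : β → Fin M) :
    (e.submatrix id f)ᴴ * H * (e.submatrix id g) = (1 : Matrix (Fin M) (Fin M) D).submatrix f g := by
  rw [← he]
  ext i j
  simp only [conjTranspose_submatrix, Matrix.mul_apply, submatrix_apply, id_eq, conjTranspose_apply]

theorem room_of_frame_PD {H : Matrix μ μ D} (hH : PD H) {M : ℕ} (e : Matrix μ (Fin M) D)
    (he : eᴴ * H * e = 1) {R : ℕ} (hR : 4 * (R * Module.finrank ℚ D) ≤ M) : Room H R := by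
  intro κ ν _ _ _ _ hcard y s hs
  set d := Module.finrank ℚ D
  set N1 := 4 * (Fintype.card κ * d) with hN1
  set N2 := 4 * (Fintype.card ν * d) with hN2
  have hN : N1 + N2 ≤ M := by
    calc N1 + N2 = 4 * ((Fintype.card κ + Fintype.card ν) * d) := by rw [hN1, hN2]; ring
      _ ≤ 4 * (R * d) := by (clear * - hcard; gcongr)
      _ ≤ M := hR
  obtain ⟨y2, hy2⟩ := (hH.1.gram y).exists_fin (N := N1) le_rfl
  obtain ⟨x2, hx2⟩ := hs.exists_fin (N := N2) le_rfl
  let f1 : Fin N1 → Fin M := fun i => ⟨i, by omega⟩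
  let f2 : Fin N2 → Fin M := fun i => ⟨N1 + i, by omega⟩
  have h11 : (e.submatrix id f1)ᴴ * H * (e.submatrix id f1) = 1 := by
    rw [submatrix_gram he]
    ext i j
    simp only [Matrix.submatrix_apply, Matrix.one_apply, f1, Fin.ext_iff]
  have h22 : (e.submatrix id f2)ᴴ * H * (e.submatrix id f2) = 1 := by
    rw [submatrix_gram he]
    ext i j
    simp only [Matrix.submatrix_apply, Matrix.one_apply, f2, Fin.ext_iff, add_right_inj]
  have h12 : (e.submatrix id f1)ᴴ * H * (e.submatrix id f2) = 0 := by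
    rw [submatrix_gram he]
    ext i j
    simp only [Matrix.submatrix_apply, Matrix.one_apply, f1, f2, Fin.ext_iff, Matrix.zero_apply]
    rw [if_neg]
    omega
  set e1 := e.submatrix id f1
  set e2 := e.submatrix id f2
  obtain ⟨g, -, hg⟩ := witt hH.an (e1 * y2) y (by
    rw [hy2]
    calc (e1 * y2)ᴴ * H * (e1 * y2) = y2ᴴ * (e1ᴴ * H * e1) * y2 := by
          rw [Matrix.conjTranspose_mul]; simp only [Matrix.mul_assoc]
      _ = y2ᴴ * y2 := by rw [h11, Matrix.mul_one])
  refine ⟨mat g * (e2 * x2), ?_, ?_⟩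
  · rw [gram_mul, hx2]
    calc (e2 * x2)ᴴ * H * (e2 * x2) = x2ᴴ * (e2ᴴ * H * e2) * x2 := by
          rw [Matrix.conjTranspose_mul]; simp only [Matrix.mul_assoc]
      _ = x2ᴴ * x2 := by rw [h22, Matrix.mul_one]
  · rw [← hg, gram_mul]
    calc (e1 * y2)ᴴ * H * (e2 * x2) = y2ᴴ * (e1ᴴ * H * e2) * x2 := by
          rw [Matrix.conjTranspose_mul]; simp only [Matrix.mul_assoc]
      _ = 0 := by rw [h12]; simp

theorem room_one {M R : ℕ} (hR : 4 * (R * Module.finrank ℚ D) ≤ M) :
    Room (1 : Matrix (Fin M) (Fin M) D) R :=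
  room_of_frame_PD PD.one 1 (by simp only [conjTranspose_one, mul_one]) hR

/-- a form containing enough orthonormal vectors has room -/
theorem room_of_frame {H : Matrix μ μ D} (hH : Hᴴ = H) {M : ℕ} (e : Matrix μ (Fin M) D)
    (he : eᴴ * H * e = 1) {R : ℕ} (hR : 4 * (R * Module.finrank ℚ D) ≤ M) : Room H R := by
  intro κ ν _ _ _ _ hcard y s hs
  obtain ⟨x, hx, hy⟩ := room_one hR κ ν hcard (eᴴ * H * y) s hs
  rw [Matrix.mul_one] at hx hy
  refine ⟨e * x, ?_, ?_⟩
  · calc (e * x)ᴴ * H * (e * x) = xᴴ * (eᴴ * H * e) * x := by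
          rw [Matrix.conjTranspose_mul]; simp only [Matrix.mul_assoc]
      _ = s := by rw [he, Matrix.mul_one, hx]
  · calc yᴴ * H * (e * x) = (eᴴ * H * y)ᴴ * x := by
          simp only [Matrix.mul_assoc, conjTranspose_mul, hH, conjTranspose_conjTranspose]
      _ = 0 := hy

end Vale.Agent.P011S

end

section
set_option linter.unusedSectionVars false
set_option linter.unusedSimpArgs false

open Matrix

namespace Vale.Agent.P011S

variable {D : Type} [DivisionRing D] [StarRing D] [FormPos D] [CharZero D] [FiniteDimensional ℚ D]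
variable {μ ν κ : Type} [Fintype μ] [DecidableEq μ] [Fintype ν] [DecidableEq ν]
  [Fintype κ] [DecidableEq κ]

/-- class in the abelianization -/
abbrev Ab (H : Matrix μ μ D) : Type := Abelianization (UH H)

def cls {H : Matrix μ μ D} (g : UH H) : Ab H := Abelianization.of g

theorem cls_mul {H : Matrix μ μ D} (g h : UH H) : cls (g * h) = cls g * cls h :=
  map_mul Abelianization.of g h

theorem cls_one {H : Matrix μ μ D} : cls (1 : UH H) = 1 := map_one Abelianization.of

theorem cls_conj {H : Matrix μ μ D} (g h : UH H) : cls (g * h * g⁻¹) = cls h := by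
  unfold cls
  rw [map_mul, map_mul, map_inv, mul_comm (Abelianization.of g), mul_assoc, mul_inv_cancel, mul_one]

theorem cls_eq_one_iff {H : Matrix μ μ D} (g : UH H) : cls g = 1 ↔ g ∈ commutator (UH H) := by
  unfold cls
  rw [← MonoidHom.mem_ker, Abelianization.ker_of]

theorem cls_tw_eq {H : Matrix μ μ D} (hH : An H) {x y : Matrix μ ν D} {w : Matrix ν ν D}
    (hx : Adm (xᴴ * H * x) w) (hy : Adm (yᴴ * H * y) w) (h : xᴴ * H * x = yᴴ * H * y) :
    cls (tw H hH.herm x w hx) = cls (tw H hH.herm y w hy) := by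
  obtain ⟨g, -, hg⟩ := witt hH x y h
  have : tw H hH.herm y w hy = g * tw H hH.herm x w hx * g⁻¹ := by
    rw [tw_conj]
    apply mat_injective
    simp only [mat_tw, hg]
  rw [this, cls_conj]

open Classical in
/-- the class attached to a Gram matrix `G` and an admissible `w` -/
noncomputable def cl {H : Matrix μ μ D} (hH : An H) (G w : Matrix ν ν D) : Ab H :=
  if h : ∃ x : Matrix μ ν D, xᴴ * H * x = G ∧ Adm (xᴴ * H * x) w then
    cls (tw H hH.herm h.choose w h.choose_spec.2) else 1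

theorem cl_eq {H : Matrix μ μ D} (hH : An H) (x : Matrix μ ν D) (w : Matrix ν ν D)
    (hx : Adm (xᴴ * H * x) w) : cl hH (xᴴ * H * x) w = cls (tw H hH.herm x w hx) := by
  have h : ∃ x' : Matrix μ ν D, x'ᴴ * H * x' = xᴴ * H * x ∧ Adm (x'ᴴ * H * x') w := ⟨x, rfl, hx⟩
  unfold cl
  rw [dif_pos h]
  exact cls_tw_eq hH _ _ h.choose_spec.1

theorem cl_eq' {H : Matrix μ μ D} (hH : An H) {G : Matrix ν ν D} (x : Matrix μ ν D)
    (w : Matrix ν ν D)
    (hG : xᴴ * H * x = G) (hx : Adm G w) :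
    cl hH G w = cls (tw H hH.herm x w (by rwa [hG])) := by
  subst hG
  exact cl_eq hH x w hx

theorem Room.exists_frame {H : Matrix μ μ D} {R : ℕ} (hR : Room H R) (hν : Fintype.card ν ≤ R)
    {G : Matrix ν ν D} (hG : PSD G) : ∃ x : Matrix μ ν D, xᴴ * H * x = G := by
  obtain ⟨x, hx, -⟩ := hR Empty ν (by simpa only [Fintype.card_eq_zero, zero_add] using hν) (0 : Matrix μ Empty D) G hG
  exact ⟨x, hx⟩

/-- multiplicativity on a fixed frame -/
theorem cl_mul {H : Matrix μ μ D} (hH : An H) {R : ℕ} (hR : Room H R) (hν : Fintype.card ν ≤ R)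
    {G w w' : Matrix ν ν D} (hG : PSD G) (hw : Adm G w) (hw' : Adm G w')
    (hw'' : Adm G (w + w' - w * G * w')) :
    cl hH G w * cl hH G w' = cl hH G (w + w' - w * G * w') := by
  obtain ⟨x, hx⟩ := hR.exists_frame hν hG
  rw [cl_eq' hH x w hx hw, cl_eq' hH x w' hx hw', cl_eq' hH x _ hx hw'', ← cls_mul]
  congr 1
  apply mat_injective
  rw [mat_mul, mat_tw, mat_tw, mat_tw, tm_mul, hx]

theorem tm_congr (H : Matrix μ μ D) (x : Matrix μ ν D) (P : Matrix ν κ D) (w : Matrix κ κ D) :
    tm H (x * P) w = tm H x (P * w * Pᴴ) := by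
  unfold tm
  rw [Matrix.conjTranspose_mul]
  simp only [Matrix.mul_assoc]

theorem adm_congr {G : Matrix ν ν D} {P : Matrix ν κ D} {w : Matrix κ κ D}
    (h : Adm (Pᴴ * G * P) w) : Adm G (P * w * Pᴴ) := by
  constructor
  · calc P * w * Pᴴ + (P * w * Pᴴ)ᴴ = P * (w + wᴴ) * Pᴴ := by
          simp only [Matrix.mul_assoc, conjTranspose_mul, conjTranspose_conjTranspose, Matrix.mul_add, Matrix.add_mul]
      _ = P * w * Pᴴ * G * (P * w * Pᴴ)ᴴ := by
          rw [h.1]
          simp only [Matrix.conjTranspose_mul, Matrix.conjTranspose_conjTranspose, Matrix.mul_assoc]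
  · calc P * w * Pᴴ + (P * w * Pᴴ)ᴴ = P * (w + wᴴ) * Pᴴ := by
          simp only [Matrix.mul_assoc, conjTranspose_mul, conjTranspose_conjTranspose, Matrix.mul_add, Matrix.add_mul]
      _ = (P * w * Pᴴ)ᴴ * G * (P * w * Pᴴ) := by
          rw [h.2]
          simp only [Matrix.conjTranspose_mul, Matrix.conjTranspose_conjTranspose, Matrix.mul_assoc]

/-- change of frame -/
theorem cl_congr {H : Matrix μ μ D} (hH : An H) {R : ℕ} (hR : Room H R) (hν : Fintype.card ν ≤ R)
    {G : Matrix ν ν D} (hG : PSD G) (P : Matrix ν κ D) (w : Matrix κ κ D)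
    (h : Adm (Pᴴ * G * P) w) :
    cl hH (Pᴴ * G * P) w = cl hH G (P * w * Pᴴ) := by
  obtain ⟨x, hx⟩ := hR.exists_frame hν hG
  have e : (x * P)ᴴ * H * (x * P) = Pᴴ * G * P := by
    rw [← hx, Matrix.conjTranspose_mul]; simp only [Matrix.mul_assoc]
  rw [cl_eq' hH (x * P) w e h, cl_eq' hH x _ hx (adm_congr h)]
  congr 1
  apply mat_injective
  rw [mat_tw, mat_tw, tm_congr]

/-! ### Block relation -/

theorem block_prod {H : Matrix μ μ D} (x1 : Matrix μ ν D) (x2 : Matrix μ κ D)
    (p pi : Matrix ν ν D) (q : Matrix ν κ D) (r : Matrix κ ν D)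
    (ti : Matrix κ κ D) (hp : p * pi = 1)
    (h11 : x1ᴴ * H * x1 = p + pᴴ) (h21 : x2ᴴ * H * x1 = r + qᴴ) :
    tm H (x2 - x1 * (pi * q)) ti * tm H x1 pi =
      1 - x1 * pi * x1ᴴ * H - (x2 - x1 * (pi * q)) * ti * (x2ᴴ - r * pi * x1ᴴ) * H := by
  have hp' : piᴴ * pᴴ = 1 := by rw [← Matrix.conjTranspose_mul, hp, Matrix.conjTranspose_one]
  set x2' := x2 - x1 * (pi * q) with hx2'
  have e1 : x2'ᴴ * H * x1 = r - qᴴ * piᴴ * p := by
    rw [hx2', Matrix.conjTranspose_sub, Matrix.conjTranspose_mul, Matrix.conjTranspose_mul,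
      Matrix.sub_mul, Matrix.sub_mul, h21]
    have : qᴴ * piᴴ * x1ᴴ * H * x1 = qᴴ * piᴴ * (x1ᴴ * H * x1) := by
      simp only [Matrix.mul_assoc]
    rw [this, h11, Matrix.mul_add, Matrix.mul_assoc qᴴ piᴴ pᴴ, hp', Matrix.mul_one]
    abel
  have e2 : x2'ᴴ = x2ᴴ - qᴴ * piᴴ * x1ᴴ := by
    rw [hx2', Matrix.conjTranspose_sub, Matrix.conjTranspose_mul, Matrix.conjTranspose_mul]
  have e3 : x2' * ti * x2'ᴴ * H * (x1 * pi * x1ᴴ * H)
      = x2' * ti * ((r - qᴴ * piᴴ * p) * pi) * x1ᴴ * H := by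
    rw [← e1]; simp only [Matrix.mul_assoc]
  have e4 : (r - qᴴ * piᴴ * p) * pi = r * pi - qᴴ * piᴴ := by
    rw [Matrix.sub_mul, Matrix.mul_assoc (qᴴ * piᴴ), hp, Matrix.mul_one]
  unfold tm
  rw [Matrix.sub_mul, Matrix.one_mul, Matrix.mul_sub, Matrix.mul_one, e3, e4, e2]
  simp only [Matrix.mul_sub, Matrix.sub_mul, ← Matrix.mul_assoc]
  abel

theorem block_gram {H : Matrix μ μ D} (x1 : Matrix μ ν D) (x2 : Matrix μ κ D)
    (p pi : Matrix ν ν D) (q : Matrix ν κ D) (r : Matrix κ ν D)
    (s : Matrix κ κ D) (hp : p * pi = 1)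
    (h11 : x1ᴴ * H * x1 = p + pᴴ) (h12 : x1ᴴ * H * x2 = q + rᴴ) (h21 : x2ᴴ * H * x1 = r + qᴴ)
    (h22 : x2ᴴ * H * x2 = s + sᴴ) :
    (x2 - x1 * (pi * q))ᴴ * H * (x2 - x1 * (pi * q)) =
      (s - r * pi * q) + (s - r * pi * q)ᴴ := by
  have hp' : piᴴ * pᴴ = 1 := by rw [← Matrix.conjTranspose_mul, hp, Matrix.conjTranspose_one]
  have e : (x2 - x1 * (pi * q))ᴴ * H * (x2 - x1 * (pi * q))
      = x2ᴴ * H * x2 - x2ᴴ * H * x1 * (pi * q) - qᴴ * piᴴ * (x1ᴴ * H * x2)
        + qᴴ * piᴴ * (x1ᴴ * H * x1) * pi * q := by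
    rw [Matrix.conjTranspose_sub, Matrix.conjTranspose_mul, Matrix.conjTranspose_mul]
    simp only [Matrix.mul_sub, Matrix.sub_mul, ← Matrix.mul_assoc]
    abel
  rw [e, h11, h12, h21, h22]
  have e2 : qᴴ * piᴴ * (p + pᴴ) * pi * q = qᴴ * piᴴ * q + qᴴ * pi * q := by
    rw [Matrix.mul_add, Matrix.mul_assoc qᴴ piᴴ pᴴ, hp', Matrix.mul_one, Matrix.add_mul,
      Matrix.add_mul, Matrix.mul_assoc (qᴴ * piᴴ) p pi, hp, Matrix.mul_one]
  rw [e2]
  simp only [← Matrix.mul_assoc, Matrix.add_mul, Matrix.mul_add, conjTranspose_sub, conjTranspose_mul]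
  abel

/-- The class of an invertible accretive matrix. -/
noncomputable def fz {H : Matrix μ μ D} (hH : An H) (Z : Matrix ν ν D) : Ab H :=
  cl hH (Z + Zᴴ) (Ring.inverse Z)

theorem inverse_eq {Z W : Matrix ν ν D} (h1 : Z * W = 1) (h2 : W * Z = 1) :
    Ring.inverse Z = W := Ring.inverse_unit (⟨Z, W, h1, h2⟩ : (Matrix ν ν D)ˣ)

theorem adm_fz {Z W : Matrix ν ν D} (h1 : Z * W = 1) (h2 : W * Z = 1) :
    Adm (Z + Zᴴ) W := adm_inv h1 h2 rfl

theorem fz_eq {H : Matrix μ μ D} (hH : An H) {Z W : Matrix ν ν D} (h1 : Z * W = 1)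
    (h2 : W * Z = 1) (x : Matrix μ ν D) (hx : xᴴ * H * x = Z + Zᴴ) :
    fz hH Z = cls (tw H hH.herm x W (by rw [hx]; exact adm_fz h1 h2)) := by
  unfold fz
  rw [inverse_eq h1 h2, cl_eq' hH x W hx (adm_fz h1 h2)]

/-- the block relation `f(p) f(s - r p⁻¹ q) = f(s) f(p - q s⁻¹ r)` for a given frame -/
theorem fz_block_frame {H : Matrix μ μ D} (hH : An H)
    {p pi : Matrix ν ν D} {q : Matrix ν κ D} {r : Matrix κ ν D} {s si : Matrix κ κ D}
    {t ti : Matrix κ κ D} {w wi : Matrix ν ν D}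
    (hp : p * pi = 1) (hp' : pi * p = 1) (hs : s * si = 1) (hs' : si * s = 1)
    (ht : t * ti = 1) (ht' : ti * t = 1) (hw : w * wi = 1) (hw' : wi * w = 1)
    (et : t = s - r * pi * q) (ew : w = p - q * si * r)
    (x1 : Matrix μ ν D) (x2 : Matrix μ κ D)
    (h11 : x1ᴴ * H * x1 = p + pᴴ) (h12 : x1ᴴ * H * x2 = q + rᴴ) (h21 : x2ᴴ * H * x1 = r + qᴴ)
    (h22 : x2ᴴ * H * x2 = s + sᴴ) :
    fz hH p * fz hH t = fz hH s * fz hH w := by
  have g2 := block_gram (H := H) x1 x2 p pi q r s hp h11 h12 h21 h22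
  rw [← et] at g2
  have g1 := block_gram (H := H) x2 x1 s si r q p hs h22 h21 h12 h11
  rw [← ew] at g1
  rw [fz_eq hH hp hp' x1 h11, fz_eq hH ht ht' _ g2, fz_eq hH hs hs' x2 h22,
    fz_eq hH hw hw' _ g1, ← cls_mul, mul_comm (cls (tw _ _ x2 _ _)), ← cls_mul]
  have comm1 : cls (tw H hH.herm x1 pi (by rw [h11]; exact adm_fz hp hp') *
      tw H hH.herm (x2 - x1 * (pi * q)) ti (by rw [g2]; exact adm_fz ht ht')) =
      cls (tw H hH.herm (x2 - x1 * (pi * q)) ti (by rw [g2]; exact adm_fz ht ht') *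
        tw H hH.herm x1 pi (by rw [h11]; exact adm_fz hp hp')) := by
    rw [cls_mul, cls_mul, mul_comm]
  rw [comm1]
  congr 1
  apply mat_injective
  rw [mat_mul, mat_mul, mat_tw, mat_tw, mat_tw, mat_tw, block_prod x1 x2 p pi q r ti hp h11 h21,
    block_prod x2 x1 s si r q wi hs h22 h12]
  -- compare the two block inverses
  have hM1 : Matrix.fromBlocks p q r s * Matrix.fromBlocks (pi + pi * q * ti * r * pi)
      (-(pi * q * ti)) (-(ti * r * pi)) ti = 1 := by
    rw [Matrix.fromBlocks_multiply, ← Matrix.fromBlocks_one, Matrix.fromBlocks_inj]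
    refine ⟨?_, ?_, ?_, ?_⟩
    · rw [Matrix.mul_add, hp]
      have : p * (pi * q * ti * r * pi) = q * ti * r * pi := by
        simp only [← Matrix.mul_assoc]; rw [hp, Matrix.one_mul]
      rw [this, Matrix.mul_neg]
      simp only [← Matrix.mul_assoc]
      abel
    · rw [Matrix.mul_neg]
      simp only [← Matrix.mul_assoc]; rw [hp, Matrix.one_mul]
      abel
    · have : r * (pi + pi * q * ti * r * pi) + s * (-(ti * r * pi))
          = r * pi - (s - r * pi * q) * ti * r * pi := by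
        simp only [Matrix.mul_add, ← Matrix.mul_assoc, Matrix.mul_neg, Matrix.sub_mul]
        abel
      rw [this, ← et, ht, Matrix.one_mul, sub_self]
    · have : r * -(pi * q * ti) + s * ti = (s - r * pi * q) * ti := by
        simp only [Matrix.mul_neg, Matrix.sub_mul, ← Matrix.mul_assoc]
        abel
      rw [this, ← et, ht]
  have hM2 : Matrix.fromBlocks wi (-(wi * q * si)) (-(si * r * wi)) (si + si * r * wi * q * si)
      * Matrix.fromBlocks p q r s = 1 := by
    rw [Matrix.fromBlocks_multiply, ← Matrix.fromBlocks_one, Matrix.fromBlocks_inj]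
    refine ⟨?_, ?_, ?_, ?_⟩
    · have : wi * p + -(wi * q * si) * r = wi * (p - q * si * r) := by
        simp only [Matrix.neg_mul, Matrix.mul_sub, ← Matrix.mul_assoc]
        abel
      rw [this, ← ew, hw']
    · rw [Matrix.neg_mul, Matrix.mul_assoc _ si s, hs', Matrix.mul_one]
      abel
    · have : -(si * r * wi) * p + (si + si * r * wi * q * si) * r
          = si * r - si * r * (wi * (p - q * si * r)) := by
        simp only [Matrix.neg_mul, Matrix.add_mul, Matrix.mul_sub, ← Matrix.mul_assoc]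
        abel
      rw [this, ← ew, hw', Matrix.mul_one, sub_self]
    · have : -(si * r * wi) * q + (si + si * r * wi * q * si) * s
          = si * s + (si * r * wi * q * (si * s) - si * r * wi * q) := by
        simp only [Matrix.neg_mul, Matrix.add_mul, ← Matrix.mul_assoc]
        abel
      rw [this, hs', Matrix.mul_one, sub_self, add_zero]
  have hMM : Matrix.fromBlocks wi (-(wi * q * si)) (-(si * r * wi)) (si + si * r * wi * q * si)
      = Matrix.fromBlocks (pi + pi * q * ti * r * pi) (-(pi * q * ti)) (-(ti * r * pi)) ti := by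
    calc _ = Matrix.fromBlocks wi (-(wi * q * si)) (-(si * r * wi)) (si + si * r * wi * q * si) *
          (Matrix.fromBlocks p q r s * Matrix.fromBlocks (pi + pi * q * ti * r * pi)
      (-(pi * q * ti)) (-(ti * r * pi)) ti) := by rw [hM1, Matrix.mul_one]
      _ = _ := by rw [← Matrix.mul_assoc, hM2, Matrix.one_mul]
  rw [Matrix.fromBlocks_inj] at hMM
  obtain ⟨m1, m2, m3, m4⟩ := hMM
  have l1 : 1 - x1 * pi * x1ᴴ * H - (x2 - x1 * (pi * q)) * ti * (x2ᴴ - r * pi * x1ᴴ) * H
      = 1 - x1 * (pi + pi * q * ti * r * pi) * x1ᴴ * H - x1 * (-(pi * q * ti)) * x2ᴴ * H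
        - x2 * (-(ti * r * pi)) * x1ᴴ * H - x2 * ti * x2ᴴ * H := by
    simp only [← Matrix.mul_assoc, Matrix.sub_mul, Matrix.mul_sub, Matrix.mul_add, Matrix.add_mul, Matrix.mul_neg, Matrix.neg_mul]
    abel
  have l2 : 1 - x2 * si * x2ᴴ * H - (x1 - x2 * (si * r)) * wi * (x1ᴴ - q * si * x2ᴴ) * H
      = 1 - x1 * wi * x1ᴴ * H - x1 * (-(wi * q * si)) * x2ᴴ * H
        - x2 * (-(si * r * wi)) * x1ᴴ * H - x2 * (si + si * r * wi * q * si) * x2ᴴ * H := by
    simp only [Matrix.mul_sub, Matrix.sub_mul, Matrix.mul_add, Matrix.add_mul, Matrix.mul_neg,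
      Matrix.neg_mul, ← Matrix.mul_assoc]
    abel
  rw [l1, l2, m4, m2, m3, m1]

/-- the block relation `f(p) f(s - r p⁻¹ q) = f(s) f(p - q s⁻¹ r)` -/
theorem fz_block {H : Matrix μ μ D} (hH : An H) {R : ℕ} (hR : Room H R)
    (hνκ : Fintype.card ν + Fintype.card κ ≤ R)
    {p pi : Matrix ν ν D} {q : Matrix ν κ D} {r : Matrix κ ν D} {s si : Matrix κ κ D}
    {t ti : Matrix κ κ D} {w wi : Matrix ν ν D}
    (hp : p * pi = 1) (hp' : pi * p = 1) (hs : s * si = 1) (hs' : si * s = 1)
    (ht : t * ti = 1) (ht' : ti * t = 1) (hw : w * wi = 1) (hw' : wi * w = 1)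
    (et : t = s - r * pi * q) (ew : w = p - q * si * r)
    (hG : PSD (Matrix.fromBlocks (p + pᴴ) (q + rᴴ) (r + qᴴ) (s + sᴴ))) :
    fz hH p * fz hH t = fz hH s * fz hH w := by
  obtain ⟨x, hx⟩ := hR.exists_frame (ν := ν ⊕ κ) (by simpa only [Fintype.card_sum] using hνκ) hG
  have hx' : xᴴ * H * x = Matrix.fromBlocks (x.toCols₁ᴴ * H * x.toCols₁)
      (x.toCols₁ᴴ * H * x.toCols₂) (x.toCols₂ᴴ * H * x.toCols₁)
      (x.toCols₂ᴴ * H * x.toCols₂) := by
    conv_lhs => rw [← Matrix.fromCols_toCols x]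
    rw [Matrix.conjTranspose_fromCols_eq_fromRows_conjTranspose, Matrix.fromRows_mul,
      Matrix.fromRows_mul_fromCols]
  rw [hx', Matrix.fromBlocks_inj] at hx
  obtain ⟨h11, h12, h21, h22⟩ := hx
  exact fz_block_frame hH hp hp' hs hs' ht ht' hw hw' et ew _ _ h11 h12 h21 h22

end Vale.Agent.P011S

end

section
set_option linter.unusedSectionVars false
set_option linter.unusedSimpArgs false

open Matrix

namespace Vale.Agent.P011S

variable {D : Type} [DivisionRing D] [StarRing D]
variable {ν κ : Type} [Fintype ν] [DecidableEq ν] [Fintype κ] [DecidableEq κ]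

/-- positive elements of `D`: nonzero sums of hermitian squares -/
def Pos (c : D) : Prop := c ≠ 0 ∧ ∃ (n : ℕ) (y : Fin n → D), c = ∑ i, star (y i) * y i

/-- `g` is an isometry for the Gram matrix `G` -/
def IsU (G g : Matrix ν ν D) : Prop := gᴴ * G * g = G

theorem PSD.diagonal {c : ν → D} (h : ∀ i, ∃ (n : ℕ) (y : Fin n → D), c i = ∑ j, star (y j) * y j) :
    PSD (Matrix.diagonal c) := by
  choose n y hy using h
  let x : Matrix ((i : ν) × Fin (n i)) ν D := Matrix.of fun p j => if p.1 = j then y p.1 p.2 else 0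
  have := PSD.of x
  convert this using 1
  ext i j
  rw [Matrix.mul_apply]
  simp only [Matrix.conjTranspose_apply, x, Matrix.of_apply]
  rw [Fintype.sum_sigma]
  rw [Finset.sum_eq_single i]
  · by_cases hij : i = j
    · subst hij
      simp only [diagonal_apply_eq, hy i, ↓reduceIte]
    · simp only [ne_eq, hij, not_false_eq_true, diagonal_apply_ne, ↓reduceIte, mul_zero, Finset.sum_const_zero]
  · intro b _ hb
    apply Finset.sum_eq_zero
    intro k _
    simp [hb]
  · intro h; exact absurd (Finset.mem_univ _) h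

theorem PD.diagonal {c : ν → D} (h : ∀ i, Pos (c i)) : PD (Matrix.diagonal c) := by
  refine ⟨PSD.diagonal fun i => (h i).2, ⟨⟨Matrix.diagonal c, Matrix.diagonal fun i => (c i)⁻¹,
    ?_, ?_⟩, rfl⟩⟩
  · rw [Matrix.diagonal_mul_diagonal, ← Matrix.diagonal_one]
    congr 1; ext i; exact mul_inv_cancel₀ (h i).1
  · rw [Matrix.diagonal_mul_diagonal, ← Matrix.diagonal_one]
    congr 1; ext i; exact inv_mul_cancel₀ (h i).1

end Vale.Agent.P011S

end

section
/-!
Sums of hermitian squares in a division ring with involution.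
-/

namespace Vale.Agent.P011S

variable {D : Type*} [DivisionRing D] [StarRing D]

variable (D) in
/-- The additive submonoid of finite sums of hermitian squares `x * star x`. -/
def sos : AddSubmonoid D := AddSubmonoid.closure (Set.range fun x : D => x * star x)

theorem sos_mul_star (x : D) : x * star x ∈ sos D :=
  AddSubmonoid.subset_closure ⟨x, rfl⟩

theorem sos_star_mul (x : D) : star x * x ∈ sos D := by
  have := sos_mul_star (star x)
  rwa [star_star] at this

theorem sos_one : (1 : D) ∈ sos D := by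
  have := sos_mul_star (1 : D)
  simpa only [star_one, mul_one] using this

theorem sos_star {a : D} (ha : a ∈ sos D) : star a = a := by
  induction ha using AddSubmonoid.closure_induction with
  | mem x hx => obtain ⟨y, rfl⟩ := hx; simp only [star_mul, star_star]
  | zero => simp
  | add x y _ _ hx hy => simp [hx, hy]

theorem sos_conj {a : D} (ha : a ∈ sos D) (c : D) : c * a * star c ∈ sos D := by
  induction ha using AddSubmonoid.closure_induction with
  | mem x hx =>
    obtain ⟨y, rfl⟩ := hx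
    have := sos_mul_star (c * y)
    simpa only [mul_assoc, star_mul] using this
  | zero => simp only [mul_zero, zero_mul, zero_mem]
  | add x y _ _ hx hy =>
    rw [mul_add, add_mul]
    exact add_mem hx hy

theorem sos_conj' {a : D} (ha : a ∈ sos D) (c : D) : star c * a * c ∈ sos D := by
  have := sos_conj ha (star c)
  rwa [star_star] at this

theorem sos_inv {a : D} (ha : a ∈ sos D) : a⁻¹ ∈ sos D := by
  by_cases h0 : a = 0
  · simp [h0]
  have := sos_conj ha a⁻¹
  rw [star_inv₀, sos_star ha, inv_mul_cancel₀ h0, one_mul] at this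
  exact this

theorem sos_rat [CharZero D] {a : D} (ha : a ∈ sos D) {q : ℚ} (hq : 0 ≤ q) :
    (q : D) * a ∈ sos D := by
  have hd : (q.den : D) ≠ 0 := by exact_mod_cast q.den_nz
  have h1 : ((q.den : D)⁻¹) * a * star ((q.den : D)⁻¹) ∈ sos D := sos_conj ha _
  have h2 : (q.num.toNat * q.den) • (((q.den : D)⁻¹) * a * star ((q.den : D)⁻¹)) ∈ sos D :=
    AddSubmonoid.nsmul_mem _ h1 _
  have hn : (q.num.toNat : ℤ) = q.num := Int.toNat_of_nonneg (Rat.num_nonneg.mpr hq)
  have hq' : (q : D) = (q.num.toNat : D) * (q.den : D)⁻¹ := by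
    have h3 : (q.num : D) = ((q.num.toNat : ℤ) : D) := by rw [hn]
    rw [Rat.cast_def, h3, Int.cast_natCast, div_eq_mul_inv]
  convert h2 using 1
  rw [nsmul_eq_mul, hq']
  push_cast
  rw [star_inv₀, star_natCast]
  have hc : Commute (q.den : D) a := Nat.cast_commute _ _
  have hc1 : Commute (q.den : D)⁻¹ a := hc.inv_left₀
  have : (q.den : D)⁻¹ * a * (q.den : D)⁻¹ = (q.den : D)⁻¹ * ((q.den : D)⁻¹ * a) := by
    rw [mul_assoc, ← hc1.eq]
  rw [this]
  rw [mul_assoc, mul_assoc, mul_inv_cancel_left₀ hd]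

theorem sos_nat [CharZero D] (n : ℕ) : (n : D) ∈ sos D := by
  have := AddSubmonoid.nsmul_mem (sos D) (sos_one (D := D)) n
  simpa only [nsmul_eq_mul, mul_one] using this

theorem sos_ratCast [CharZero D] {q : ℚ} (hq : 0 ≤ q) : (q : D) ∈ sos D := by
  simpa using sos_rat (sos_one (D := D)) hq

end Vale.Agent.P011S

end

section
/-!
Archimedean properties of the cone of sums of hermitian squares.
-/

set_option linter.unusedSectionVars false

open Matrix Module

namespace Vale.Agent.P011S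

/-- The archimedean property of the cone of sums of hermitian squares. -/
def IsArch (D : Type*) [DivisionRing D] [StarRing D] [CharZero D] : Prop :=
  ∀ a : D, star a = a → ∀ k ∈ sos D, k ≠ 0 → ∃ q : ℚ, 0 < q ∧ (q : D) * k - a ∈ sos D

variable {D : Type} [DivisionRing D] [StarRing D]

theorem star_smul_rat [CharZero D] (q : ℚ) (x : D) : star (q • x) = q • star x :=
  star_rat_smul' q x

theorem PSD.sos {s : Matrix Unit Unit D} (h : PSD s) : s () () ∈ Vale.Agent.P011S.sos D := by
  obtain ⟨n, x, rfl⟩ := h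
  rw [Matrix.mul_apply]
  exact sum_mem fun i _ => sos_star_mul _

theorem psd_of_sos {a : D} (h : a ∈ Vale.Agent.P011S.sos D) :
    PSD (Matrix.of fun _ _ => a : Matrix Unit Unit D) := by
  induction h using AddSubmonoid.closure_induction with
  | mem x hx =>
    obtain ⟨y, rfl⟩ := hx
    have := PSD.of (Matrix.of fun _ _ => star y : Matrix Unit Unit D)
    convert this using 1
    ext i j
    simp only [of_apply, Matrix.mul_apply, Finset.univ_unique, PUnit.default_eq_unit, conjTranspose_apply, star_star, Finset.sum_const, Finset.card_singleton, one_smul]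
  | zero => exact PSD.zero
  | add x y _ _ hx hy =>
    have := hx.add hy
    convert this using 1
    ext i j
    simp

variable [FormPos D] [CharZero D] [FiniteDimensional ℚ D]

theorem arch {a : D} (ha : star a = a) {k : D} (hk : k ∈ sos D) (hk0 : k ≠ 0) :
    ∃ q : ℚ, 0 < q ∧ (q : D) * k - a ∈ sos D := by
  have hu : IsUnit (Matrix.of fun _ _ => k : Matrix Unit Unit D) :=
    isUnit_unit_matrix (fun h => hk0 (congrFun (congrFun h ()) ()))
  have hPD : PD (Matrix.of fun _ _ => k : Matrix Unit Unit D) := ⟨psd_of_sos hk, hu⟩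
  obtain ⟨N, hN, h1⟩ := hPD.exists_upper (Matrix.of fun _ _ => a) (by
    ext i j; simp [Matrix.conjTranspose_apply, ha])
  refine ⟨N, by exact_mod_cast hN, ?_⟩
  have h2 := h1.sos
  simp only [Matrix.sub_apply, Matrix.smul_apply, Matrix.of_apply] at h2
  rwa [Rat.smul_def] at h2

theorem isArch : IsArch D := fun _ ha _ hk hk0 => arch ha hk hk0

theorem bdd_sq (x : D) : ∃ q : ℚ, 0 < q ∧ (q : D) - x * star x ∈ sos D := by
  obtain ⟨q, hq, h⟩ := arch (a := x * star x) (by simp only [star_mul, star_star]) sos_one (one_ne_zero (α := D))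
  exact ⟨q, hq, by simpa only [mul_one] using h⟩

theorem sos_antisymm {a : D} (ha : a ∈ sos D) (ha' : -a ∈ sos D) : a = 0 := by
  have h1 := psd_of_sos ha
  have h2 := psd_of_sos ha'
  have h3 : (Matrix.of fun _ _ => -a : Matrix Unit Unit D)
      = -(Matrix.of fun _ _ => a : Matrix Unit Unit D) := by
    ext i j; simp
  rw [h3] at h2
  have h4 := PSD.eq_zero_of_neg h1 h2
  exact congrFun (congrFun h4 ()) ()

end Vale.Agent.P011S

end
end

section

section
set_option linter.unusedSectionVars false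
set_option linter.unusedSimpArgs false

open Matrix

namespace Vale.Agent.P011S

variable {D : Type} [DivisionRing D] [StarRing D] [FormPos D] [CharZero D] [FiniteDimensional ℚ D]
variable {μ ν κ : Type} [Fintype μ] [DecidableEq μ] [Fintype ν] [DecidableEq ν]
  [Fintype κ] [DecidableEq κ]

omit [FormPos D] [CharZero D] [FiniteDimensional ℚ D] in
theorem PSD.fromBlocks_diag {s : Matrix ν ν D} {t : Matrix κ κ D} (hs : PSD s) (ht : PSD t) :
    PSD (Matrix.fromBlocks s 0 0 t) := by
  obtain ⟨n, x, rfl⟩ := hs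
  obtain ⟨m, y, rfl⟩ := ht
  have := PSD.of (Matrix.fromBlocks x 0 0 y)
  rw [Matrix.fromBlocks_conjTranspose, Matrix.fromBlocks_multiply] at this
  simpa only [conjTranspose_zero, Matrix.mul_zero, add_zero, Matrix.zero_mul, zero_add] using this

omit [FormPos D] [CharZero D] [FiniteDimensional ℚ D] in
theorem PSD.schur11 {h11 h11i : Matrix ν ν D} {h12 : Matrix ν κ D} {h22 : Matrix κ κ D}
    (h1 : PSD h11) (e1 : h11 * h11i = 1) (e2 : h11i * h11 = 1)
    (hS : PSD (h22 - h12ᴴ * h11i * h12)) :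
    PSD (Matrix.fromBlocks h11 h12 h12ᴴ h22) := by
  have hi : h11iᴴ = h11i := conjTranspose_units_inv ⟨h11, h11i, e1, e2⟩ h1.herm
  have := (h1.fromBlocks_diag hS).conj
    (Matrix.fromBlocks (1 : Matrix ν ν D) (h11i * h12) 0 (1 : Matrix κ κ D))
  rw [Matrix.fromBlocks_conjTranspose, Matrix.fromBlocks_multiply, Matrix.fromBlocks_multiply]
    at this
  convert this using 2
  · simp only [conjTranspose_one, one_mul, conjTranspose_zero, Matrix.mul_zero, add_zero, mul_one, Matrix.zero_mul]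
  · simp only [Matrix.conjTranspose_one, Matrix.one_mul, Matrix.conjTranspose_zero,
      Matrix.zero_mul, Matrix.mul_zero, add_zero, Matrix.mul_one]
    rw [← Matrix.mul_assoc, e1, Matrix.one_mul]
  · simp only [Matrix.conjTranspose_one, Matrix.one_mul, Matrix.conjTranspose_mul,
      Matrix.zero_mul, Matrix.mul_zero, add_zero, Matrix.mul_one, hi]
    rw [Matrix.mul_assoc, e2, Matrix.mul_one]
  · simp only [Matrix.conjTranspose_one, Matrix.one_mul, Matrix.conjTranspose_mul,
      Matrix.zero_mul, Matrix.mul_zero, add_zero, zero_add, Matrix.mul_one, hi]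
    rw [Matrix.mul_assoc h12ᴴ h11i h11, e2, Matrix.mul_one, ← Matrix.mul_assoc]
    abel

omit [FormPos D] [CharZero D] [FiniteDimensional ℚ D] in
theorem PSD.schur22 {h11 : Matrix ν ν D} {h21 : Matrix κ ν D} {h22 h22i : Matrix κ κ D}
    (h2 : PSD h22) (e1 : h22 * h22i = 1) (e2 : h22i * h22 = 1)
    (hS : PSD (h11 - h21ᴴ * h22i * h21)) :
    PSD (Matrix.fromBlocks h11 h21ᴴ h21 h22) := by
  have hi : h22iᴴ = h22i := conjTranspose_units_inv ⟨h22, h22i, e1, e2⟩ h2.herm
  have := (hS.fromBlocks_diag h2).conj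
    (Matrix.fromBlocks (1 : Matrix ν ν D) 0 (h22i * h21) (1 : Matrix κ κ D))
  rw [Matrix.fromBlocks_conjTranspose, Matrix.fromBlocks_multiply, Matrix.fromBlocks_multiply]
    at this
  convert this using 2
  · simp only [Matrix.conjTranspose_one, Matrix.one_mul, Matrix.conjTranspose_mul,
      Matrix.zero_mul, Matrix.mul_zero, add_zero, zero_add, Matrix.mul_one, hi]
    rw [Matrix.mul_assoc h21ᴴ h22i h22, e2, Matrix.mul_one, ← Matrix.mul_assoc]
    abel
  · simp only [conjTranspose_one, Matrix.one_mul, conjTranspose_mul, hi, Matrix.mul_zero, add_zero, zero_add, Matrix.mul_one]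
    rw [Matrix.mul_assoc, e2, Matrix.mul_one]
  · simp only [Matrix.conjTranspose_one, Matrix.one_mul, Matrix.conjTranspose_zero,
      Matrix.zero_mul, Matrix.mul_zero, add_zero, zero_add, Matrix.mul_one]
    rw [← Matrix.mul_assoc, e1, Matrix.one_mul]
  · simp only [conjTranspose_zero, Matrix.zero_mul, conjTranspose_one, Matrix.mul_zero, add_zero, one_mul, zero_add, mul_one]

/-! ### Central skew elements -/

/-- being a sum of hermitian squares -/
def HSq (e : D) : Prop := ∃ (n : ℕ) (y : Fin n → D), e = ∑ i, star (y i) * y i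

/-- scalar matrices -/
def sc (ν : Type) [DecidableEq ν] (c : D) : Matrix ν ν D := Matrix.diagonal fun _ => c

theorem sc_mul_comm {c : D} (hc : ∀ d : D, c * d = d * c) (X : Matrix ν κ D) :
    sc ν c * X = X * sc κ c := by
  ext i j
  simp [sc, hc]

theorem sc_mul_sc (c d : D) : sc ν c * sc ν d = sc ν (c * d) := by
  simp [sc, Matrix.diagonal_mul_diagonal]

theorem sc_conjTranspose (c : D) : (sc ν c)ᴴ = sc ν (star c) := by
  simp only [sc, diagonal_conjTranspose, diagonal_eq_diagonal_iff, Pi.star_apply, implies_true]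

theorem sc_one : sc ν (1 : D) = 1 := by simp [sc]

theorem sc_add (c d : D) : sc ν c + sc ν d = sc ν (c + d) := by
  simp [sc, Matrix.diagonal_add]

theorem PSD.sc_mul {e : D} (he : HSq e) (hc : ∀ d : D, e * d = d * e) {s : Matrix ν ν D}
    (hs : PSD s) : PSD (sc ν e * s) := by
  obtain ⟨n, x, rfl⟩ := hs
  obtain ⟨m, y, hy⟩ := he
  have h1 : sc ν e * (xᴴ * x) = xᴴ * sc (Fin n) e * x := by
    rw [← Matrix.mul_assoc, sc_mul_comm hc]
  have h2 : sc (Fin n) e = ∑ i, (sc (Fin n) (y i))ᴴ * sc (Fin n) (y i) := by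
    rw [hy]
    simp only [sc_conjTranspose, sc_mul_sc]
    ext i j
    rw [Matrix.sum_apply]
    by_cases h : i = j
    · subst h; simp only [sc, diagonal_apply_eq]
    · simp only [sc, ne_eq, h, not_false_eq_true, diagonal_apply_ne, Finset.sum_const_zero]
  rw [h1, h2]
  exact (PSD.sum fun i _ => PSD.of (sc (Fin n) (y i))).conj x

/-! ### Step A -/

/-- the relation behind step A -/
theorem stepA_rel {H : Matrix μ μ D} (hH : An H) {R : ℕ} (hR : Room H R)
    (hν : Fintype.card ν + Fintype.card ν ≤ R)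
    {a ai a' ai' C E : Matrix ν ν D} (ha : PSD a) (a1 : a * ai = 1) (a2 : ai * a = 1)
    (ha' : PSD a') (a1' : a' * ai' = 1) (a2' : ai' * a' = 1)
    (hC : ∀ X : Matrix ν ν D, C * X = X * C) (hCs : Cᴴ = -C)
    (hE : (1 + C) * E = 1) (hE' : E * (1 + C) = 1)
    (hS : PSD ((4 : ℚ) • a - a * ai' * a + C * C * a')) :
    fz hH a' * fz hH ((1 + C) * a) = fz hH a * fz hH ((1 + C) * a') := by
  have hEc : ∀ X : Matrix ν ν D, E * X = X * E := by
    intro X
    calc E * X = E * X * ((1 + C) * E) := by rw [hE, Matrix.mul_one]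
      _ = E * (X * (1 + C)) * E := by simp only [Matrix.mul_assoc]
      _ = E * ((1 + C) * X) * E := by
          rw [Matrix.mul_add, Matrix.add_mul, Matrix.mul_one, Matrix.one_mul, hC]
      _ = X * E := by rw [← Matrix.mul_assoc E, hE', Matrix.one_mul]
  have key : (a - C * a') * ((1/2 : ℚ) • ai') * (a + C * a') =
      (1/2 : ℚ) • (a * ai' * a - C * C * a') := by
    rw [Matrix.mul_smul, Matrix.smul_mul]
    congr 1
    have e1 : (a - C * a') * ai' = a * ai' - C := by
      rw [Matrix.sub_mul, Matrix.mul_assoc C, a1', Matrix.mul_one]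
    rw [e1, Matrix.sub_mul, Matrix.mul_add, Matrix.mul_add]
    have e2 : a * ai' * (C * a') = C * a := by
      rw [hC a', ← Matrix.mul_assoc, Matrix.mul_assoc a ai' a', a2', Matrix.mul_one, hC]
    rw [e2, ← Matrix.mul_assoc C C a']
    abel
  refine fz_block hH hR hν (p := a') (pi := ai') (q := a) (r := -(C * a')) (s := a) (si := ai)
    (t := (1 + C) * a) (ti := ai * E) (w := (1 + C) * a') (wi := ai' * E)
    a1' a2' a1 a2 ?_ ?_ ?_ ?_ ?_ ?_ ?_
  · rw [Matrix.mul_assoc, ← Matrix.mul_assoc a, a1, Matrix.one_mul, hE]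
  · rw [Matrix.mul_assoc, ← Matrix.mul_assoc E, hE', Matrix.one_mul, a2]
  · rw [Matrix.mul_assoc, ← Matrix.mul_assoc a', a1', Matrix.one_mul, hE]
  · rw [Matrix.mul_assoc, ← Matrix.mul_assoc E, hE', Matrix.one_mul, a2']
  · rw [Matrix.neg_mul, Matrix.neg_mul, Matrix.mul_assoc C a' ai', a1', Matrix.mul_one,
      Matrix.add_mul, Matrix.one_mul]
    abel
  · rw [Matrix.mul_neg, a1, Matrix.one_mul, Matrix.add_mul, Matrix.one_mul]
    abel
  · have h2i : ∀ X Y : Matrix ν ν D, X * Y = 1 → ((2 : ℚ) • X) * ((1/2 : ℚ) • Y) = 1 := by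
      intro X Y h
      rw [Matrix.smul_mul, Matrix.mul_smul, smul_smul, h]; (clear H hH R hR hν a ai a' ai' C E ha a1 a2 ha' a1' a2' hC hCs hE hE' hS hEc key X Y h; norm_num)
    have h2i' : ∀ X Y : Matrix ν ν D, X * Y = 1 → ((1/2 : ℚ) • X) * ((2 : ℚ) • Y) = 1 := by
      intro X Y h
      rw [Matrix.smul_mul, Matrix.mul_smul, smul_smul, h]; norm_num
    have h12 : (a + C * a')ᴴ = a - C * a' := by
      rw [Matrix.conjTranspose_add, Matrix.conjTranspose_mul, ha.herm, ha'.herm, hCs,
        Matrix.mul_neg, ← hC]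
      abel
    have two : ∀ X : Matrix ν ν D, X + X = (2 : ℚ) • X := by
      intro X; rw [two_smul]
    have hS' : PSD ((2 : ℚ) • a - (a + C * a')ᴴ * ((1/2 : ℚ) • ai') * (a + C * a')) := by
      rw [h12, key]
      have := hS.smul (q := 1/2) (by norm_num)
      convert this using 1
      module
    have := PSD.schur11 (ha'.smul (q := 2) (by norm_num)) (h2i _ _ a1') (h2i' _ _ a2') hS'
    convert this using 2
    · rw [ha'.herm, two]
    · rw [Matrix.conjTranspose_neg, Matrix.conjTranspose_mul, ha'.herm, hCs, Matrix.mul_neg,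
        neg_neg, ← hC]
    · rw [h12, ha.herm]; abel
    · rw [ha.herm, two]

/-- A good central skew element. -/
structure Good (c c' : D) : Prop where
  ne : c ≠ 0
  comm : ∀ d : D, c * d = d * c
  comm' : ∀ d : D, c' * d = d * c'
  skew : star c = -c
  skew' : star c' = -c'
  sq : HSq (1 + c * c)
  sq' : HSq (1 + c' * c')
  rel : (1 + c') * (2 * c) = (1 + c) * (1 + c)

omit [FormPos D] [FiniteDimensional ℚ D] in
theorem one_add_ne_zero_of_skew {c : D} (hs : star c = -c) : 1 + c ≠ 0 := by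
  intro h
  have h1 : star (1 + c) = 0 := by rw [h, star_zero]
  rw [star_add, star_one, hs] at h1
  have h2 : (1 + c) + (1 + -c) = 0 := by rw [h, h1, add_zero]
  have h3 : (2 : D) = 0 := by
    rw [← h2]
    rw [show (1 + c) + (1 + -c) = 2 by rw [add_add_add_comm, add_neg_cancel]; norm_num]
  exact two_ne_zero h3

theorem sc_inv {c : D} (h : 1 + c ≠ 0) : (1 + sc ν c) * sc ν (1 + c)⁻¹ = 1 := by
  rw [← sc_one, sc_add, sc_mul_sc, mul_inv_cancel₀ h]

theorem sc_inv' {c : D} (h : 1 + c ≠ 0) : sc ν (1 + c)⁻¹ * (1 + sc ν c) = 1 := by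
  rw [← sc_one, sc_add, sc_mul_sc, inv_mul_cancel₀ h]

theorem sc_skew {c : D} (hs : star c = -c) : (sc ν c)ᴴ = -sc ν c := by
  rw [sc_conjTranspose, hs]
  ext i j
  by_cases h : i = j
  · subst h; simp [sc]
  · simp [sc, h]

/-- `(1 + c) a` has real part `a`. -/
theorem re_sc {a : Matrix ν ν D} (ha : aᴴ = a) {c : D} (hc : ∀ d : D, c * d = d * c)
    (hs : star c = -c) :
    (1 + sc ν c) * a + ((1 + sc ν c) * a)ᴴ = (2 : ℚ) • a := by
  rw [Matrix.conjTranspose_mul, ha, Matrix.conjTranspose_add, Matrix.conjTranspose_one,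
    sc_skew hs, Matrix.mul_add, Matrix.add_mul, Matrix.mul_one, Matrix.one_mul, Matrix.mul_neg,
    ← sc_mul_comm hc]
  module

theorem fz_sc_sq {H : Matrix μ μ D} (hH : An H) {R : ℕ} (hR : Room H R)
    (hν : Fintype.card ν ≤ R) {c c' : D} (hg : Good c c')
    {a ai : Matrix ν ν D} (ha : PSD a) (a1 : a * ai = 1) (a2 : ai * a = 1) :
    fz hH ((1 + sc ν c) * a) * fz hH ((1 + sc ν c) * a) = fz hH ((1 + sc ν c') * a) := by
  have hc1 := one_add_ne_zero_of_skew hg.skew
  have hc1' := one_add_ne_zero_of_skew hg.skew'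
  set E : Matrix ν ν D := sc ν (1 + c)⁻¹ with hE
  set E' : Matrix ν ν D := sc ν (1 + c')⁻¹ with hE'
  have i1 : (1 + sc ν c) * a * (ai * E) = 1 := by
    rw [Matrix.mul_assoc, ← Matrix.mul_assoc a, a1, Matrix.one_mul, sc_inv hc1]
  have i2 : (ai * E) * ((1 + sc ν c) * a) = 1 := by
    rw [Matrix.mul_assoc, ← Matrix.mul_assoc E, sc_inv' hc1, Matrix.one_mul, a2]
  have i1' : (1 + sc ν c') * a * (ai * E') = 1 := by
    rw [Matrix.mul_assoc, ← Matrix.mul_assoc a, a1, Matrix.one_mul, sc_inv hc1']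
  have i2' : (ai * E') * ((1 + sc ν c') * a) = 1 := by
    rw [Matrix.mul_assoc, ← Matrix.mul_assoc E', sc_inv' hc1', Matrix.one_mul, a2]
  have r1 := re_sc (ν := ν) ha.herm hg.comm hg.skew
  have r2 := re_sc (ν := ν) ha.herm hg.comm' hg.skew'
  unfold fz
  rw [inverse_eq i1 i2, inverse_eq i1' i2', r1, r2]
  have ad1 : Adm ((2 : ℚ) • a) (ai * E) := by
    have := adm_fz i1 i2
    rwa [r1] at this
  have ad2 : Adm ((2 : ℚ) • a) (ai * E') := by
    have := adm_fz i1' i2'
    rwa [r2] at this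
  have hEc : ∀ X : Matrix ν ν D, E * X = X * E := by
    intro X
    calc E * X = E * X * ((1 + sc ν c) * E) := by rw [sc_inv hc1, Matrix.mul_one]
      _ = E * (X * (1 + sc ν c)) * E := by simp only [Matrix.mul_assoc]
      _ = E * ((1 + sc ν c) * X) * E := by
          rw [Matrix.mul_add, Matrix.add_mul, Matrix.mul_one, Matrix.one_mul, sc_mul_comm hg.comm]
      _ = X * E := by rw [← Matrix.mul_assoc E, sc_inv' hc1, Matrix.one_mul]
  have hw : ai * E + ai * E - ai * E * ((2 : ℚ) • a) * (ai * E) = ai * E' := by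
    have e1 : ai * E * ((2 : ℚ) • a) * (ai * E) = (2 : ℚ) • (ai * (E * E)) := by
      rw [Matrix.mul_smul, Matrix.smul_mul]
      congr 1
      calc ai * E * a * (ai * E) = ai * (E * (a * ai)) * E := by simp only [Matrix.mul_assoc]
        _ = ai * (E * E) := by rw [a1, Matrix.mul_one, Matrix.mul_assoc]
    have e2 : (2 : ℚ) • (E - E * E) = E' := by
      have e3 : (2 : D) * ((1 + c)⁻¹ - (1 + c)⁻¹ * (1 + c)⁻¹) = (1 + c')⁻¹ := by
        apply eq_inv_of_mul_eq_one_right
        have h4 : (1 + c)⁻¹ - (1 + c)⁻¹ * (1 + c)⁻¹ = c * ((1 + c)⁻¹ * (1 + c)⁻¹) := by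
          have : (1 + c) * ((1 + c)⁻¹ * (1 + c)⁻¹) = (1 + c)⁻¹ := by
            rw [← mul_assoc, mul_inv_cancel₀ hc1, one_mul]
          rw [add_mul, one_mul] at this
          nth_rewrite 1 [← this]
          abel
        rw [h4, ← mul_assoc, ← mul_assoc, mul_assoc (1 + c') 2 c, hg.rel, ← mul_assoc,
          mul_assoc (1 + c) (1 + c),
          mul_inv_cancel₀ hc1, mul_one, mul_inv_cancel₀ hc1]
      rw [hE, hE', ← e3, sc_mul_sc]
      ext i j
      by_cases h : i = j
      · subst h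
        simp only [sc, diagonal_sub, Matrix.smul_apply, diagonal_apply_eq, Rat.smul_def, Rat.cast_ofNat]
      · simp only [sc, diagonal_sub, Matrix.smul_apply, ne_eq, h, not_false_eq_true, diagonal_apply_ne, smul_zero]
    rw [e1, ← e2, Matrix.mul_smul, Matrix.mul_sub]
    module
  have := cl_mul hH hR hν (ha.smul (q := 2) (by norm_num)) ad1 ad1 (by rw [hw]; exact ad2)
  rw [this, hw]

/-- Step A, local form. -/
theorem fz_eq_of_close {H : Matrix μ μ D} (hH : An H) {R : ℕ} (hR : Room H R)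
    (hν : Fintype.card ν + Fintype.card ν ≤ R) {c c' : D} (hg : Good c c')
    {a a' : Matrix ν ν D} (ha : PD a) (ha' : PD a')
    (h1 : PSD ((2 : ℚ) • a' - a)) (h2 : PSD ((2 : ℚ) • a - a')) :
    fz hH a = fz hH a' := by
  obtain ⟨ai, a1, a2, hai⟩ := ha.exists_inv
  obtain ⟨ai', a1', a2', hai'⟩ := ha'.exists_inv
  have key : ∀ d : D, (∀ x : D, d * x = x * d) → star d = -d → HSq (1 + d * d) →
      fz hH a' * fz hH ((1 + sc ν d) * a) = fz hH a * fz hH ((1 + sc ν d) * a') := by
    intro d hd hs hsq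
    have hd1 := one_add_ne_zero_of_skew hs
    refine stepA_rel hH hR hν ha.1 a1 a2 ha'.1 a1' a2' (sc_mul_comm hd) (sc_skew hs)
      (sc_inv hd1) (sc_inv' hd1) ?_
    have p1 : PSD ((2 : ℚ) • ai - ai') := by
      have := PSD.inv_antitone (x := (2 : ℚ) • a') (xi := (1/2 : ℚ) • ai') (y := a) (yi := ai)
        (by rw [Matrix.smul_mul, Matrix.mul_smul, smul_smul, a1']; (clear H hH R hR hν c c' hg a a' ha ha' h1 h2 ai a1 a2 hai ai' a1' a2' hai' d hd hs hsq hd1; norm_num))
        (by rw [Matrix.smul_mul, Matrix.mul_smul, smul_smul, a2']; norm_num) a1 a2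
        (ha'.1.smul (by norm_num)) ha.1 h1
      have := this.smul (q := 2) (by norm_num)
      convert this using 1
      module
    have p2 : PSD ((2 : ℚ) • a - a * ai' * a) := by
      have := p1.conj a
      rw [ha.1.herm, Matrix.mul_sub, Matrix.sub_mul, Matrix.mul_smul, Matrix.smul_mul, a1,
        Matrix.one_mul] at this
      exact this
    have p3 : PSD (sc ν (1 + d * d) * a') := by
      refine PSD.sc_mul hsq ?_ ha'.1
      intro x
      rw [add_mul, mul_add, one_mul, mul_one, mul_assoc, hd x, ← mul_assoc, hd x, mul_assoc]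
    have := (p2.add h2).add p3
    convert this using 1
    rw [← sc_add, sc_one, ← sc_mul_sc, Matrix.add_mul, Matrix.one_mul]
    module
  have k1 := key c hg.comm hg.skew hg.sq
  have k2 := key c' hg.comm' hg.skew' hg.sq'
  have hν' : Fintype.card ν ≤ R := by omega
  rw [← fz_sc_sq hH hR hν' hg ha.1 a1 a2, ← fz_sc_sq hH hR hν' hg ha'.1 a1' a2'] at k2
  set A0 := fz hH a
  set B0 := fz hH a'
  set A1 := fz hH ((1 + sc ν c) * a)
  set B1 := fz hH ((1 + sc ν c) * a')
  -- B0 * A1 = A0 * B1, B0 * (A1 * A1) = A0 * (B1 * B1)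
  have h3 : A1 = B1 := by
    have : A0 * B1 * A1 = A0 * B1 * B1 := by
      calc A0 * B1 * A1 = B0 * (A1 * A1) := by rw [← k1, mul_assoc]
        _ = A0 * B1 * B1 := by rw [k2, mul_assoc]
    exact mul_left_cancel this
  rw [h3] at k1
  exact (mul_right_cancel k1).symm

end Vale.Agent.P011S

end

section
set_option linter.unusedSectionVars false
set_option linter.unusedSimpArgs false

open Matrix

namespace Vale.Agent.P011S

variable {D : Type} [DivisionRing D] [StarRing D] [FormPos D] [CharZero D] [FiniteDimensional ℚ D]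
variable {μ ν κ : Type} [Fintype μ] [DecidableEq μ] [Fintype ν] [DecidableEq ν]
  [Fintype κ] [DecidableEq κ]

/-- the segment between two matrices -/
def seg (a b : Matrix ν ν D) (t : ℚ) : Matrix ν ν D := (1 - t) • a + t • b

theorem seg_zero (a b : Matrix ν ν D) : seg a b 0 = a := by simp [seg]
theorem seg_one (a b : Matrix ν ν D) : seg a b 1 = b := by simp [seg]

theorem chain_const {α : Type} (F : ℚ → α) (n : ℕ) (hn : 0 < n)
    (h : ∀ j : ℕ, j < n → F ((j : ℚ) / n) = F (((j + 1 : ℕ) : ℚ) / n)) : F 0 = F 1 := by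
  have : ∀ j : ℕ, j ≤ n → F 0 = F ((j : ℚ) / n) := by
    intro j
    induction j with
    | zero => intro _; simp
    | succ j ih => intro hj; rw [ih (by omega), h j (by omega)]
  have h1 := this n le_rfl
  rwa [div_self (by exact_mod_cast hn.ne')] at h1

theorem PSD.lower_seg {a b : Matrix ν ν D} {ε t : ℚ} (ht0 : 0 ≤ t) (ht1 : t ≤ 1)
    (ha : PSD (a - ε • (1 : Matrix ν ν D))) (hb : PSD (b - ε • (1 : Matrix ν ν D))) :
    PSD (seg a b t - ε • (1 : Matrix ν ν D)) := by
  have := (ha.smul (sub_nonneg.mpr ht1)).add (hb.smul ht0)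
  convert this using 1
  unfold seg
  module

theorem PSD.lower_mono {a : Matrix ν ν D} {ε ε' : ℚ} (h : ε' ≤ ε)
    (ha : PSD (a - ε • (1 : Matrix ν ν D))) : PSD (a - ε' • (1 : Matrix ν ν D)) := by
  have := ha.add ((PSD.one (D := D) (ν := ν)).smul (sub_nonneg.mpr h))
  convert this using 1
  module

theorem PSD.upper_mono {a : Matrix ν ν D} {N N' : ℚ} (h : N ≤ N')
    (ha : PSD (N • (1 : Matrix ν ν D) - a)) : PSD (N' • (1 : Matrix ν ν D) - a) := by
  have := ha.add ((PSD.one (D := D) (ν := ν)).smul (sub_nonneg.mpr h))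
  convert this using 1
  module

/-- Step A -/
theorem fz_PD_eq_one {H : Matrix μ μ D} (hH : An H) {R : ℕ} (hR : Room H R)
    (hν : Fintype.card ν + Fintype.card ν ≤ R) {c c' : D} (hg : Good c c')
    {a : Matrix ν ν D} (ha : PD a) : fz hH a = fz hH (1 : Matrix ν ν D) := by
  obtain ⟨ε0, hε0, hlow0⟩ := ha.exists_lower
  set ε := min ε0 1 with hεdef
  have hε : 0 < ε := lt_min hε0 one_pos
  have hlow : PSD (a - ε • (1 : Matrix ν ν D)) := hlow0.lower_mono (min_le_left _ _)
  have hlow1 : PSD ((1 : Matrix ν ν D) - ε • (1 : Matrix ν ν D)) := by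
    have := (PSD.one (D := D) (ν := ν)).smul (sub_nonneg.mpr (min_le_right ε0 1))
    convert this using 1
    module
  obtain ⟨N, hN, hup⟩ := exists_bound a ha.1.herm
  obtain ⟨n, hn⟩ := exists_nat_gt (((N : ℚ) + 1) / ε)
  have hn0 : (0 : ℚ) < n := lt_trans (by positivity) hn
  have hnε : (N : ℚ) + 1 ≤ n * ε := by
    rw [div_lt_iff₀ hε] at hn; exact hn.le
  symm
  rw [← seg_zero (1 : Matrix ν ν D) a]
  conv_rhs => rw [← seg_one (1 : Matrix ν ν D) a]
  refine chain_const (fun t => fz hH (seg (1 : Matrix ν ν D) a t)) n (by exact_mod_cast hn0) ?_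
  intro j hj
  have ht0 : (0 : ℚ) ≤ (j : ℚ) / n := by (clear * - hn0; positivity)
  have ht1 : ((j : ℚ) + 1) / n ≤ 1 := by
    rw [div_le_one hn0]; exact_mod_cast hj
  have ht0' : (0 : ℚ) ≤ ((j : ℚ) + 1) / n := by (clear * - hn0; positivity)
  have ht1' : (j : ℚ) / n ≤ 1 := le_trans (by gcongr; linarith only []) ht1
  have e : ((j + 1 : ℕ) : ℚ) / n = ((j : ℚ) + 1) / n := by push_cast; rfl
  simp only [e]
  have l1 := PSD.lower_seg ht0 ht1' hlow1 hlow
  have l2 := PSD.lower_seg ht0' ht1 hlow1 hlow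
  -- difference
  have hdiff : seg (1 : Matrix ν ν D) a (((j : ℚ) + 1) / n) =
      seg (1 : Matrix ν ν D) a ((j : ℚ) / n) + (1 / (n : ℚ)) • (a - 1) := by
    unfold seg
    have : ((j : ℚ) + 1) / n = (j : ℚ) / n + 1 / n := by ring
    rw [this]
    module
  refine fz_eq_of_close hH hR hν hg (PD.of_lower hε l1) (PD.of_lower hε l2) ?_ ?_
  · -- 2 a_{j+1} - a_j = a_{j+1} + (1/n)(a - 1)
    have p1 : PSD (ε • (1 : Matrix ν ν D) - (1/(n:ℚ)) • (1 : Matrix ν ν D)) := by
      have := (PSD.one (D := D) (ν := ν)).smul (q := ε - 1/n) (by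
        rw [sub_nonneg, div_le_iff₀ hn0]
        have : (0 : ℚ) ≤ N := by positivity
        linarith only [hnε])
      convert this using 1
      module
    have p2 : PSD ((1/(n:ℚ)) • a) := ha.1.smul (by (clear * - hn0; positivity))
    have := (l2.add p1).add p2
    convert this using 1
    have h3 : seg (1 : Matrix ν ν D) a ((j : ℚ) / n) =
      seg (1 : Matrix ν ν D) a (((j : ℚ) + 1) / n) - (1 / (n : ℚ)) • (a - 1) := by
      rw [hdiff]; abel
    rw [h3]
    module
  · have p1 : PSD (ε • (1 : Matrix ν ν D) - (1/(n:ℚ)) • a) := by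
      have h1 := hup.smul (q := 1/(n:ℚ)) (by (clear * - hn0; positivity))
      have h2 := (PSD.one (D := D) (ν := ν)).smul (q := ε - N/n) (by
        rw [sub_nonneg, div_le_iff₀ hn0]
        linarith only [hnε])
      have := h1.add h2
      convert this using 1
      have h3 : (N : ℚ) / n = (1 / n) * N := by ring
      rw [h3]
      module
    have p2 : PSD ((1/(n:ℚ)) • (1 : Matrix ν ν D)) := PSD.one.smul (by (clear * - hn0; positivity))
    have := (l1.add p1).add p2
    convert this using 1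
    rw [hdiff]
    module

/-- the relation behind step B -/
theorem stepB_rel {H : Matrix μ μ D} (hH : An H) {R : ℕ} (hR : Room H R)
    (hν : Fintype.card ν + Fintype.card ν ≤ R)
    {z zi a ai a' ai' : Matrix ν ν D} (ha : PSD a) (a1 : a * ai = 1) (a2 : ai * a = 1)
    (ha' : PSD a') (a1' : a' * ai' = 1) (a2' : ai' * a' = 1)
    (z1 : z * zi = 1) (z2 : zi * z = 1) {l : ℚ} (hl : 0 < l)
    (hS : PSD ((z * a' + a' * zᴴ) + (z * a + a * zᴴ) - (l * l) • (z * a' * zᴴ)
      - (l⁻¹ * l⁻¹) • ((a' - a) * ai' * (a' - a)))) :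
    fz hH (z * a') * fz hH a = fz hH a' * fz hH (z * a) := by
  have hlne := hl.ne'
  refine fz_block hH hR hν (p := z * a') (pi := ai' * zi) (q := l • (z * a'))
    (r := l⁻¹ • (a' - a)) (s := a') (si := ai') (t := a) (ti := ai) (w := z * a) (wi := ai * zi)
    ?_ ?_ a1' a2' a1 a2 ?_ ?_ ?_ ?_ ?_
  · rw [Matrix.mul_assoc, ← Matrix.mul_assoc a', a1', Matrix.one_mul, z1]
  · rw [Matrix.mul_assoc, ← Matrix.mul_assoc zi, z2, Matrix.one_mul, a2']
  · rw [Matrix.mul_assoc, ← Matrix.mul_assoc a, a1, Matrix.one_mul, z1]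
  · rw [Matrix.mul_assoc, ← Matrix.mul_assoc zi, z2, Matrix.one_mul, a2]
  · have : l⁻¹ • (a' - a) * (ai' * zi) * l • (z * a') = a' - a := by
      rw [Matrix.mul_smul, Matrix.smul_mul, Matrix.smul_mul, smul_smul, mul_inv_cancel₀ hlne,
        one_smul, Matrix.mul_assoc, Matrix.mul_assoc ai', ← Matrix.mul_assoc zi, z2,
        Matrix.one_mul, a2', Matrix.mul_one]
    rw [this]; abel
  · have : l • (z * a') * ai' * l⁻¹ • (a' - a) = z * a' - z * a := by
      rw [Matrix.mul_smul, Matrix.smul_mul, Matrix.smul_mul, smul_smul, inv_mul_cancel₀ hlne,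
        one_smul, Matrix.mul_assoc z, a1', Matrix.mul_one, Matrix.mul_sub]
    rw [this]; abel
  · have h2 : PSD ((2 : ℚ) • a') := ha'.smul (by norm_num)
    set h21 : Matrix ν ν D := l⁻¹ • (a' - a) + l • (a' * zᴴ) with h21def
    have h21t : h21ᴴ = l • (z * a') + l⁻¹ • (a' - a) := by
      rw [h21def, Matrix.conjTranspose_add, conjTranspose_rat_smul, conjTranspose_rat_smul,
        Matrix.conjTranspose_sub, Matrix.conjTranspose_mul, Matrix.conjTranspose_conjTranspose,
        ha.herm, ha'.herm]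
      abel
    have hS' : PSD ((z * a' + a' * zᴴ) - h21ᴴ * ((1/2 : ℚ) • ai') * h21) := by
      have := hS.smul (q := 1/2) (by norm_num)
      convert this using 1
      rw [h21t, h21def]
      have e1 : (l • (z * a') + l⁻¹ • (a' - a)) * ((1/2 : ℚ) • ai') *
          (l⁻¹ • (a' - a) + l • (a' * zᴴ)) = (1/2 : ℚ) • ((z * a' + a' * zᴴ) - (z * a + a * zᴴ)
            + (l * l) • (z * a' * zᴴ) + (l⁻¹ * l⁻¹) • ((a' - a) * ai' * (a' - a))) := by
        have f1 : (l • (z * a') + l⁻¹ • (a' - a)) * ((1/2 : ℚ) • ai')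
            = (1/2 : ℚ) • (l • z + l⁻¹ • ((a' - a) * ai')) := by
          rw [Matrix.mul_smul, Matrix.add_mul, Matrix.smul_mul, Matrix.smul_mul,
            Matrix.mul_assoc z, a1', Matrix.mul_one]
        have f2 : (a' - a) * ai' * (a' * zᴴ) = a' * zᴴ - a * zᴴ := by
          rw [Matrix.mul_assoc, ← Matrix.mul_assoc ai', a2', Matrix.one_mul, Matrix.sub_mul]
        rw [f1, Matrix.smul_mul]
        congr 1
        rw [Matrix.add_mul, Matrix.mul_add, Matrix.mul_add]
        simp only [Matrix.smul_mul, Matrix.mul_smul, smul_smul]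
        rw [f2, mul_inv_cancel₀ hlne, inv_mul_cancel₀ hlne, one_smul, one_smul, Matrix.mul_sub,
          ← Matrix.mul_assoc z a']
        abel
      rw [e1]
      module
    have := PSD.schur22 h2 (h22i := (1/2 : ℚ) • ai')
      (by rw [Matrix.smul_mul, Matrix.mul_smul, smul_smul, a1']; (clear H hH R hR hν z zi a ai a' ai' ha a1 a2 ha' a1' a2' z1 z2 l hl hS hlne h2 h21 h21def h21t hS'; norm_num))
      (by rw [Matrix.smul_mul, Matrix.mul_smul, smul_smul, a2']; norm_num) hS'
    convert this using 2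
    · rw [Matrix.conjTranspose_mul, ha'.herm]
    · rw [h21t, conjTranspose_rat_smul, Matrix.conjTranspose_sub, ha.herm, ha'.herm]
    · rw [h21def, conjTranspose_rat_smul, Matrix.conjTranspose_mul, ha'.herm]
    · rw [ha'.herm, two_smul]

theorem PD.of_seg {a b : Matrix ν ν D} {t : ℚ} (ht0 : 0 ≤ t) (ht1 : t ≤ 1)
    (ha : PD a) (hb : PD b) : PD (seg a b t) := by
  obtain ⟨ε1, h1, l1⟩ := ha.exists_lower
  obtain ⟨ε2, h2, l2⟩ := hb.exists_lower
  exact PD.of_lower (lt_min h1 h2)
    (PSD.lower_seg ht0 ht1 (l1.lower_mono (min_le_left _ _)) (l2.lower_mono (min_le_right _ _)))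

/-- Step B -/
theorem stepB {H : Matrix μ μ D} (hH : An H) {R : ℕ} (hR : Room H R)
    (hν : Fintype.card ν + Fintype.card ν ≤ R) {c c' : D} (hg : Good c c')
    {z zi a b : Matrix ν ν D} (z1 : z * zi = 1) (z2 : zi * z = 1) (ha : PD a) (hb : PD b)
    (hza : PD (z * a + a * zᴴ)) (hzb : PD (z * b + b * zᴴ)) :
    fz hH (z * a) = fz hH (z * b) := by
  obtain ⟨ε1, he1, l1⟩ := hza.exists_lower
  obtain ⟨ε2, he2, l2⟩ := hzb.exists_lower
  set ε := min ε1 ε2 with hεd
  have hε : 0 < ε := lt_min he1 he2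
  have l1' := l1.lower_mono (min_le_left ε1 ε2)
  have l2' := l2.lower_mono (min_le_right ε1 ε2)
  obtain ⟨η1, hη1, m1⟩ := ha.exists_lower
  obtain ⟨η2, hη2, m2⟩ := hb.exists_lower
  set η := min η1 η2 with hηd
  have hη : 0 < η := lt_min hη1 hη2
  have m1' := m1.lower_mono (min_le_left η1 η2)
  have m2' := m2.lower_mono (min_le_right η1 η2)
  have herm1 : ∀ a : Matrix ν ν D, aᴴ = a → (z * a * zᴴ)ᴴ = z * a * zᴴ := by
    intro a h
    rw [Matrix.conjTranspose_mul, Matrix.conjTranspose_mul, Matrix.conjTranspose_conjTranspose, h,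
      Matrix.mul_assoc]
  obtain ⟨B1, hB1, b1⟩ := exists_bound _ (herm1 a ha.1.herm)
  obtain ⟨B2, hB2, b2⟩ := exists_bound _ (herm1 b hb.1.herm)
  set B : ℚ := max B1 B2 with hBd
  have hB : 0 < B := lt_max_of_lt_left (by exact_mod_cast hB1)
  have b1' := b1.upper_mono (N' := B) (le_max_left _ _)
  have b2' := b2.upper_mono (N' := B) (le_max_right _ _)
  obtain ⟨B3, hB3, b3⟩ := exists_bound ((b - a) * (b - a)) (by
    rw [Matrix.conjTranspose_mul, Matrix.conjTranspose_sub, ha.1.herm, hb.1.herm])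
  -- choose L with B ≤ L² ε
  obtain ⟨L, hL⟩ := exists_nat_gt (max 1 (B / ε))
  have hL1 : (1 : ℚ) < L := lt_of_le_of_lt (le_max_left _ _) hL
  have hL2 : B / ε < L := lt_of_le_of_lt (le_max_right _ _) hL
  have hL0 : (0 : ℚ) < L := by linarith only [hL1]
  have hLB : B ≤ (L : ℚ) * L * ε := by
    rw [div_lt_iff₀ hε] at hL2
    nlinarith only [hL2, hB, hL1]
  -- choose n with L² B3 / η ≤ n² ε
  obtain ⟨n, hn⟩ := exists_nat_gt (max 1 ((L : ℚ) * L * B3 / (η * ε)))
  have hn1 : (1 : ℚ) < n := lt_of_le_of_lt (le_max_left _ _) hn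
  have hn2 : (L : ℚ) * L * B3 / (η * ε) < n := lt_of_le_of_lt (le_max_right _ _) hn
  have hn0 : (0 : ℚ) < n := by linarith only [hn1]
  have hnB : (L : ℚ) * L * B3 * η⁻¹ ≤ (n : ℚ) * n * ε := by
    rw [div_lt_iff₀ (by (clear * - hη1 hη2 he1 he2; positivity))] at hn2
    have h1 : (L : ℚ) * L * B3 * η⁻¹ ≤ n * ε := by
      rw [← div_eq_mul_inv, div_le_iff₀ hη]
      linarith
    have h2 : (n : ℚ) * ε ≤ n * n * ε := by nlinarith only [hn1, mul_pos hn0 hε]
    linarith only [h1, h2]
  rw [← seg_zero a b]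
  conv_rhs => rw [← seg_one a b]
  refine chain_const (fun t => fz hH (z * seg a b t)) n (by exact_mod_cast hn0) ?_
  intro j hj
  have ht0 : (0 : ℚ) ≤ (j : ℚ) / n := by (clear * - hn1; positivity)
  have ht1 : ((j : ℚ) + 1) / n ≤ 1 := by
    rw [div_le_one hn0]; exact_mod_cast hj
  have ht0' : (0 : ℚ) ≤ ((j : ℚ) + 1) / n := by (clear * - hn1; positivity)
  have ht1' : (j : ℚ) / n ≤ 1 := le_trans (by gcongr; linarith only []) ht1
  have e : ((j + 1 : ℕ) : ℚ) / n = ((j : ℚ) + 1) / n := by push_cast; rfl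
  simp only [e]
  set s := (j : ℚ) / n with hs
  set t := ((j : ℚ) + 1) / n with ht
  have hst : t = s + 1 / n := by rw [hs, ht]; ring
  have pds := PD.of_seg ht0 ht1' ha hb
  have pdt := PD.of_seg ht0' ht1 ha hb
  obtain ⟨ai, a1, a2, hai⟩ := pds.exists_inv
  obtain ⟨ai', a1', a2', hai'⟩ := pdt.exists_inv
  have hdiff : seg a b t - seg a b s = (1 / (n : ℚ)) • (b - a) := by
    unfold seg
    rw [hst]
    module
  have hlow : ∀ r : ℚ, 0 ≤ r → r ≤ 1 →
      PSD (z * seg a b r + seg a b r * zᴴ - ε • (1 : Matrix ν ν D)) := by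
    intro r hr0 hr1
    have := PSD.lower_seg hr0 hr1 l1' l2'
    convert this using 1
    unfold seg
    rw [Matrix.mul_add, Matrix.add_mul]
    simp only [Matrix.mul_smul, smul_mul]
    module
  have hupz : PSD (B • (1 : Matrix ν ν D) - z * seg a b t * zᴴ) := by
    have := (b1'.smul (sub_nonneg.mpr ht1)).add (b2'.smul ht0')
    convert this using 1
    unfold seg
    rw [Matrix.mul_add, Matrix.add_mul]
    simp only [Matrix.mul_smul, Matrix.smul_mul]
    module
  -- inverse bound
  have hinv : PSD (η⁻¹ • (1 : Matrix ν ν D) - ai') := by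
    refine PSD.inv_antitone (x := seg a b t) (xi := ai') (y := η • (1 : Matrix ν ν D))
      a1' a2' ?_ ?_ pdt.1 (PSD.one.smul hη.le) (PSD.lower_seg ht0' ht1 m1' m2')
    · rw [Matrix.smul_mul, Matrix.mul_smul, smul_smul, mul_inv_cancel₀ hη.ne', one_smul,
        Matrix.one_mul]
    · rw [Matrix.smul_mul, Matrix.mul_smul, smul_smul, inv_mul_cancel₀ hη.ne', one_smul,
        Matrix.one_mul]
  have hdd : PSD ((η⁻¹ * (1 / (n:ℚ)) * (1 / (n:ℚ)) * B3) • (1 : Matrix ν ν D) -
      (seg a b t - seg a b s) * ai' * (seg a b t - seg a b s)) := by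
    have hbah : (b - a)ᴴ = b - a := by rw [Matrix.conjTranspose_sub, ha.1.herm, hb.1.herm]
    have h1 := hinv.conj (seg a b t - seg a b s)
    rw [hdiff, conjTranspose_rat_smul, hbah] at h1
    have h2 := b3.smul (q := η⁻¹ * (1 / (n:ℚ)) * (1 / (n:ℚ))) (by (clear * - hη1 hη2 hn1; positivity))
    have := h1.add h2
    convert this using 1
    rw [hdiff]
    simp only [Matrix.mul_sub, Matrix.sub_mul, Matrix.smul_mul, Matrix.mul_smul, Matrix.mul_one,
      Matrix.one_mul, smul_sub, smul_smul]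
    module
  have rel := stepB_rel hH hR hν (z := z) (zi := zi) (a := seg a b s) (ai := ai)
    (a' := seg a b t) (ai' := ai') pds.1 a1 a2 pdt.1 a1' a2' z1 z2 (l := (L : ℚ)⁻¹)
    (by (clear * - hL1; positivity)) (by
      have q1 := (hlow t ht0' ht1).add (hlow s ht0 ht1')
      have q2 := hupz.smul (q := (L : ℚ)⁻¹ * (L : ℚ)⁻¹) (by (clear * - hL1; positivity))
      have q3 := hdd.smul (q := (L : ℚ) * L) (by (clear * - hL1; positivity))
      have c1 : (0 : ℚ) ≤ ε - (L : ℚ)⁻¹ * (L : ℚ)⁻¹ * B := by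
        rw [sub_nonneg]
        have : (L : ℚ)⁻¹ * (L : ℚ)⁻¹ * B ≤ (L : ℚ)⁻¹ * (L : ℚ)⁻¹ * (L * L * ε) := by
          (clear * - hLB hL1; gcongr)
        refine le_trans this (le_of_eq ?_)
        (clear * - hL1 hε; field_simp)
      have c2 : (0 : ℚ) ≤ ε - (L : ℚ) * L * (η⁻¹ * (1 / (n:ℚ)) * (1 / (n:ℚ)) * B3) := by
        rw [sub_nonneg]
        have : (L : ℚ) * L * (η⁻¹ * (1 / (n:ℚ)) * (1 / (n:ℚ)) * B3) =
            ((L : ℚ) * L * B3 * η⁻¹) / (n * n) := by
          (clear * - hB3 hn1 hη hL1; field_simp)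
        rw [this, div_le_iff₀ (by (clear * - hn1; positivity))]
        linarith only [hnB]
      have q4 := (PSD.one (D := D) (ν := ν)).smul c1
      have q5 := (PSD.one (D := D) (ν := ν)).smul c2
      have := (((q1.add q2).add q3).add q4).add q5
      convert this using 1
      rw [inv_inv]
      module)
  have f1 := fz_PD_eq_one hH hR hν hg pds
  have f2 := fz_PD_eq_one hH hR hν hg pdt
  rw [f1, f2, mul_comm] at rel
  exact (mul_left_cancel rel).symm

end Vale.Agent.P011S

end

section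
set_option linter.unusedSectionVars false
set_option linter.unusedSimpArgs false

open Matrix

namespace Vale.Agent.P011S

variable {D : Type} [DivisionRing D] [StarRing D] [FormPos D] [CharZero D] [FiniteDimensional ℚ D]
variable {μ ν κ : Type} [Fintype μ] [DecidableEq μ] [Fintype ν] [DecidableEq ν]
  [Fintype κ] [DecidableEq κ]

theorem mul_eq_one_comm_matrix {X Y : Matrix ν ν D} (h : X * Y = 1) : Y * X = 1 := by
  have hu : IsUnit Y := isUnit_of_left_inj Y (fun w hw => by
    have : X * (Y * w) = w := by rw [← Matrix.mul_assoc, h, Matrix.one_mul]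
    rw [← this, hw, Matrix.mul_zero])
  obtain ⟨u, hu⟩ := hu
  have : X = ↑u⁻¹ := by
    calc X = X * (u * ↑u⁻¹) := by rw [Units.mul_inv, Matrix.mul_one]
      _ = ↑u⁻¹ := by rw [← Matrix.mul_assoc, hu, h, Matrix.one_mul]
  rw [this, ← hu, Units.mul_inv]

theorem IsU.gGi {G Gi g : Matrix ν ν D} (h1 : G * Gi = 1) (h2 : Gi * G = 1) (hg : IsU G g) :
    g * Gi * gᴴ = Gi := by
  have h3 : (Gi * gᴴ * G) * g = 1 := by
    calc (Gi * gᴴ * G) * g = Gi * (gᴴ * G * g) := by simp only [Matrix.mul_assoc]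
      _ = 1 := by rw [hg, h2]
  have h4 := mul_eq_one_comm_matrix h3
  calc g * Gi * gᴴ = g * (Gi * gᴴ * G) * Gi := by
        simp only [Matrix.mul_assoc]; rw [h1, Matrix.mul_one]
    _ = Gi := by rw [h4, Matrix.one_mul]

theorem IsU.adm {G Gi g : Matrix ν ν D} (hG : Gᴴ = G) (h1 : G * Gi = 1) (h2 : Gi * G = 1)
    (hg : IsU G g) : Adm G ((1 - g) * Gi) := by
  have hi : Giᴴ = Gi := conjTranspose_units_inv ⟨G, Gi, h1, h2⟩ hG
  have hw : ((1 - g) * Gi)ᴴ = Gi * (1 - gᴴ) := by
    rw [Matrix.conjTranspose_mul, hi, Matrix.conjTranspose_sub, Matrix.conjTranspose_one]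
  have hgg := hg.gGi h1 h2
  constructor
  · rw [hw]
    have : (1 - g) * Gi * G * (Gi * (1 - gᴴ)) = (1 - g) * Gi * (1 - gᴴ) := by
      rw [Matrix.mul_assoc (1 - g), h2, Matrix.mul_one, Matrix.mul_assoc]
    rw [this]
    simp only [Matrix.sub_mul, Matrix.mul_sub, Matrix.one_mul, Matrix.mul_one]
    rw [hgg]
    abel
  · rw [hw]
    have : Gi * (1 - gᴴ) * G * ((1 - g) * Gi) = Gi * ((1 - gᴴ) * G * (1 - g)) * Gi := by
      simp only [Matrix.mul_assoc]
    rw [this]
    have e : (1 - gᴴ) * G * (1 - g) = G + G - gᴴ * G - G * g := by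
      simp only [Matrix.sub_mul, Matrix.one_mul, Matrix.mul_sub, Matrix.mul_one]
      rw [hg]
      abel
    rw [e]
    simp only [Matrix.sub_mul, Matrix.mul_sub, Matrix.one_mul, Matrix.mul_one, Matrix.mul_add,
      Matrix.add_mul, ← Matrix.mul_assoc, h2]
    rw [Matrix.mul_assoc (Gi * gᴴ) G Gi, h1, Matrix.mul_one]
    abel

/-- class of the isometry acting as `g` on a frame with Gram matrix `G` -/
noncomputable def cg {H : Matrix μ μ D} (hH : An H) (G g : Matrix ν ν D) : Ab H :=
  cl hH G ((1 - g) * Ring.inverse G)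

theorem cg_eq {H : Matrix μ μ D} (hH : An H) {G Gi : Matrix ν ν D} (g : Matrix ν ν D)
    (h1 : G * Gi = 1) (h2 : Gi * G = 1) : cg hH G g = cl hH G ((1 - g) * Gi) := by
  unfold cg
  rw [inverse_eq h1 h2]

theorem IsU.mul {G g g' : Matrix ν ν D} (h : IsU G g) (h' : IsU G g') : IsU G (g * g') := by
  unfold IsU at *
  rw [Matrix.conjTranspose_mul]
  calc g'ᴴ * gᴴ * G * (g * g') = g'ᴴ * (gᴴ * G * g) * g' := by simp only [Matrix.mul_assoc]
    _ = G := by rw [h, h']

theorem IsU.one {G : Matrix ν ν D} : IsU G (1 : Matrix ν ν D) := by simp only [IsU, conjTranspose_one, one_mul, mul_one]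

theorem cg_mul {H : Matrix μ μ D} (hH : An H) {R : ℕ} (hR : Room H R)
    (hν : Fintype.card ν ≤ R) {G g g' : Matrix ν ν D} (hG : PD G) (hg : IsU G g)
    (hg' : IsU G g') : cg hH G (g * g') = cg hH G g * cg hH G g' := by
  obtain ⟨Gi, h1, h2, -⟩ := hG.exists_inv
  rw [cg_eq hH _ h1 h2, cg_eq hH _ h1 h2, cg_eq hH _ h1 h2]
  have e : (1 - g) * Gi + (1 - g') * Gi - (1 - g) * Gi * G * ((1 - g') * Gi)
      = (1 - g * g') * Gi := by
    rw [Matrix.mul_assoc (1 - g) Gi G, h2, Matrix.mul_one, ← Matrix.mul_assoc, ← Matrix.add_mul,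
      ← Matrix.sub_mul]
    congr 1
    noncomm_ring
  rw [← e]
  exact (cl_mul hH hR hν hG.1 (hg.adm hG.1.herm h1 h2) (hg'.adm hG.1.herm h1 h2)
    (by rw [e]; exact (hg.mul hg').adm hG.1.herm h1 h2)).symm

theorem cg_one {H : Matrix μ μ D} (hH : An H) {R : ℕ} (hR : Room H R)
    (hν : Fintype.card ν ≤ R) {G : Matrix ν ν D} (hG : PD G) :
    cg hH G (1 : Matrix ν ν D) = 1 := by
  have := cg_mul hH hR hν hG IsU.one IsU.one
  rw [Matrix.one_mul] at this
  exact (mul_eq_left.mp this.symm)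

theorem fz_congr {H : Matrix μ μ D} (hH : An H) {R : ℕ} (hR : Room H R)
    (hν : Fintype.card ν ≤ R) {Z W P Pi : Matrix ν ν D} (hZ : PSD (Z + Zᴴ))
    (z1 : Z * W = 1) (z2 : W * Z = 1)
    (p1 : P * Pi = 1) (p2 : Pi * P = 1) :
    fz hH (Pᴴ * Z * P) = fz hH Z := by
  have p1' : Piᴴ * Pᴴ = 1 := by rw [← Matrix.conjTranspose_mul, p1, Matrix.conjTranspose_one]
  have p2' : Pᴴ * Piᴴ = 1 := by rw [← Matrix.conjTranspose_mul, p2, Matrix.conjTranspose_one]
  have q1 : (Pᴴ * Z * P) * (Pi * W * Piᴴ) = 1 := by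
    calc (Pᴴ * Z * P) * (Pi * W * Piᴴ) = Pᴴ * (Z * (P * Pi) * W) * Piᴴ := by
          simp only [Matrix.mul_assoc]
      _ = 1 := by rw [p1, Matrix.mul_one, z1, Matrix.mul_one, p2']
  have q2 : (Pi * W * Piᴴ) * (Pᴴ * Z * P) = 1 := mul_eq_one_comm_matrix q1
  have e : Pᴴ * Z * P + (Pᴴ * Z * P)ᴴ = Pᴴ * (Z + Zᴴ) * P := by
    simp only [Matrix.mul_assoc, conjTranspose_mul, conjTranspose_conjTranspose, Matrix.mul_add, Matrix.add_mul]
  have hadm := adm_fz q1 q2
  rw [e] at hadm
  unfold fz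
  rw [inverse_eq q1 q2, inverse_eq z1 z2, e, cl_congr hH hR hν hZ P _ hadm]
  congr 1
  calc P * (Pi * W * Piᴴ) * Pᴴ = (P * Pi) * W * (Piᴴ * Pᴴ) := by
        simp only [Matrix.mul_assoc]
    _ = W := by rw [p1, p1', Matrix.one_mul, Matrix.mul_one]

/-- `G = Z + Zᴴ` for `Z = G (1 - g)⁻¹`. -/
theorem IsU.re {G Gi g y : Matrix ν ν D} (hG : Gᴴ = G) (h1 : G * Gi = 1) (h2 : Gi * G = 1)
    (hg : IsU G g) (y1 : (1 - g) * y = 1) (y2 : y * (1 - g) = 1) :
    G * y + (G * y)ᴴ = G := by
  have hadm := (hg.adm hG h1 h2).1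
  have hi : Giᴴ = Gi := conjTranspose_units_inv ⟨G, Gi, h1, h2⟩ hG
  have y1' : yᴴ * (1 - g)ᴴ = 1 := by rw [← Matrix.conjTranspose_mul, y1, Matrix.conjTranspose_one]
  have y2' : (1 - g)ᴴ * yᴴ = 1 := by rw [← Matrix.conjTranspose_mul, y2, Matrix.conjTranspose_one]
  rw [Matrix.conjTranspose_mul, hi] at hadm
  -- multiply by `G y` on the left and `yᴴ G` on the right
  have e : G * y * ((1 - g) * Gi + Gi * (1 - g)ᴴ) * (yᴴ * G) =
      G * y * ((1 - g) * Gi * G * (Gi * (1 - g)ᴴ)) * (yᴴ * G) := by rw [hadm]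
  have l : G * y * ((1 - g) * Gi + Gi * (1 - g)ᴴ) * (yᴴ * G) = yᴴ * G + G * y := by
    have l1 : G * y * ((1 - g) * Gi) = 1 := by
      calc G * y * ((1 - g) * Gi) = G * (y * (1 - g)) * Gi := by simp only [Matrix.mul_assoc]
        _ = 1 := by rw [y2, Matrix.mul_one, h1]
    have l2 : Gi * (1 - g)ᴴ * (yᴴ * G) = 1 := by
      calc Gi * (1 - g)ᴴ * (yᴴ * G) = Gi * ((1 - g)ᴴ * yᴴ) * G := by simp only [Matrix.mul_assoc]
        _ = 1 := by rw [y2', Matrix.mul_one, h2]
    rw [Matrix.mul_add, Matrix.add_mul, l1, Matrix.one_mul, Matrix.mul_assoc (G * y), l2,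
      Matrix.mul_one]
  have r : G * y * ((1 - g) * Gi * G * (Gi * (1 - g)ᴴ)) * (yᴴ * G) = G := by
    calc G * y * ((1 - g) * Gi * G * (Gi * (1 - g)ᴴ)) * (yᴴ * G)
        = G * (y * (1 - g)) * (Gi * G) * Gi * ((1 - g)ᴴ * yᴴ) * G := by
          simp only [Matrix.mul_assoc]
      _ = G := by rw [y2, h2, y2']; simp only [Matrix.mul_one]; rw [h1, Matrix.one_mul]
  rw [l, r] at e
  rw [Matrix.conjTranspose_mul, hG, add_comm]
  exact e

theorem cg_eq_fz {H : Matrix μ μ D} (hH : An H) {R : ℕ} (hR : Room H R)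
    (hν : Fintype.card ν ≤ R) {G Gi g y : Matrix ν ν D} (hG : PD G)
    (h1 : G * Gi = 1) (h2 : Gi * G = 1)
    (hg : IsU G g) (y1 : (1 - g) * y = 1) (y2 : y * (1 - g) = 1) :
    cg hH G g = fz hH (y * Gi) := by
  have hi : Giᴴ = Gi := conjTranspose_units_inv ⟨G, Gi, h1, h2⟩ hG.1.herm
  have z1 : (G * y) * ((1 - g) * Gi) = 1 := by
    calc G * y * ((1 - g) * Gi) = G * (y * (1 - g)) * Gi := by simp only [Matrix.mul_assoc]
      _ = 1 := by rw [y2, Matrix.mul_one, h1]
  have z2 := mul_eq_one_comm_matrix z1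
  have hre := hg.re hG.1.herm h1 h2 y1 y2
  have e1 : cg hH G g = fz hH (G * y) := by
    rw [cg_eq hH _ h1 h2]
    unfold fz
    rw [inverse_eq z1 z2, hre]
  have e2 := fz_congr hH hR hν (Z := G * y) (W := (1 - g) * Gi) (P := Gi) (Pi := G)
    (by rw [hre]; exact hG.1) z1 z2 h2 h1
  rw [e1, ← e2, hi]
  congr 1
  rw [← Matrix.mul_assoc, h2, Matrix.one_mul]

/-! ### Diagonal forms -/

end Vale.Agent.P011S

end

section
set_option linter.unusedSectionVars false
set_option linter.unusedSimpArgs false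

open Matrix

namespace Vale.Agent.P011S

variable {D : Type} [DivisionRing D] [StarRing D]

theorem HSq_of_sos {a : D} (h : a ∈ sos D) : HSq a := by
  obtain ⟨n, x, hx⟩ := psd_of_sos h
  refine ⟨n, fun i => x i (), ?_⟩
  have := congrFun (congrFun hx ()) ()
  rw [Matrix.mul_apply] at this
  simpa only [of_apply, conjTranspose_apply] using this

theorem Pos_of_sos {a : D} (h : a ∈ sos D) (h0 : a ≠ 0) : Pos a := ⟨h0, HSq_of_sos h⟩

/-- the one by one matrix -/
abbrev dg (u : D) : Matrix (Fin 1) (Fin 1) D := Matrix.diagonal fun _ => u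

theorem dg_mul (u v : D) : dg u * dg v = dg (u * v) := by
  rw [Matrix.diagonal_mul_diagonal]

theorem dg_add (u v : D) : dg u + dg v = dg (u + v) := by
  rw [Matrix.diagonal_add]

theorem dg_sub (u v : D) : dg u - dg v = dg (u - v) := by
  rw [Matrix.diagonal_sub]

theorem dg_one : dg (1 : D) = 1 := Matrix.diagonal_one

theorem dg_star (u : D) : (dg u)ᴴ = dg (star u) := by
  rw [Matrix.diagonal_conjTranspose]
  congr 1

theorem isU_dg {u : D} (h : star u * u = 1) : IsU (1 : Matrix (Fin 1) (Fin 1) D) (dg u) := by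
  unfold IsU
  rw [Matrix.mul_one, dg_star, dg_mul, h, dg_one]


end Vale.Agent.P011S

end

section
/-!
Reduced norms and the special unitary group.
-/

set_option linter.unusedSectionVars false
set_option linter.unusedSimpArgs false

open Matrix Module

namespace Vale.Agent.P011S

section redNorm

variable {K D F : Type} [Field K] [DivisionRing D] [Algebra K D] [Field F] [Algebra K F] {p : ℕ}
  (f : D →ₐ[K] Matrix (Fin p) (Fin p) F)
variable {μ ν κ : Type} [Fintype μ] [DecidableEq μ] [Fintype ν] [DecidableEq ν]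
  [Fintype κ] [DecidableEq κ]

/-- entrywise splitting of a rectangular matrix -/
def spl (x : Matrix μ ν D) : Matrix (μ × Fin p) (ν × Fin p) F :=
  Matrix.of fun a b => f (x a.1 b.1) a.2 b.2

theorem redNorm_apply (g : Matrix μ μ D) : redNorm f μ g = (spl f g).det := rfl

theorem spl_mul (x : Matrix μ ν D) (y : Matrix ν κ D) : spl f (x * y) = spl f x * spl f y := by
  ext ⟨i, r⟩ ⟨j, s⟩
  simp only [spl, Matrix.of_apply, Matrix.mul_apply, map_sum, Matrix.sum_apply, map_mul,
    Fintype.sum_prod_type]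

theorem spl_sub (x y : Matrix μ ν D) : spl f (x - y) = spl f x - spl f y := by
  ext ⟨i, r⟩ ⟨j, s⟩
  simp [spl]

theorem spl_one : spl f (1 : Matrix μ μ D) = 1 := by
  ext ⟨i, r⟩ ⟨j, s⟩
  by_cases h : i = j
  · subst h
    by_cases h2 : r = s
    · subst h2; simp only [spl, of_apply, one_apply_eq, map_one]
    · simp [spl, h2]
  · simp only [spl, of_apply, ne_eq, h, not_false_eq_true, one_apply_ne, map_zero, Matrix.zero_apply, Prod.mk.injEq, false_and]

theorem redNorm_one_sub_mul_comm (x : Matrix μ ν D) (y : Matrix ν μ D) :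
    redNorm f μ (1 - x * y) = redNorm f ν (1 - y * x) := by
  rw [redNorm_apply, redNorm_apply, spl_sub, spl_sub, spl_one, spl_one, spl_mul, spl_mul,
    Matrix.det_one_sub_mul_comm]

theorem redNorm_dg (u : D) : redNorm f (Fin 1) (dg u) = (f u).det := by
  rw [redNorm_apply]
  rw [← Matrix.det_submatrix_equiv_self (Equiv.uniqueProd (Fin p) (Fin 1)).symm]
  congr 1

theorem det_f_ne {x : D} (hx : x ≠ 0) : (f x).det ≠ 0 := by
  have h1 : f x * f x⁻¹ = 1 := by rw [← map_mul, mul_inv_cancel₀ hx, map_one]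
  have h2 := congrArg Matrix.det h1
  rw [Matrix.det_mul, Matrix.det_one] at h2
  intro h0
  rw [h0, zero_mul] at h2
  exact zero_ne_one h2

end redNorm

section

variable {K D F : Type} [Field K] [DivisionRing D] [Algebra K D] [Field F] [Algebra K F] {p : ℕ}
  (f : D →ₐ[K] Matrix (Fin p) (Fin p) F) [StarRing D] [FormPos D] [CharZero D]
  [FiniteDimensional ℚ D]
variable {μ : Type} [Fintype μ] [DecidableEq μ]

/-- reduced norm as a homomorphism on the unitary group -/
noncomputable def rn (H : Matrix μ μ D) : UH H →* Fˣ :=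
  (Units.map (redNorm f μ)).comp (UH H).subtype

theorem rn_val {H : Matrix μ μ D} (g : UH H) : ((rn f H g : Fˣ) : F) = redNorm f μ (mat g) := rfl

theorem rn_eq_of_cls {H : Matrix μ μ D} {g h : UH H} (e : cls g = cls h) :
    rn f H g = rn f H h := by
  have h1 : Abelianization.lift (rn f H) (cls g) = Abelianization.lift (rn f H) (cls h) := by
    rw [e]
  unfold cls at h1
  simpa using h1

theorem mem_SU {H : Matrix μ μ D} {g : (Matrix μ μ D)ˣ} :
    g ∈ SU f H ↔ ∃ h : g ∈ UH H, rn f H ⟨g, h⟩ = 1 := by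
  unfold SU
  rw [Subgroup.mem_inf, MonoidHom.mem_ker]
  constructor
  · rintro ⟨h1, h2⟩
    refine ⟨h1, ?_⟩
    ext
    exact h2
  · rintro ⟨h1, h2⟩
    refine ⟨h1, ?_⟩
    have := congrArg (fun x : Fˣ => (x : F)) h2
    exact this

/-- reduced norm on classes -/
noncomputable def rnA (H : Matrix μ μ D) : Ab H →* Fˣ := Abelianization.lift (rn f H)

theorem rnA_cls {H : Matrix μ μ D} (g : UH H) : rnA f H (cls g) = rn f H g := by
  unfold rnA cls
  simp

theorem cls_surj {H : Matrix μ μ D} (a : Ab H) : ∃ g : UH H, cls g = a :=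
  QuotientGroup.mk_surjective a

/-- inclusion of the special unitary group -/
noncomputable def inc (H : Matrix μ μ D) : SU f H →* UH H :=
  Subgroup.inclusion inf_le_left

theorem inc_injective (H : Matrix μ μ D) : Function.Injective (inc f H) :=
  Subgroup.inclusion_injective _

theorem rn_inc (H : Matrix μ μ D) (g : SU f H) : rn f H (inc f H g) = 1 := by
  obtain ⟨h, h2⟩ := (mem_SU f).mp g.2
  exact h2

theorem exists_inc {H : Matrix μ μ D} {g : UH H} (h : rn f H g = 1) :
    ∃ g' : SU f H, inc f H g' = g :=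
  ⟨⟨g, (mem_SU f).mpr ⟨g.2, h⟩⟩, rfl⟩

theorem rn_commutator {H : Matrix μ μ D} {g : UH H} (h : g ∈ commutator (UH H)) :
    rn f H g = 1 := by
  rw [← map_one (rn f H)]
  apply rn_eq_of_cls
  rw [cls_one]
  exact (cls_eq_one_iff g).mpr h

end

theorem scalar_of_lines {D : Type} [DivisionRing D] {μ : Type} [Fintype μ] [DecidableEq μ]
    {s : Matrix μ μ D} {i0 j0 : μ} (hij : i0 ≠ j0)
    (h : ∀ x : Matrix μ Unit D, ∃ c : Matrix Unit Unit D, s * x = x * c) :
    ∃ c : D, (∀ d, c * d = d * c) ∧ s = Matrix.diagonal fun _ => c := by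
  have h' : ∀ v : μ → D, ∃ c : D, ∀ i, ∑ j, s i j * v j = v i * c := by
    intro v
    obtain ⟨c, hc⟩ := h (Matrix.of fun i _ => v i)
    refine ⟨c () (), fun i => ?_⟩
    have := congrFun (congrFun hc i) ()
    simpa only [Matrix.mul_apply, of_apply, Finset.univ_unique, PUnit.default_eq_unit, Finset.sum_singleton] using     this
  have hoff : ∀ i j, i ≠ j → s i j = 0 := by
    intro i j hne
    obtain ⟨c, hc⟩ := h' (Pi.single j 1)
    have := hc i
    rw [Finset.sum_eq_single j (by intro k _ hk; simp [hk]) (by intro h; simp only [Finset.mem_univ, not_true_eq_false] at h)] at this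
    simpa [hne] using this
  have hpair : ∀ i j, i ≠ j → ∀ d : D, s j j * d = d * s i i := by
    intro i j hne d
    obtain ⟨c, hc⟩ := h' (Pi.single i 1 + Pi.single j d)
    have h1 := hc i
    have h2 := hc j
    rw [Finset.sum_eq_single i (by
      intro k _ hk
      rw [hoff i k (Ne.symm hk), zero_mul]) (by intro h; simp only [Finset.mem_univ, not_true_eq_false] at h)] at h1
    rw [Finset.sum_eq_single j (by
      intro k _ hk
      rw [hoff j k (Ne.symm hk), zero_mul]) (by intro h; simp only [Finset.mem_univ, not_true_eq_false] at h)] at h2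
    have h3 : s i i = c := by simpa [hne] using h1
    have h4 : s j j * d = d * c := by simpa only [Pi.add_apply, ne_eq, Ne.symm hne, not_false_eq_true, Pi.single_eq_of_ne, Pi.single_eq_same,     zero_add] using h2
    rw [h4, h3]
  have hdiag : ∀ i j, i ≠ j → s j j = s i i := by
    intro i j hne
    have := hpair i j hne 1
    simpa using this
  refine ⟨s i0 i0, fun d => ?_, ?_⟩
  · have := hpair i0 j0 hij d
    rwa [hdiag i0 j0 hij] at this
  · ext i j
    by_cases hh : i = j
    · subst hh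
      rw [Matrix.diagonal_apply_eq]
      by_cases hi : i = i0
      · rw [hi]
      · exact hdiag i0 i (Ne.symm hi)
    · rw [hoff i j hh, Matrix.diagonal_apply_ne _ hh]

section

variable {D : Type} [DivisionRing D] [StarRing D] [FormPos D] [CharZero D]
  [FiniteDimensional ℚ D]
variable {μ : Type} [Fintype μ] [DecidableEq μ]

/-- a form with room has dimension at least two. -/
theorem exists_ne_of_room {H : Matrix μ μ D} (hR : Room H 2) :
    ∃ i j : μ, i ≠ j := by
  by_contra hcon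
  push Not at hcon
  -- a nonzero vector exists
  obtain ⟨x, hx⟩ := hR.exists_frame (ν := Unit) (by simp) (PSD.one (D := D) (ν := Unit))
  obtain ⟨y, hy, hxy⟩ := hR Unit Unit (by simp) x 1 PSD.one
  have hx0 : x ≠ 0 := by
    rintro rfl
    simp at hx
  have hex : ∃ i, x i () ≠ 0 := by
    by_contra h
    push Not at h
    apply hx0
    ext i j
    exact h i
  obtain ⟨i, hi⟩ := hex
  -- every vector is a multiple of `x`
  obtain ⟨c, hcd⟩ : ∃ c : Matrix Unit Unit D, c = Matrix.of fun _ _ => (x i ())⁻¹ * y i () :=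
    ⟨_, rfl⟩
  have hyx : y = x * c := by
    ext j k
    rw [hcon j i, hcd, Matrix.mul_apply]
    simp only [Finset.univ_unique, PUnit.default_eq_unit, of_apply, ← mul_assoc, mul_inv_cancel₀ hi, one_mul, Finset.sum_const, Finset.card_singleton, one_smul]
  rw [hyx, ← Matrix.mul_assoc, hx, Matrix.one_mul] at hxy
  rw [hyx, hxy, Matrix.mul_zero] at hy
  simp at hy

end

end Vale.Agent.P011S

end

section
/-!
Local homomorphism property of the class of quasi-reflections on lines.
-/

set_option linter.unusedSectionVars false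
set_option linter.unusedSimpArgs false

open Matrix

namespace Vale.Agent.P011S

variable {D : Type} [DivisionRing D] [StarRing D] [FormPos D] [CharZero D] [FiniteDimensional ℚ D]
variable {μ : Type} [Fintype μ] [DecidableEq μ]

/-- class of a quasi-reflection with parameter `z` on a line -/
noncomputable def fd {H : Matrix μ μ D} (hH : An H) (z : D) : Ab H := fz hH (dg z)

/-- class of the isometry `u` of a line of norm one -/
noncomputable def ph {H : Matrix μ μ D} (hH : An H) (u : D) : Ab H := cg hH 1 (dg u)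

theorem dg_mul_inv {z : D} (hz : z ≠ 0) : dg z * dg z⁻¹ = 1 := by
  rw [dg_mul, mul_inv_cancel₀ hz, dg_one]

theorem dg_inv_mul {z : D} (hz : z ≠ 0) : dg z⁻¹ * dg z = 1 := by
  rw [dg_mul, inv_mul_cancel₀ hz, dg_one]

theorem psd_dg {a : D} (ha : a ∈ sos D) : PSD (dg a) := PSD.diagonal fun _ => HSq_of_sos ha

theorem pd_dg {a : D} (ha : a ∈ sos D) (h0 : a ≠ 0) : PD (dg a) :=
  PD.diagonal fun _ => Pos_of_sos ha h0

theorem two_ne : (2 : D) ≠ 0 := two_ne_zero

theorem sos_two : (2 : D) ∈ sos D := by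
  have := sos_nat (D := D) 2
  simpa using this

theorem fd_block {H : Matrix μ μ D} (hH : An H) {R : ℕ} (hR : Room H R) (h2 : 2 ≤ R)
    {p q r s : D} (hp : p ≠ 0) (hs : s ≠ 0) (ht : s - r * p⁻¹ * q ≠ 0)
    (hw : p - q * s⁻¹ * r ≠ 0)
    (hG : PSD (Matrix.fromBlocks (dg (p + star p)) (dg (q + star r)) (dg (r + star q))
      (dg (s + star s)))) :
    fd hH p * fd hH (s - r * p⁻¹ * q) = fd hH s * fd hH (p - q * s⁻¹ * r) := by
  refine fz_block hH hR (by simpa using h2) (dg_mul_inv hp) (dg_inv_mul hp) (dg_mul_inv hs)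
    (dg_inv_mul hs) (dg_mul_inv ht) (dg_inv_mul ht) (dg_mul_inv hw) (dg_inv_mul hw)
    (q := dg q) (r := dg r) ?_ ?_ ?_
  · rw [dg_mul, dg_mul, dg_sub]
  · rw [dg_mul, dg_mul, dg_sub]
  · rw [dg_star, dg_star, dg_star, dg_star, dg_add, dg_add, dg_add, dg_add]
    exact hG

theorem mul_half (a : D) : a * 2⁻¹ = 2⁻¹ * a := by
  have : (2 : D)⁻¹ = (((1 / 2 : ℚ)) : D) := by norm_num
  rw [this]; exact (Rat.cast_comm _ _).symm

theorem sos_half {a : D} (ha : a ∈ sos D) : 2⁻¹ * a ∈ sos D := by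
  have := sos_rat ha (q := 1 / 2) (by norm_num)
  convert this using 2
  norm_num

theorem schur_left {z q : D} (h : 2 * (z + star z) - star (q + 1) * (q + 1) ∈ sos D) :
    PSD (Matrix.fromBlocks (dg (1 + star (1 : D))) (dg (q + star 1)) (dg (1 + star q))
      (dg (z + star z))) := by
  have h3 := sos_half h
  have h4 := PSD.schur11 (h11 := dg 2) (h11i := dg 2⁻¹) (h12 := dg (q + 1))
    (h22 := dg (z + star z)) (psd_dg sos_two) (dg_mul_inv two_ne) (dg_inv_mul two_ne) (by
      rw [dg_star, dg_mul, dg_mul, dg_sub]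
      apply psd_dg
      convert h3 using 1
      rw [mul_half, mul_assoc, mul_sub, ← mul_assoc (2 : D)⁻¹ 2,
        inv_mul_cancel₀ two_ne, one_mul])
  rw [dg_star, star_add, star_one] at h4
  rw [star_one, add_comm 1 (star q)]
  convert h4 using 3
  norm_num

theorem fd_mul_left {H : Matrix μ μ D} (hH : An H) {R : ℕ} (hR : Room H R) (h2 : 2 ≤ R)
    {z z' : D} (hz : z ≠ 0) (hz' : z' ≠ 0)
    (h : 2 * (z + star z) - star ((1 - z') * z + 1) * ((1 - z') * z + 1) ∈ sos D) :
    fd hH z * fd hH z' = fd hH 1 * fd hH (z' * z) := by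
  have e1 : z - 1 * (1 : D)⁻¹ * ((1 - z') * z) = z' * z := by
    rw [inv_one, one_mul, one_mul]; noncomm_ring
  have e2 : 1 - (1 - z') * z * z⁻¹ * 1 = z' := by
    rw [mul_one, mul_assoc, mul_inv_cancel₀ hz, mul_one]; abel
  have := fd_block hH hR h2 (p := 1) (q := (1 - z') * z) (r := 1) (s := z) one_ne_zero hz
    (by rw [e1]; exact mul_ne_zero hz' hz) (by rw [e2]; exact hz') (schur_left h)
  rw [e1, e2] at this
  exact this.symm

/-! ### Link with unit elements -/

theorem fd_scale {H : Matrix μ μ D} (hH : An H) {R : ℕ} (hR : Room H R) (h2 : 2 ≤ R)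
    {c c' : D} (hc : Good c c') {z : D} (hz : z + star z = 2) :
    fd hH (z * 2⁻¹) = fd hH z := by
  have hz0 : z ≠ 0 := by
    rintro rfl
    simp at hz
  have h2' : ((2 : D)⁻¹) ∈ sos D := sos_inv sos_two
  have hs : star (2 : D)⁻¹ = 2⁻¹ := sos_star h2'
  have := stepB hH hR (by simpa using h2) hc (z := dg z) (zi := dg z⁻¹) (a := dg 2⁻¹) (b := 1)
    (dg_mul_inv hz0) (dg_inv_mul hz0) (pd_dg h2' (inv_ne_zero two_ne)) PD.one ?_ ?_
  · rw [Matrix.mul_one, dg_mul] at this
    exact this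
  · rw [dg_star, dg_mul, dg_mul, dg_add, ← mul_half, ← add_mul, hz, mul_inv_cancel₀ two_ne, dg_one]
    exact PD.one
  · rw [Matrix.mul_one, Matrix.one_mul, dg_star, dg_add, hz]
    exact pd_dg sos_two two_ne

theorem ph_eq_fd {H : Matrix μ μ D} (hH : An H) {R : ℕ} (hR : Room H R) (h2 : 2 ≤ R)
    {u : D} (hu : star u * u = 1) (hu1 : 1 - u ≠ 0) : ph hH u = fd hH (1 - u)⁻¹ := by
  unfold ph fd
  rw [cg_eq_fz hH hR (by simpa using by omega) PD.one (Matrix.mul_one 1) (Matrix.mul_one 1)
    (isU_dg hu) (y := dg (1 - u)⁻¹) (by rw [← dg_one, dg_sub, dg_mul_inv hu1, dg_one])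
    (by rw [← dg_one, dg_sub, dg_inv_mul hu1, dg_one]), Matrix.mul_one]

theorem ph_mul {H : Matrix μ μ D} (hH : An H) {R : ℕ} (hR : Room H R) (h2 : 2 ≤ R)
    {u v : D} (hu : star u * u = 1) (hv : star v * v = 1) :
    ph hH (u * v) = ph hH u * ph hH v := by
  unfold ph
  rw [← dg_mul, cg_mul hH hR (by simpa only [Fintype.card_unique] using by omega) PD.one (isU_dg hu) (isU_dg hv)]

theorem ph_one {H : Matrix μ μ D} (hH : An H) {R : ℕ} (hR : Room H R) (h2 : 2 ≤ R) :
    ph hH (1 : D) = 1 := by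
  unfold ph
  rw [dg_one, cg_one hH hR (by simpa using by omega) PD.one]

theorem one_add_skew_ne {s : D} (hs : star s = -s) : 1 + s ≠ 0 := one_add_ne_zero_of_skew hs

theorem one_sub_skew_ne {s : D} (hs : star s = -s) : 1 - s ≠ 0 := by
  have := one_add_ne_zero_of_skew (c := -s) (by rw [star_neg, hs])
  rwa [← sub_eq_add_neg] at this

/-- the Cayley transform -/
def cay (s : D) : D := (1 - s) * (1 + s)⁻¹

theorem cay_unit {s : D} (hs : star s = -s) : star (cay s) * cay s = 1 := by
  have h1 := one_add_skew_ne hs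
  have h2 := one_sub_skew_ne hs
  unfold cay
  rw [star_mul, star_inv₀, star_add, star_sub, star_one, hs, ← sub_eq_add_neg, sub_neg_eq_add]
  calc (1 - s)⁻¹ * (1 + s) * ((1 - s) * (1 + s)⁻¹)
      = (1 - s)⁻¹ * ((1 + s) * (1 - s)) * (1 + s)⁻¹ := by simp only [mul_assoc]
    _ = (1 - s)⁻¹ * ((1 - s) * (1 + s)) * (1 + s)⁻¹ := by
        congr 2; noncomm_ring
    _ = 1 := by rw [← mul_assoc, inv_mul_cancel₀ h2, one_mul, mul_inv_cancel₀ h1]

theorem neg_one_unit : star (-1 : D) * (-1) = 1 := by simp only [star_neg, star_one, mul_neg, mul_one, neg_neg]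

theorem fd_skew {H : Matrix μ μ D} (hH : An H) {R : ℕ} (hR : Room H R) (h2 : 2 ≤ R)
    {c c' : D} (hc : Good c c') {s : D} (hs : star s = -s) :
    fd hH (1 + s) = ph hH (-1) * ph hH (cay s) := by
  have h1 := one_add_skew_ne hs
  have h4 : ((1 : D) + s) * (1 + s)⁻¹ = 1 := mul_inv_cancel₀ h1
  have h3 : (1 : D) - (-1) * cay s = (1 + 1) * (1 + s)⁻¹ := by
    unfold cay
    calc (1 : D) - (-1) * ((1 - s) * (1 + s)⁻¹)
        = (1 + s) * (1 + s)⁻¹ + (1 - s) * (1 + s)⁻¹ := by rw [h4]; noncomm_ring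
      _ = (1 + 1) * (1 + s)⁻¹ := by rw [← add_mul]; congr 1; abel
  have h5 : ((1 + 1) * (1 + s)⁻¹)⁻¹ = (1 + s) * 2⁻¹ := by
    rw [_root_.mul_inv_rev, inv_inv, show (1 + 1 : D) = 2 by norm_num]
  rw [← ph_mul hH hR h2 neg_one_unit (cay_unit hs), ph_eq_fd hH hR h2, h3, h5]
  · exact (fd_scale hH hR h2 hc (by
      rw [star_add, star_one, hs, show (2 : D) = 1 + 1 by norm_num]; abel)).symm
  · rw [star_mul, star_neg, star_one]
    have := cay_unit hs
    simpa only [mul_neg, mul_one, neg_mul, one_mul, neg_neg] using this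
  · rw [h3]
    exact mul_ne_zero (by norm_num) (inv_ne_zero h1)

end Vale.Agent.P011S

end

section
/-!
The class of the quasi-reflection with parameter `z` is the class of a reflection when `z` is a
product of two skew elements.
-/

set_option linter.unusedSectionVars false
set_option linter.unusedSimpArgs false

open Matrix

namespace Vale.Agent.P011S

variable {D : Type} [DivisionRing D] [StarRing D] [FormPos D] [CharZero D] [FiniteDimensional ℚ D]
variable {μ : Type} [Fintype μ] [DecidableEq μ]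

theorem fd_one {H : Matrix μ μ D} (hH : An H) {R : ℕ} (hR : Room H R) (h2 : 2 ≤ R)
    {c c' : D} (hc : Good c c') : fd hH (1 : D) = ph hH (-1) := by
  have := fd_skew hH hR h2 hc (s := (0 : D)) (by simp only [star_zero, neg_zero])
  rw [add_zero] at this
  rw [this]
  have h : cay (0 : D) = 1 := by simp [cay]
  rw [h, ph_one hH hR h2, mul_one]

end Vale.Agent.P011S

end

section
set_option linter.unusedSectionVars false

namespace Vale.Agent.P011S

open Module Matrix

variable {D : Type} [DivisionRing D] [StarRing D] [CharZero D] [FiniteDimensional ℚ D]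

/-- strict positivity of the quadratic form of a real matrix -/
def PosQ {N : ℕ} (A : Matrix (Fin N) (Fin N) ℝ) : Prop :=
  ∀ y : Fin N → ℝ, y ≠ 0 → 0 < y ⬝ᵥ (A *ᵥ y)

/-- accretive elements -/
def Acc (z : D) : Prop := z + star z ∈ sos D ∧ z + star z ≠ 0

variable (D) in
/-- a faithful real matrix representation compatible with positivity -/
structure RealRep (N : ℕ) where
  toFun : D →+* Matrix (Fin N) (Fin N) ℝ
  star' : ∀ x, toFun (star x) = (toFun x)ᵀ
  pos : ∀ a, star a = a → PosQ (toFun a) → a ∈ sos D ∧ a ≠ 0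
  pos' : ∀ a ∈ sos D, a ≠ 0 → PosQ (toFun a)

end Vale.Agent.P011S

end
end

section

section
/-!
Multiplicativity of the class of quasi-reflections on lines, on all of the accretive elements.
-/

set_option linter.unusedSectionVars false
set_option linter.unusedSimpArgs false

open Matrix

namespace Vale.Agent.P011S

section sosbounds

variable {D : Type} [DivisionRing D] [StarRing D] [CharZero D]

theorem sos_smul {a : D} (ha : a ∈ sos D) {q : ℚ} (hq : 0 ≤ q) : q • a ∈ sos D := by
  rw [Rat.smul_def]; exact sos_rat ha hq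

/-- the segment from `a` to `b` -/
def sg (a b : D) (t : ℚ) : D := (1 - t) • a + t • b

theorem sg_zero (a b : D) : sg a b 0 = a := by simp [sg]
theorem sg_one (a b : D) : sg a b 1 = b := by simp [sg]

theorem sg_mul (a b w : D) (t : ℚ) : sg a b t * w = sg (a * w) (b * w) t := by
  simp only [sg, add_mul, smul_mul_assoc]

theorem mul_sg (a b w : D) (t : ℚ) : w * sg a b t = sg (w * a) (w * b) t := by
  simp only [sg, mul_add, mul_smul_comm]

theorem sg_sub (a b : D) (s t : ℚ) : sg a b s - sg a b t = (s - t) • (b - a) := by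
  simp only [sg]; module

/-- upper bound -/
def Up (N : ℚ) (x : D) : Prop := N • (1 : D) - star x * x ∈ sos D

/-- lower bound of the real part -/
def Lo (m : ℚ) (x : D) : Prop := x + star x - m • (1 : D) ∈ sos D

theorem Up.mono {N N' : ℚ} {x : D} (h : Up N x) (hN : N ≤ N') : Up N' x := by
  have := (sos D).add_mem h (sos_smul (sos_one (D := D)) (sub_nonneg.mpr hN))
  unfold Up
  convert this using 1
  module

theorem Lo.mono {m m' : ℚ} {x : D} (h : Lo m x) (hm : m' ≤ m) : Lo m' x := by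
  have := (sos D).add_mem h (sos_smul (sos_one (D := D)) (sub_nonneg.mpr hm))
  unfold Lo
  convert this using 1
  module

theorem Lo.star' {m : ℚ} {x : D} (h : Lo m x) : Lo m (star x) := by
  unfold Lo at *
  rwa [star_star, add_comm (star x) x]

theorem Up.seg' {N : ℚ} {a b : D} {t : ℚ} (h0 : 0 ≤ t) (h1 : t ≤ 1) (ha : Up N a) (hb : Up N b) :
    Up N (sg a b t) := by
  have h2 := sos_smul ha (sub_nonneg.mpr h1)
  have h3 := sos_smul hb h0
  have h4 := sos_smul (sos_star_mul (a - b)) (mul_nonneg h0 (sub_nonneg.mpr h1))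
  have h5 := (sos D).add_mem ((sos D).add_mem h2 h3) h4
  unfold Up
  convert h5 using 1
  simp only [sg, star_add, star_sub, star_smul_rat, add_mul, mul_add, sub_mul,
    mul_sub, smul_mul_assoc, mul_smul_comm, smul_smul]
  module

theorem Lo.seg' {m : ℚ} {a b : D} {t : ℚ} (h0 : 0 ≤ t) (h1 : t ≤ 1) (ha : Lo m a) (hb : Lo m b) :
    Lo m (sg a b t) := by
  have h2 := sos_smul ha (sub_nonneg.mpr h1)
  have h3 := sos_smul hb h0
  have h5 := (sos D).add_mem h2 h3
  unfold Lo
  convert h5 using 1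
  simp only [sg, star_add, star_smul_rat]
  module

theorem Lo.sq' {m : ℚ} {z : D} (hm : 0 ≤ m) (h : Lo m z) :
    star z * z - (m ^ 2 / 4) • (1 : D) ∈ sos D := by
  have h1 := sos_star_mul (z - (m / 2) • (1 : D))
  have h2 := sos_smul h (q := m / 2) (by positivity)
  convert (sos D).add_mem h1 h2 using 1
  simp only [star_sub, star_smul_rat, star_one, mul_sub, sub_mul, smul_mul_assoc, one_mul, mul_smul_comm, mul_one]
  module

theorem inv_bound {z : D} {q : ℚ} (hz : z ≠ 0) (hq : 0 < q)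
    (h : star z * z - q • (1 : D) ∈ sos D) : Up q⁻¹ z⁻¹ := by
  have h1 := sos_smul (sos_conj' h z⁻¹) (inv_nonneg.mpr hq.le)
  unfold Up
  convert h1 using 1
  have h2 : star z⁻¹ * (star z * z) * z⁻¹ = 1 := by
    rw [← mul_assoc, ← star_mul, mul_inv_cancel₀ hz, star_one, one_mul, mul_inv_cancel₀ hz]
  rw [mul_sub, sub_mul, h2, mul_smul_comm, smul_mul_assoc, mul_one, smul_sub, smul_smul,
    inv_mul_cancel₀ hq.ne', one_smul]

theorem ratio_up {z e : D} (hz : z ≠ 0) {m B : ℚ} (r : ℚ) (hm : 0 < m) (hB : 0 ≤ B) (hlo : Lo m z)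
    (he : Up B e) : Up (r ^ 2 * (B * (4 / m ^ 2))) (r • (e * z⁻¹)) := by
  have h1 := inv_bound hz (q := m ^ 2 / 4) (by positivity) (Lo.sq' hm.le hlo)
  have h2 := sos_conj' he z⁻¹
  have h3 := (sos D).add_mem h2 (sos_smul h1 hB)
  have h4 := sos_smul h3 (sq_nonneg r)
  unfold Up
  convert h4 using 1
  simp only [star_smul_rat, star_mul, smul_mul_assoc, mul_smul_comm, smul_smul, mul_sub, sub_mul,
    mul_assoc, one_mul, mul_one, smul_sub]
  rw [show (m ^ 2 / 4)⁻¹ = 4 / m ^ 2 by rw [inv_div]]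
  module

variable [FormPos D] [FiniteDimensional ℚ D]

theorem exists_up (x : D) : ∃ N : ℚ, 0 < N ∧ Up N x := by
  obtain ⟨q, hq, h⟩ := bdd_sq (star x)
  refine ⟨q + 1, by positivity, ?_⟩
  have h1 := (sos D).add_mem h sos_one
  unfold Up
  convert h1 using 1
  rw [star_star, Rat.smul_def, mul_one]
  push_cast
  abel

theorem exists_lo {z : D} (hz : Acc z) : ∃ m : ℚ, 0 < m ∧ Lo m z := by
  obtain ⟨q, hq, h⟩ := arch (a := (1 : D)) (by simp) hz.1 hz.2
  refine ⟨q⁻¹, inv_pos.mpr hq, ?_⟩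
  have h1 := sos_smul h (inv_nonneg.mpr hq.le)
  unfold Lo
  convert h1 using 1
  rw [smul_sub, ← Rat.smul_def, smul_smul, inv_mul_cancel₀ hq.ne', one_smul]

theorem Lo.acc {z : D} {m : ℚ} (hm : 0 < m) (h : Lo m z) : Acc z := by
  have h1 : m • (1 : D) ∈ sos D := sos_smul sos_one hm.le
  have h2 := (sos D).add_mem h h1
  have h3 : z + star z - m • (1 : D) + m • (1 : D) = z + star z := by abel
  rw [h3] at h2
  refine ⟨h2, ?_⟩
  intro h0
  have h4 : -(m • (1 : D)) ∈ sos D := by
    unfold Lo at h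
    rw [h0, zero_sub] at h
    exact h
  have h5 := sos_antisymm h1 h4
  rcases smul_eq_zero.mp h5 with h6 | h6
  · exact hm.ne' h6
  · exact one_ne_zero h6

theorem Acc.ne {z : D} (hz : Acc z) : z ≠ 0 := by
  rintro rfl
  exact hz.2 (by simp)

/-- constancy along segments -/
theorem path_const {a b : D} (ha : Acc a) (hb : Acc b) {α : Type} (F : D → α)
    {ε : ℚ} (hε : 0 < ε)
    (h : ∀ s t : ℚ, 0 ≤ s → s ≤ 1 → 0 ≤ t → t ≤ 1 →
      Up ε (1 - sg a b t * (sg a b s)⁻¹) → Up ε (star (1 - (sg a b s)⁻¹ * sg a b t)) →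
      F (sg a b s) = F (sg a b t)) : F a = F b := by
  obtain ⟨m1, hm1, l1⟩ := exists_lo ha
  obtain ⟨m2, hm2, l2⟩ := exists_lo hb
  obtain ⟨B1, hB1, u1⟩ := exists_up (a - b)
  obtain ⟨B2, hB2, u2⟩ := exists_up (star (a - b))
  set m := min m1 m2 with hmd
  have hm : 0 < m := lt_min hm1 hm2
  set B := max B1 B2 with hBd
  have hB : 0 < B := lt_max_of_lt_left hB1
  have l1' : Lo m a := l1.mono (min_le_left _ _)
  have l2' : Lo m b := l2.mono (min_le_right _ _)
  have u1' : Up B (a - b) := u1.mono (le_max_left _ _)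
  have u2' : Up B (star (a - b)) := u2.mono (le_max_right _ _)
  set K := B * (4 / m ^ 2) with hK
  have hKpos : 0 < K := by (clear * - hB1 hm1 hm2; positivity)
  obtain ⟨n, hn⟩ := exists_nat_gt (max 1 (K / ε))
  have hn1 : (1 : ℚ) < n := lt_of_le_of_lt (le_max_left _ _) hn
  have hn0 : (0 : ℚ) < n := by linarith only [hn1]
  have hn2 : K / ε < n := lt_of_le_of_lt (le_max_right _ _) hn
  have hle : (1 / (n : ℚ)) ^ 2 * K ≤ ε := by
    rw [div_lt_iff₀ hε] at hn2
    rw [div_pow, one_pow, div_mul_eq_mul_div, one_mul, div_le_iff₀ (by (clear * - hn1; positivity))]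
    nlinarith only [hn2, hKpos, hn1]
  have e0 : F (sg a b 0) = F (sg a b 1) := by
    refine chain_const (fun t => F (sg a b t)) n (by exact_mod_cast hn0) ?_
    intro j hj
    have ht0 : (0 : ℚ) ≤ (j : ℚ) / n := by (clear * - hn1; positivity)
    have ht1 : ((j : ℚ) + 1) / n ≤ 1 := by
      rw [div_le_one hn0]; exact_mod_cast hj
    have ht0' : (0 : ℚ) ≤ ((j : ℚ) + 1) / n := by (clear * - hn1; positivity)
    have ht1' : (j : ℚ) / n ≤ 1 := le_trans (by gcongr; linarith only []) ht1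
    have e : ((j + 1 : ℕ) : ℚ) / n = ((j : ℚ) + 1) / n := by push_cast; rfl
    simp only [e]
    have lo : Lo m (sg a b ((j : ℚ) / n)) := Lo.seg' ht0 ht1' l1' l2'
    have hne : sg a b ((j : ℚ) / n) ≠ 0 := (Lo.acc hm lo).ne
    have hsub : sg a b ((j : ℚ) / n) - sg a b (((j : ℚ) + 1) / n) = (1 / (n : ℚ)) • (a - b) := by
      rw [sg_sub]
      have : (j : ℚ) / n - (j + 1) / n = - (1 / n) := by ring
      rw [this]; module
    refine h _ _ ht0 ht1' ht0' ht1 ?_ ?_
    · have h1 : (1 : D) - sg a b (((j : ℚ) + 1) / n) * (sg a b ((j : ℚ) / n))⁻¹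
          = (1 / (n : ℚ)) • ((a - b) * (sg a b ((j : ℚ) / n))⁻¹) := by
        rw [← smul_mul_assoc, ← hsub, sub_mul, mul_inv_cancel₀ hne]
      rw [h1]
      exact (ratio_up hne _ hm hB.le lo u1').mono hle
    · have h1 : star ((1 : D) - (sg a b ((j : ℚ) / n))⁻¹ * sg a b (((j : ℚ) + 1) / n))
          = (1 / (n : ℚ)) • (star (a - b) * (star (sg a b ((j : ℚ) / n)))⁻¹) := by
        have : (1 : D) - (sg a b ((j : ℚ) / n))⁻¹ * sg a b (((j : ℚ) + 1) / n)
          = (sg a b ((j : ℚ) / n))⁻¹ * ((1 / (n : ℚ)) • (a - b)) := by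
          rw [← hsub, mul_sub, inv_mul_cancel₀ hne]
        rw [this, star_mul, star_inv₀, star_smul_rat, smul_mul_assoc]
      rw [h1]
      exact (ratio_up (star_ne_zero.mpr hne) _ hm hB.le (Lo.star' lo) u2').mono hle
  rwa [sg_zero, sg_one] at e0

theorem Acc.sg' {a b : D} (ha : Acc a) (hb : Acc b) {t : ℚ} (h0 : 0 ≤ t)
    (h1 : t ≤ 1) : Acc (sg a b t) := by
  obtain ⟨m1, hm1, l1⟩ := exists_lo ha
  obtain ⟨m2, hm2, l2⟩ := exists_lo hb
  exact Lo.acc (lt_min hm1 hm2)
    (Lo.seg' h0 h1 (l1.mono (min_le_left _ _)) (l2.mono (min_le_right _ _)))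

theorem Acc.star' {z : D} (hz : Acc z) : Acc (star z) := by
  unfold Acc at *
  rwa [star_star, add_comm (star z) z]

/-- elements near one are accretive -/
theorem acc_of_near {y : D} {δ : ℚ} (hδ : δ < 1) (h : Up δ (1 - y)) : Acc y := by
  have h1 := sos_star_mul ((1 : D) - (1 - y))
  refine Lo.acc (m := 1 - δ) (by linarith) ?_
  have h2 := (sos D).add_mem h (sos_star_mul y)
  unfold Lo
  convert h2 using 1
  simp only [star_sub, star_one, mul_sub, mul_one, sub_mul, one_mul]
  module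

end sosbounds

section classes

variable {D : Type} [DivisionRing D] [StarRing D] [FormPos D] [CharZero D] [FiniteDimensional ℚ D]
variable {μ : Type} [Fintype μ] [DecidableEq μ]

theorem fd_smul {H : Matrix μ μ D} (hH : An H) {R : ℕ} (hR : Room H R) (h2 : 2 ≤ R)
    {c c' : D} (hc : Good c c') {z : D} (hz : Acc z) {q : ℚ} (hq : 0 < q) :
    fd hH (q • z) = fd hH z := by
  have hz0 := hz.ne
  have hs : q • (1 : D) ∈ sos D := sos_smul sos_one hq.le
  have hs0 : q • (1 : D) ≠ 0 := smul_ne_zero hq.ne' one_ne_zero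
  have := stepB hH hR (by simpa using h2) hc (z := dg z) (zi := dg z⁻¹) (a := dg (q • (1 : D)))
    (b := 1) (dg_mul_inv hz0) (dg_inv_mul hz0) (pd_dg hs hs0) PD.one ?_ ?_
  · rw [Matrix.mul_one, dg_mul, mul_smul_comm, mul_one] at this
    exact this
  · rw [dg_star, dg_mul, dg_mul, dg_add, mul_smul_comm, mul_one, smul_mul_assoc, one_mul,
      ← smul_add]
    exact pd_dg (sos_smul hz.1 hq.le) (smul_ne_zero hq.ne' hz.2)
  · rw [Matrix.mul_one, Matrix.one_mul, dg_star, dg_add]
    exact pd_dg hz.1 hz.2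

theorem fd_near {H : Matrix μ μ D} (hH : An H) {R : ℕ} (hR : Room H R) (h2 : 2 ≤ R)
    {c c' : D} (hc : Good c c') {v y : D} {m N δ : ℚ} (hm : 0 < m) (hδ : 0 ≤ δ)
    (hv : Lo m v) (hvN : Up N v) (hy : Up δ (1 - y)) (hy0 : y ≠ 0) (hva : Acc v)
    (hyv : Acc (y * v)) (hNδ : 4 * N * δ ≤ m ^ 2) :
    fd hH v * fd hH y = fd hH 1 * fd hH (y * v) := by
  have hq : 0 < 2 / m := by positivity
  rw [← fd_smul hH hR h2 hc hva hq, ← fd_smul hH hR h2 hc hyv hq, ← mul_smul_comm]
  refine fd_mul_left hH hR h2 (smul_ne_zero hq.ne' hva.ne) hy0 ?_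
  obtain ⟨v', hv'⟩ : ∃ v' : D, v' = (2 / m) • v := ⟨_, rfl⟩
  rw [← hv']
  have h3 : v' + star v' - (2 : ℚ) • (1 : D) ∈ sos D := by
    have := sos_smul hv hq.le
    convert this using 1
    rw [hv', star_smul_rat, smul_sub, smul_smul, smul_add, div_mul_cancel₀ _ hm.ne']
  have h4 : (1 : D) - star ((1 - y) * v') * ((1 - y) * v') ∈ sos D := by
    have e1 := sos_conj' hy v'
    have e2 := sos_smul (sos_smul hvN (q := (2 / m) ^ 2) (by positivity)) hδ
    have e3 : (1 - δ * ((2 / m) ^ 2 * N)) • (1 : D) ∈ sos D := by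
      refine sos_smul sos_one ?_
      rw [sub_nonneg]
      have : δ * ((2 / m) ^ 2 * N) = (4 * N * δ) / m ^ 2 := by ring
      rw [this, div_le_one (by positivity)]
      exact hNδ
    convert (sos D).add_mem ((sos D).add_mem e1 e2) e3 using 1
    have e4 : star v' * v' = ((2 / m) ^ 2) • (star v * v) := by
      rw [hv', star_smul_rat, smul_mul_smul_comm, pow_two]
    have e5 : star v' * (δ • (1 : D) - star (1 - y) * (1 - y)) * v' =
        δ • ((2 / m) ^ 2 • (star v * v)) - star ((1 - y) * v') * ((1 - y) * v') := by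
      rw [mul_sub (star v'), sub_mul _ _ v', mul_smul_comm, smul_mul_assoc, mul_one, e4,
        star_mul (1 - y)]
      simp only [mul_assoc]
    rw [e5]
    simp only [smul_sub, smul_smul]
    module
  have h5 := sos_star_mul ((1 - y) * v' - 1)
  have h6 := (sos D).add_mem ((sos D).add_mem ((sos D).add_mem h3 h3)
    ((sos D).add_mem h4 h4)) h5
  convert h6 using 1
  generalize (1 - y) * v' = x
  rw [show (2 : D) = (1 : D) + 1 by norm_num]
  simp only [mul_add, add_mul, one_mul, star_add, star_one, mul_one, star_sub, mul_sub, sub_mul]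
  module

/-- (i) multiplicativity -/
theorem fd_mul_acc {H : Matrix μ μ D} (hH : An H) {R : ℕ} (hR : Room H R)
    (h2 : 2 ≤ R) {c c' : D} (hc : Good c c') {z w : D} (hz : Acc z) (hw : Acc w)
    (hzw : Acc (z * w)) : fd hH z * fd hH w = fd hH 1 * fd hH (z * w) := by
  have h1 : Acc (1 : D) := ⟨by simpa only [star_one] using (sos D).add_mem sos_one sos_one, by
    rw [star_one]; norm_num⟩
  obtain ⟨m1, hm1, l1⟩ := exists_lo h1
  obtain ⟨m2, hm2, l2⟩ := exists_lo hz
  obtain ⟨m3, hm3, l3⟩ := exists_lo hw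
  obtain ⟨m4, hm4, l4⟩ := exists_lo hzw
  obtain ⟨N1, hN1, u1⟩ := exists_up (1 : D)
  obtain ⟨N2, hN2, u2⟩ := exists_up z
  obtain ⟨N3, hN3, u3⟩ := exists_up w
  obtain ⟨N4, hN4, u4⟩ := exists_up (z * w)
  obtain ⟨m, hm, k1, k2, k3, k4⟩ : ∃ m : ℚ, 0 < m ∧ m ≤ m1 ∧ m ≤ m2 ∧ m ≤ m3 ∧ m ≤ m4 :=
    ⟨min (min m1 m2) (min m3 m4), lt_min (lt_min hm1 hm2) (lt_min hm3 hm4),
      (min_le_left _ _).trans (min_le_left _ _), (min_le_left _ _).trans (min_le_right _ _),
      (min_le_right _ _).trans (min_le_left _ _), (min_le_right _ _).trans (min_le_right _ _)⟩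
  obtain ⟨N, hN, j1, j2, j3, j4⟩ : ∃ N : ℚ, 0 < N ∧ N1 ≤ N ∧ N2 ≤ N ∧ N3 ≤ N ∧ N4 ≤ N :=
    ⟨max (max N1 N2) (max N3 N4), lt_max_of_lt_left (lt_max_of_lt_left hN1),
      (le_max_left _ _).trans (le_max_left _ _), (le_max_right _ _).trans (le_max_left _ _),
      (le_max_left _ _).trans (le_max_right _ _), (le_max_right _ _).trans (le_max_right _ _)⟩
  have key := path_const h1 hz (fun x => fd hH (x * w) * (fd hH x)⁻¹)
    (ε := m ^ 2 / (4 * N)) (by (clear * - hm hN; positivity)) ?_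
  · simp only [one_mul] at key
    have : fd hH z * fd hH w = (fd hH w * (fd hH 1)⁻¹) * (fd hH 1 * fd hH z) := by
      rw [mul_assoc, inv_mul_cancel_left, mul_comm]
    rw [this, key]
    have : ∀ a b c : Ab H, a * b⁻¹ * (c * b) = c * a := by
      intro a b c
      rw [mul_comm c b, mul_assoc, inv_mul_cancel_left, mul_comm]
    rw [this]
  · intro s t hs0 hs1 ht0 ht1 hu _
    have hNδ : 4 * N * (m ^ 2 / (4 * N)) ≤ m ^ 2 := by
      rw [mul_div_cancel₀]
      (clear * - hN; positivity)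
    have a1 := Acc.sg' h1 hz hs0 hs1
    have a2 := Acc.sg' h1 hz ht0 ht1
    have a3 := Acc.sg' hw hzw hs0 hs1
    have a4 := Acc.sg' hw hzw ht0 ht1
    have e1 : sg 1 z s * w = sg w (z * w) s := by rw [sg_mul, one_mul]
    have e2 : sg 1 z t * w = sg w (z * w) t := by rw [sg_mul, one_mul]
    have hy0 : sg 1 z t * (sg 1 z s)⁻¹ ≠ 0 := mul_ne_zero a2.ne (inv_ne_zero a1.ne)
    have b1 : sg 1 z t * (sg 1 z s)⁻¹ * sg 1 z s = sg 1 z t := by
      rw [mul_assoc, inv_mul_cancel₀ a1.ne, mul_one]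
    have b2 : sg 1 z t * (sg 1 z s)⁻¹ * sg w (z * w) s = sg w (z * w) t := by
      rw [← e1, ← mul_assoc, b1, e2]
    have r1 := fd_near hH hR h2 hc hm (by (clear * - hm hN; positivity)) (Lo.seg' hs0 hs1 (l1.mono k1) (l2.mono k2))
      (Up.seg' hs0 hs1 (u1.mono j1) (u2.mono j2)) hu hy0 a1 (by rw [b1]; exact a2) hNδ
    have r2 := fd_near hH hR h2 hc hm (by (clear * - hm hN; positivity)) (Lo.seg' hs0 hs1 (l3.mono k3) (l4.mono k4))
      (Up.seg' hs0 hs1 (u3.mono j3) (u4.mono j4)) hu hy0 a3 (by rw [b2]; exact a4) hNδ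
    rw [b1] at r1
    rw [b2] at r2
    rw [e1, e2]
    generalize fd hH (sg 1 z t * (sg 1 z s)⁻¹) = Y at r1 r2
    generalize fd hH (1 : D) = O at r1 r2
    generalize fd hH (sg 1 z s) = A at r1 ⊢
    generalize fd hH (sg 1 z t) = A' at r1 ⊢
    generalize fd hH (sg w (z * w) s) = C at r2 ⊢
    generalize fd hH (sg w (z * w) t) = C' at r2 ⊢
    have q1 : A' = O⁻¹ * (A * Y) := by rw [r1, inv_mul_cancel_left]
    have q2 : C' = O⁻¹ * (C * Y) := by rw [r2, inv_mul_cancel_left]
    rw [q1, q2]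
    simp only [mul_inv]
    have : ∀ a b c d : Ab H, (a⁻¹ * (b * c)) * (a⁻¹⁻¹ * (d⁻¹ * c⁻¹)) = b * d⁻¹ := by
      intro a b c d
      rw [inv_inv, mul_mul_mul_comm, inv_mul_cancel, one_mul, mul_mul_mul_comm, mul_inv_cancel,
        mul_one]
    rw [this]

/-- (N) normal elements -/
theorem fd_normal {H : Matrix μ μ D} (hH : An H) {R : ℕ} (hR : Room H R) (h2 : 2 ≤ R)
    {c c' : D} (hc : Good c c') {z : D} (hz : Acc z) (hn : z * star z = star z * z) :
    fd hH z = fd hH 1 * ph hH (z⁻¹ * star z) := by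
  have hz0 := hz.ne
  obtain ⟨h, hh⟩ : ∃ h : D, h = (1 / 2 : ℚ) • (z + star z) := ⟨_, rfl⟩
  have h0 : h ≠ 0 := by rw [hh]; exact smul_ne_zero (by norm_num) hz.2
  have hs : h ∈ sos D := by rw [hh]; exact sos_smul hz.1 (by norm_num)
  have hi : h⁻¹ ∈ sos D := sos_inv hs
  have h22 : z + star z = 2 * h := by
    rw [hh, mul_smul_comm, two_mul]; module
  have c1 : Commute h z := by
    change h * z = z * h
    rw [hh, smul_mul_assoc, mul_smul_comm, add_mul, mul_add, hn]
  have c2 : Commute h (star z) := by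
    change h * star z = star z * h
    rw [hh, smul_mul_assoc, mul_smul_comm, add_mul, mul_add, hn]
  have c1' : h⁻¹ * z = z * h⁻¹ := c1.inv_left₀
  have c2' : h⁻¹ * star z = star z * h⁻¹ := c2.inv_left₀
  have hsum : z * h⁻¹ + h⁻¹ * star z = 2 := by
    rw [c2', ← add_mul, h22, mul_assoc, mul_inv_cancel₀ h0, mul_one]
  have e1 : fd hH z = fd hH (z * h⁻¹) := by
    have := stepB hH hR (by simpa using h2) hc (z := dg z) (zi := dg z⁻¹) (a := 1)
      (b := dg h⁻¹) (dg_mul_inv hz0) (dg_inv_mul hz0) PD.one (pd_dg hi (inv_ne_zero h0)) ?_ ?_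
    · rw [Matrix.mul_one, dg_mul] at this
      exact this
    · rw [Matrix.mul_one, Matrix.one_mul, dg_star, dg_add]
      exact pd_dg hz.1 hz.2
    · rw [dg_star, dg_mul, dg_mul, dg_add, hsum]
      exact pd_dg sos_two two_ne
  have hss : star (z * h⁻¹ - 1) = -(z * h⁻¹ - 1) := by
    rw [star_sub, star_mul, star_one, sos_star hi]
    have : h⁻¹ * star z = 2 - z * h⁻¹ := by rw [← hsum]; abel
    rw [this, show (2 : D) = 1 + 1 by norm_num]; abel
  have e2 := fd_skew hH hR h2 hc hss
  have e3 : 1 + (z * h⁻¹ - 1) = z * h⁻¹ := by abel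
  have e4 : cay (z * h⁻¹ - 1) = z⁻¹ * star z := by
    unfold cay
    rw [e3]
    have : 1 - (z * h⁻¹ - 1) = h⁻¹ * star z := by
      have : h⁻¹ * star z = 2 - z * h⁻¹ := by rw [← hsum]; abel
      rw [this, show (2 : D) = 1 + 1 by norm_num]; abel
    rw [this, _root_.mul_inv_rev, inv_inv, c2', mul_assoc, inv_mul_cancel_left₀ h0]
    -- `z* z⁻¹ = z⁻¹ z*`
    have c3 : Commute z (star z) := hn
    exact (c3.inv_left₀.eq).symm
  rw [e3, e4] at e2
  rw [e1, e2, fd_one hH hR h2 hc]

/-- (U) multiplication by unitary elements -/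
theorem fd_unit {H : Matrix μ μ D} (hH : An H) {R : ℕ} (hR : Room H R)
    (h2 : 2 ≤ R) {c c' : D} (hc : Good c c') {z w : D} (hw : star w * w = 1) (hz : Acc z)
    (hwz : Acc (w * z)) : fd hH z = ph hH w ^ 2 * fd hH (w * z) := by
  have hw0 : w ≠ 0 := by
    rintro rfl
    simp only [star_zero, mul_zero, zero_ne_one] at hw
  have hw' : w * star w = 1 := by
    have : star w = w⁻¹ := eq_inv_of_mul_eq_one_left hw
    rw [this, mul_inv_cancel₀ hw0]
  have hw1 : 1 + w ≠ 0 := by
    intro h0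
    have h3 : w = -1 := by
      have : w = (1 + w) - 1 := by abel
      rw [this, h0, zero_sub]
    rw [h3] at hwz
    have h4 := hwz.1
    have h5 : -1 * z + star (-1 * z) = -(z + star z) := by
      rw [star_mul]; simp only [neg_mul, one_mul, star_neg, star_one, mul_neg, mul_one, neg_add_rev]; abel
    rw [h5] at h4
    exact hz.2 (sos_antisymm hz.1 h4)
  have hw1' : 1 + star w ≠ 0 := by
    have := star_ne_zero.mpr hw1
    rwa [star_add, star_one] at this
  have hr : (1 + w) * star (1 + w) = (1 + w) + star (1 + w) := by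
    rw [star_add, star_one, add_mul, one_mul, mul_add, mul_one, hw']; abel
  have hr' : star (1 + w) * (1 + w) = (1 + w) + star (1 + w) := by
    rw [star_add, star_one, mul_add, mul_one, add_mul, one_mul, hw]; abel
  have aw : Acc (1 + w) := ⟨by rw [← hr]; exact sos_mul_star _, by
    rw [← hr]; exact mul_ne_zero hw1 (star_ne_zero.mpr hw1)⟩
  have aw' : Acc (1 + star w) := by
    have := aw.star'
    rwa [star_add, star_one] at this
  have hws : w * (1 + star w) = 1 + w := by rw [mul_add, mul_one, hw', add_comm]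
  have haw'' : Acc (w * (1 + star w)) := by rw [hws]; exact aw
  have key := path_const aw' hz (fun x => fd hH (w * x) * (fd hH x)⁻¹)
    (ε := 1 / 2) (by positivity) ?_
  · rw [hws] at key
    have n1 : (1 + w) * star (1 + w) = star (1 + w) * (1 + w) := by rw [hr, hr']
    have f1 := fd_normal hH hR h2 hc aw n1
    have f2 := fd_normal hH hR h2 hc aw' (by
      have : star (1 + star w) = 1 + w := by simp only [star_add, star_one, star_star]
      rw [this]
      have h6 : 1 + star w = star (1 + w) := by simp only [star_add, star_one]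
      rw [h6, n1])
    have g1 : (1 + w)⁻¹ * star (1 + w) = star w := by
      have : star (1 + w) = (1 + w) * star w := by
        rw [star_add, star_one, add_mul, one_mul, hw', add_comm]
      rw [this, ← mul_assoc, inv_mul_cancel₀ hw1, one_mul]
    have g2 : (1 + star w)⁻¹ * star (1 + star w) = w := by
      have : star (1 + star w) = (1 + star w) * w := by
        rw [star_add, star_one, star_star, add_mul, one_mul, hw, add_comm]
      rw [this, ← mul_assoc, inv_mul_cancel₀ hw1', one_mul]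
    rw [g1] at f1
    rw [g2] at f2
    have hws' : star (star w) * star w = 1 := by rw [star_star]; exact hw'
    have hpp : ph hH w * ph hH (star w) = 1 := by
      rw [← ph_mul hH hR h2 hw hws', hw', ph_one hH hR h2]
    have hps : ph hH (star w) = (ph hH w)⁻¹ := eq_inv_of_mul_eq_one_right hpp
    rw [f1, f2, hps] at key
    have e1 : (fd hH 1 * (ph hH w)⁻¹) * (fd hH 1 * ph hH w)⁻¹ = (ph hH w ^ 2)⁻¹ := by
      rw [mul_inv, mul_mul_mul_comm, mul_inv_cancel, one_mul, ← mul_inv, pow_two]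
    rw [e1] at key
    have e2 : fd hH (w * z) = (ph hH w ^ 2)⁻¹ * fd hH z := by
      rw [key, inv_mul_cancel_right]
    rw [e2, mul_inv_cancel_left]
  · intro s t hs0 hs1 ht0 ht1 _ hu
    obtain ⟨A, hA⟩ : ∃ A : D, A = sg (1 + star w) z s := ⟨_, rfl⟩
    obtain ⟨B, hB⟩ : ∃ B : D, B = sg (1 + star w) z t := ⟨_, rfl⟩
    have a1 : Acc A := by rw [hA]; exact Acc.sg' aw' hz hs0 hs1
    have a2 : Acc B := by rw [hB]; exact Acc.sg' aw' hz ht0 ht1
    have a3 : Acc (w * A) := by rw [hA, mul_sg]; exact Acc.sg' haw'' hwz hs0 hs1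
    have a4 : Acc (w * B) := by rw [hB, mul_sg]; exact Acc.sg' haw'' hwz ht0 ht1
    rw [← hA, ← hB] at hu ⊢
    have hy : Acc (A⁻¹ * B) := by
      have h7 : Acc (star (A⁻¹ * B)) := by
        refine acc_of_near (δ := 1 / 2) (by norm_num) ?_
        rwa [star_sub, star_one] at hu
      have := h7.star'
      rwa [star_star] at this
    have b1 : A * (A⁻¹ * B) = B := mul_inv_cancel_left₀ a1.ne B
    have r1 := fd_mul_acc hH hR h2 hc a1 hy (by rw [b1]; exact a2)
    have r2 := fd_mul_acc hH hR h2 hc a3 hy (by rw [mul_assoc, b1]; exact a4)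
    rw [b1] at r1
    rw [mul_assoc, b1] at r2
    generalize fd hH (A⁻¹ * B) = Y at r1 r2
    generalize fd hH (1 : D) = O at r1 r2
    have q1 : fd hH B = O⁻¹ * (fd hH A * Y) := by rw [r1, inv_mul_cancel_left]
    have q2 : fd hH (w * B) = O⁻¹ * (fd hH (w * A) * Y) := by rw [r2, inv_mul_cancel_left]
    rw [q1, q2]
    simp only [mul_inv]
    have : ∀ a b c d : Ab H, (a⁻¹ * (b * c)) * (a⁻¹⁻¹ * (d⁻¹ * c⁻¹)) = b * d⁻¹ := by
      intro a b c d
      rw [inv_inv, mul_mul_mul_comm, inv_mul_cancel, one_mul, mul_mul_mul_comm, mul_inv_cancel,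
        mul_one]
    rw [this]

end classes

end Vale.Agent.P011S

end

section
/-!
The homomorphism from the multiplicative group of the division algebra to the abelianization.
-/

set_option linter.unusedSectionVars false
set_option linter.unusedSimpArgs false

open Matrix

namespace Vale.Agent.P011S

variable {D : Type} [DivisionRing D] [StarRing D] [FormPos D] [CharZero D] [FiniteDimensional ℚ D]
variable {μ : Type} [Fintype μ] [DecidableEq μ]

theorem star_unit {v : D} (hv : star v * v = 1) : v * star v = 1 := by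
  have h0 : v ≠ 0 := by
    rintro rfl
    simp only [star_zero, mul_zero, zero_ne_one] at hv
  have : star v = v⁻¹ := eq_inv_of_mul_eq_one_left hv
  rw [this, mul_inv_cancel₀ h0]

theorem unit_mul {u v : D} (hu : star u * u = 1) (hv : star v * v = 1) :
    star (u * v) * (u * v) = 1 := by
  rw [star_mul]
  calc star v * star u * (u * v) = star v * (star u * u) * v := by simp only [mul_assoc]
    _ = 1 := by rw [hu, mul_one, hv]

theorem unit_star {u : D} (hu : star u * u = 1) : star (star u) * star u = 1 := by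
  rw [star_star, star_unit hu]

theorem ph_star {H : Matrix μ μ D} (hH : An H) {R : ℕ} (hR : Room H R) (h2 : 2 ≤ R) {v : D}
    (hv : star v * v = 1) : ph hH (star v) = (ph hH v)⁻¹ := by
  have : ph hH v * ph hH (star v) = 1 := by
    rw [← ph_mul hH hR h2 hv (unit_star hv), star_unit hv, ph_one hH hR h2]
  exact eq_inv_of_mul_eq_one_right this

theorem fd_congr {H : Matrix μ μ D} (hH : An H) {R : ℕ} (hR : Room H R) (h2 : 2 ≤ R) {z p : D}
    (hz : Acc z) (hp : p ≠ 0) : fd hH (star p * z * p) = fd hH z := by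
  have h1 := fz_congr hH hR (by simpa only [Fintype.card_unique] using by omega) (Z := dg z) (W := dg z⁻¹) (P := dg p)
    (Pi := dg p⁻¹) (by rw [dg_star, dg_add]; exact psd_dg hz.1) (dg_mul_inv hz.ne)
    (dg_inv_mul hz.ne) (dg_mul_inv hp) (dg_inv_mul hp)
  rw [dg_star, dg_mul, dg_mul] at h1
  exact h1

theorem Acc.congr {z p : D} (hz : Acc z) (hp : p ≠ 0) : Acc (star p * z * p) := by
  have e : star p * z * p + star (star p * z * p) = star p * (z + star z) * p := by
    simp only [star_mul, star_star]; noncomm_ring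
  refine ⟨by rw [e]; exact sos_conj' hz.1 p, ?_⟩
  rw [e]
  exact mul_ne_zero (mul_ne_zero (star_ne_zero.mpr hp) hz.2) hp

open Classical in
/-- the extension of the class function to all elements -/
noncomputable def FF {H : Matrix μ μ D} (hH : An H) (g : D) : Ab H :=
  if h : ∃ v : D, star v * v = 1 ∧ Acc (star v * g) then
    (ph hH h.choose ^ 2)⁻¹ * (fd hH (star h.choose * g) * (fd hH 1)⁻¹) else 1

section setup

variable {H : Matrix μ μ D} (hH : An H) {R : ℕ} (hR : Room H R)
  (h2 : 2 ≤ R) {c c' : D} (hc : Good c c')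

include hR h2 hc

theorem FF_eq {g v : D} (hv : star v * v = 1) (hg : Acc (star v * g)) :
    FF hH g = (ph hH v ^ 2)⁻¹ * (fd hH (star v * g) * (fd hH 1)⁻¹) := by
  have hex : ∃ v : D, star v * v = 1 ∧ Acc (star v * g) := ⟨v, hv, hg⟩
  unfold FF
  rw [dif_pos hex]
  obtain ⟨hu, ha⟩ := hex.choose_spec
  generalize hex.choose = u at hu ha ⊢
  -- `w = v* u`
  have hw : star (star v * u) * (star v * u) = 1 := unit_mul (unit_star hv) hu
  have e1 : (star v * u) * (star u * g) = star v * g := by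
    rw [mul_assoc, ← mul_assoc u, star_unit hu, one_mul]
  have key := fd_unit hH hR h2 hc hw ha (by rw [e1]; exact hg)
  rw [e1, ph_mul hH hR h2 (unit_star hv) hu, ph_star hH hR h2 hv] at key
  rw [key, mul_pow, inv_pow, mul_comm (ph hH v ^ 2)⁻¹ (ph hH u ^ 2), mul_assoc, mul_assoc,
    inv_mul_cancel_left]

theorem FF_acc {z : D} (hz : Acc z) : FF hH z = fd hH z * (fd hH 1)⁻¹ := by
  have := FF_eq hH hR h2 hc (g := z) (v := 1) (by simp) (by simpa using hz)
  rw [this, ph_one hH hR h2]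
  simp only [one_pow, inv_one, star_one, one_mul]

theorem FF_unit_mul (hR1 : ∀ g : D, g ≠ 0 → ∃ v : D, star v * v = 1 ∧ Acc (star v * g))
    {g v : D} (hg : g ≠ 0) (hv : star v * v = 1) : FF hH (v * g) = (ph hH v ^ 2)⁻¹ * FF hH g := by
  obtain ⟨u, hu, ha⟩ := hR1 g hg
  have e : star (v * u) * (v * g) = star u * g := by
    rw [star_mul, mul_assoc, ← mul_assoc (star v), hv, one_mul]
  rw [FF_eq hH hR h2 hc hu ha, FF_eq hH hR h2 hc (unit_mul hv hu) (by rw [e]; exact ha), e,
    ph_mul hH hR h2 hv hu, mul_pow, mul_inv, mul_assoc]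

theorem FF_mul_unit (hR1 : ∀ g : D, g ≠ 0 → ∃ v : D, star v * v = 1 ∧ Acc (star v * g))
    {g v : D} (hg : g ≠ 0) (hv : star v * v = 1) : FF hH (g * v) = FF hH g * (ph hH v ^ 2)⁻¹ := by
  obtain ⟨u, hu, ha⟩ := hR1 g hg
  have hv0 : v ≠ 0 := by
    rintro rfl
    simp only [star_zero, mul_zero, zero_ne_one] at hv
  have e : star (u * v) * (g * v) = star v * (star u * g) * v := by
    rw [star_mul]; simp only [mul_assoc]
  rw [FF_eq hH hR h2 hc hu ha, FF_eq hH hR h2 hc (unit_mul hu hv)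
    (by rw [e]; exact ha.congr hv0), e, fd_congr hH hR h2 ha hv0,
    ph_mul hH hR h2 hu hv, mul_pow, mul_inv, mul_right_comm]

theorem FF_mul_acc
    (hR2 : ∀ g h : D, g ≠ 0 → Acc h → ∃ n : ℕ, 0 < n ∧ ∀ i : ℕ, i < n → ∃ v : D,
      star v * v = 1 ∧ Acc (star v * (g * sg 1 h ((i : ℚ) / n))) ∧
      Acc (star v * (g * sg 1 h (((i + 1 : ℕ) : ℚ) / n))) ∧
      Acc ((sg 1 h ((i : ℚ) / n))⁻¹ * sg 1 h (((i + 1 : ℕ) : ℚ) / n)))
    {g h : D} (hg : g ≠ 0) (hh : Acc h) : FF hH (g * h) = FF hH g * FF hH h := by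
  have h1 : Acc (1 : D) := ⟨by simpa only [star_one] using (sos D).add_mem sos_one sos_one, by
    rw [star_one]; norm_num⟩
  obtain ⟨n, hn, hstep⟩ := hR2 g h hg hh
  have key : FF hH (g * sg 1 h 0) * (FF hH (sg 1 h 0))⁻¹ =
      FF hH (g * sg 1 h 1) * (FF hH (sg 1 h 1))⁻¹ := by
    refine chain_const (fun t : ℚ => FF hH (g * sg 1 h t) * (FF hH (sg 1 h t))⁻¹) n hn ?_
    intro j hj
    have hn0 : (0 : ℚ) < n := by exact_mod_cast hn
    have ht0 : (0 : ℚ) ≤ (j : ℚ) / n := by (clear * - hn; positivity)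
    have ht1 : ((j + 1 : ℕ) : ℚ) / n ≤ 1 := by
      rw [div_le_one hn0]; exact_mod_cast hj
    have ht0' : (0 : ℚ) ≤ ((j + 1 : ℕ) : ℚ) / n := by positivity
    have ht1' : (j : ℚ) / n ≤ 1 := by
      rw [div_le_one hn0]; exact_mod_cast hj.le
    obtain ⟨v, hv, a3, a4, a5⟩ := hstep j hj
    have a1 := Acc.sg' h1 hh ht0 ht1'
    have a2 := Acc.sg' h1 hh ht0' ht1
    generalize sg 1 h ((j : ℚ) / n) = A at a1 a3 a5 ⊢
    generalize sg 1 h (((j + 1 : ℕ) : ℚ) / n) = B at a2 a4 a5 ⊢
    have b1 : A * (A⁻¹ * B) = B := mul_inv_cancel_left₀ a1.ne B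
    have b2 : (star v * (g * A)) * (A⁻¹ * B) = star v * (g * B) := by
      rw [mul_assoc, mul_assoc, b1]
    have r1 := fd_mul_acc hH hR h2 hc a1 a5 (by rw [b1]; exact a2)
    have r2 := fd_mul_acc hH hR h2 hc a3 a5 (by rw [b2]; exact a4)
    rw [b1] at r1
    rw [b2] at r2
    rw [FF_eq hH hR h2 hc hv a3, FF_eq hH hR h2 hc hv a4, FF_acc hH hR h2 hc a1,
      FF_acc hH hR h2 hc a2]
    generalize fd hH (A⁻¹ * B) = Y at r1 r2
    have q1 : fd hH B = (fd hH 1)⁻¹ * (fd hH A * Y) := by rw [r1, inv_mul_cancel_left]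
    have q2 : fd hH (star v * (g * B)) = (fd hH 1)⁻¹ * (fd hH (star v * (g * A)) * Y) := by
      rw [r2, inv_mul_cancel_left]
    rw [q1, q2]
    have : ∀ P O A C Y : Ab H, P * (A * O⁻¹) * (C * O⁻¹)⁻¹ =
        P * (O⁻¹ * (A * Y) * O⁻¹) * (O⁻¹ * (C * Y) * O⁻¹)⁻¹ := by
      intro P O A C Y
      have e1 : P * (O⁻¹ * (A * Y) * O⁻¹) = P * (A * O⁻¹) * (O⁻¹ * Y) := by
        simp only [mul_assoc, mul_comm, mul_left_comm]
      have e2 : O⁻¹ * (C * Y) * O⁻¹ = (C * O⁻¹) * (O⁻¹ * Y) := by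
        simp only [mul_assoc, mul_comm, mul_left_comm]
      rw [e1, e2, mul_inv (C * O⁻¹), mul_mul_mul_comm, mul_inv_cancel, mul_one]
    exact this _ _ _ _ _
  simp only [sg_zero, sg_one, mul_one] at key
  rw [FF_acc hH hR h2 hc h1, mul_inv_cancel, inv_one, mul_one] at key
  rw [key, inv_mul_cancel_right]

/-- `FF` is multiplicative -/
theorem FF_mul (hR1 : ∀ g : D, g ≠ 0 → ∃ v : D, star v * v = 1 ∧ Acc (star v * g))
    (hR2 : ∀ g h : D, g ≠ 0 → Acc h → ∃ n : ℕ, 0 < n ∧ ∀ i : ℕ, i < n → ∃ v : D,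
      star v * v = 1 ∧ Acc (star v * (g * sg 1 h ((i : ℚ) / n))) ∧
      Acc (star v * (g * sg 1 h (((i + 1 : ℕ) : ℚ) / n))) ∧
      Acc ((sg 1 h ((i : ℚ) / n))⁻¹ * sg 1 h (((i + 1 : ℕ) : ℚ) / n)))
    {g h : D} (hg : g ≠ 0) (hh : h ≠ 0) : FF hH (g * h) = FF hH g * FF hH h := by
  obtain ⟨v, hv, ha⟩ := hR1 h hh
  have hv0 : v ≠ 0 := by
    rintro rfl
    simp only [star_zero, mul_zero, zero_ne_one] at hv
  have e1 : h = v * (star v * h) := by rw [← mul_assoc, star_unit hv, one_mul]
  have e2 : g * h = (g * v) * (star v * h) := by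
    rw [mul_assoc, ← mul_assoc v, star_unit hv, one_mul]
  rw [e2, FF_mul_acc hH hR h2 hc hR2 (mul_ne_zero hg hv0) ha,
    FF_mul_unit hH hR h2 hc hR1 hg hv]
  conv_rhs => rw [e1, FF_unit_mul hH hR h2 hc hR1 ha.ne hv]
  rw [mul_assoc]

/-- `FF` of symmetric elements is trivial -/
theorem FF_symm {s v : D} (hs : star s = s) (hv : star v * v = 1) (hvs : v * s = s * v)
    (ha : Acc (star v * s)) : FF hH s = 1 := by
  have hs0 : s ≠ 0 := by
    rintro rfl
    exact ha.ne (mul_zero _)
  have h1 : star (star v * s) = s * v := by rw [star_mul, star_star, hs]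
  have h3 : star v * s = s * star v := by
    have := congrArg star hvs
    rw [star_mul, star_mul, hs] at this
    exact this.symm
  have hn : (star v * s) * star (star v * s) = star (star v * s) * (star v * s) := by
    rw [h1, h3]
    calc s * star v * (s * v) = s * (star v * s) * v := by simp only [mul_assoc]
      _ = s * (s * star v) * v := by rw [h3]
      _ = s * s * (star v * v) := by simp only [mul_assoc]
      _ = s * s * (v * star v) := by rw [hv, star_unit hv]
      _ = s * (s * v) * star v := by simp only [mul_assoc]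
      _ = s * (v * s) * star v := by rw [hvs]
      _ = s * v * (s * star v) := by simp only [mul_assoc]
  have h4 := fd_normal hH hR h2 hc ha hn
  have h5 : (star v * s)⁻¹ * star (star v * s) = v * v := by
    have hsv : star v = v⁻¹ := eq_inv_of_mul_eq_one_left hv
    rw [h1, _root_.mul_inv_rev, hsv, inv_inv, ← hvs, mul_assoc, ← mul_assoc v v, ← mul_assoc]
    have : s⁻¹ * (v * v) = (v * v) * s⁻¹ := by
      have hc1 : Commute s (v * v) := by
        change s * (v * v) = v * v * s
        rw [← mul_assoc, ← hvs, mul_assoc, ← hvs, mul_assoc]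
      exact hc1.inv_left₀
    rw [this, mul_assoc, inv_mul_cancel₀ hs0, mul_one]
  rw [h5, ph_mul hH hR h2 hv hv] at h4
  rw [FF_eq hH hR h2 hc hv ha, h4, mul_comm (fd hH 1), mul_inv_cancel_right, ← pow_two,
    inv_mul_cancel]

/-- `FF` of central skew elements -/
theorem FF_theta (hR1 : ∀ g : D, g ≠ 0 → ∃ v : D, star v * v = 1 ∧ Acc (star v * g))
    {θ : D} (h0 : θ ≠ 0) (hs : star θ = -θ) (hcen : ∀ d : D, θ * d = d * θ) :
    FF hH θ = ph hH (-1) := by
  obtain ⟨v, hv, ha⟩ := hR1 θ h0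
  have h1 : star (star v * θ) = -(θ * v) := by rw [star_mul, star_star, hs, neg_mul]
  have h3 : star v * θ = θ * star v := (hcen _).symm
  have hn : (star v * θ) * star (star v * θ) = star (star v * θ) * (star v * θ) := by
    rw [h1, mul_neg, neg_mul]
    congr 1
    rw [h3]
    calc θ * star v * (θ * v) = θ * (star v * θ) * v := by simp only [mul_assoc]
      _ = θ * θ * (star v * v) := by rw [h3]; simp only [mul_assoc]
      _ = θ * θ * (v * star v) := by rw [hv, star_unit hv]
      _ = θ * (θ * v) * star v := by simp only [mul_assoc]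
      _ = θ * (v * θ) * star v := by rw [hcen v]
      _ = θ * v * (θ * star v) := by simp only [mul_assoc]
  have h4 := fd_normal hH hR h2 hc ha hn
  have h5 : (star v * θ)⁻¹ * star (star v * θ) = -1 * (v * v) := by
    have hsv : star v = v⁻¹ := eq_inv_of_mul_eq_one_left hv
    rw [h1, _root_.mul_inv_rev, hsv, inv_inv, neg_one_mul, mul_neg]
    congr 1
    rw [mul_assoc, ← mul_assoc v, ← hcen v, mul_assoc, inv_mul_cancel_left₀ h0]
  rw [h5, ph_mul hH hR h2 neg_one_unit (unit_mul hv hv), ph_mul hH hR h2 hv hv] at h4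
  rw [FF_eq hH hR h2 hc hv ha, h4, mul_comm (fd hH 1), mul_inv_cancel_right, ← pow_two,
    mul_comm (ph hH (-1)), inv_mul_cancel_left]

end setup

end Vale.Agent.P011S

end

section
/-!
Classes of quasi-reflections along vectors whose norm is not positive.
-/

set_option linter.unusedSectionVars false
set_option linter.unusedSimpArgs false

open Matrix

namespace Vale.Agent.P011S

variable {D : Type} [DivisionRing D] [StarRing D] [FormPos D] [CharZero D] [FiniteDimensional ℚ D]
variable {μ : Type} [Fintype μ] [DecidableEq μ]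

/-- values of the form -/
def Rp (H : Matrix μ μ D) (a : D) : Prop := ∃ x : Matrix μ (Fin 1) D, xᴴ * H * x = dg a

/-- completion of a vector to a frame of rank two -/
theorem exists_second {H : Matrix μ μ D} (hH : An H) {R : ℕ} (hR : Room H R) (h2 : 2 ≤ R)
    {a c : D} (ha : star a = a) (ha0 : a ≠ 0) {x1 : Matrix μ (Fin 1) D}
    (hx : x1ᴴ * H * x1 = dg a) (hcond : 2 - star c * a⁻¹ * c ∈ sos D) :
    ∃ x2 : Matrix μ (Fin 1) D, x1ᴴ * H * x2 = dg c ∧ x2ᴴ * H * x1 = dg (star c) ∧
      x2ᴴ * H * x2 = dg 2 := by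
  obtain ⟨w, hw1, hw2⟩ := hR (Fin 1) (Fin 1) (by simpa using h2) x1
    (dg (2 - star c * a⁻¹ * c)) (psd_dg hcond)
  have hw3 : wᴴ * H * x1 = 0 := by
    have := congrArg Matrix.conjTranspose hw2
    rw [Matrix.conjTranspose_mul, Matrix.conjTranspose_mul, Matrix.conjTranspose_conjTranspose,
      hH.herm, Matrix.conjTranspose_zero, ← Matrix.mul_assoc] at this
    exact this
  have e12 : x1ᴴ * H * (x1 * dg (a⁻¹ * c) + w) = dg c := by
    rw [Matrix.mul_add, hw2, add_zero, ← Matrix.mul_assoc, hx, dg_mul, ← mul_assoc,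
      mul_inv_cancel₀ ha0, one_mul]
  have e21 : (x1 * dg (a⁻¹ * c) + w)ᴴ * H * x1 = dg (star c) := by
    have := congrArg Matrix.conjTranspose e12
    rw [Matrix.conjTranspose_mul, Matrix.conjTranspose_mul, Matrix.conjTranspose_conjTranspose,
      hH.herm, dg_star, ← Matrix.mul_assoc] at this
    exact this
  refine ⟨x1 * dg (a⁻¹ * c) + w, e12, e21, ?_⟩
  have hwx : (x1 * dg (a⁻¹ * c) + w)ᴴ * H * w = dg (2 - star c * a⁻¹ * c) := by
    rw [Matrix.conjTranspose_add, Matrix.add_mul, Matrix.add_mul, hw1, Matrix.conjTranspose_mul]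
    have : (dg (a⁻¹ * c))ᴴ * x1ᴴ * H * w = (dg (a⁻¹ * c))ᴴ * (x1ᴴ * H * w) := by
      simp only [Matrix.mul_assoc]
    rw [this, hw2, Matrix.mul_zero, zero_add]
  rw [Matrix.mul_add, hwx, ← Matrix.mul_assoc, e21, dg_mul, dg_add]
  congr 1
  rw [← mul_assoc]
  abel

/-- the basic relation, starting from any vector -/
theorem fd_rel {H : Matrix μ μ D} (hH : An H) {R : ℕ} (hR : Room H R) (h2 : 2 ≤ R)
    {z w : D} (hz : z ≠ 0) (hw : w ≠ 0) (ha0 : z + star z ≠ 0) (hx : Rp H (z + star z))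
    {ρ : ℚ} (hρ : ρ ≠ 0)
    (hcond : 2 - star (ρ⁻¹ • (z - w) + ρ • (1 : D)) * (z + star z)⁻¹ *
      (ρ⁻¹ • (z - w) + ρ • (1 : D)) ∈ sos D) :
    fd hH z * fd hH (z⁻¹ * w) = fd hH 1 * fd hH w ∧ Rp H (w + star w) := by
  obtain ⟨x1, hx1⟩ := hx
  have hsa : star (z + star z) = z + star z := by rw [star_add, star_star, add_comm]
  obtain ⟨x2, e12, e21, e22⟩ := exists_second hH hR h2 hsa ha0 hx1 hcond
  have hstar : star (ρ⁻¹ • (z - w) + ρ • (1 : D)) = ρ • (1 : D) + star (ρ⁻¹ • (z - w)) := by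
    rw [star_add, star_smul_rat ρ, star_one, add_comm]
  have hρs : star (ρ • (1 : D)) = ρ • (1 : D) := by rw [star_smul_rat, star_one]
  have h11 : x1ᴴ * H * x1 = dg z + (dg z)ᴴ := by rw [hx1, dg_star, dg_add]
  have h12 : x1ᴴ * H * x2 = dg (ρ⁻¹ • (z - w)) + (dg (ρ • (1 : D)))ᴴ := by
    rw [e12, dg_star, dg_add, hρs]
  have h21 : x2ᴴ * H * x1 = dg (ρ • (1 : D)) + (dg (ρ⁻¹ • (z - w)))ᴴ := by
    rw [e21, dg_star, dg_add, hstar]
  have h22 : x2ᴴ * H * x2 = dg 1 + (dg 1)ᴴ := by
    rw [e22, dg_star, dg_add, star_one]; norm_num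
  have h1i : dg (1 : D) * dg 1 = 1 := by rw [dg_mul, one_mul, dg_one]
  have ew : dg w = dg z - dg (ρ⁻¹ • (z - w)) * dg 1 * dg (ρ • (1 : D)) := by
    rw [dg_mul, dg_mul, dg_sub, mul_one, smul_mul_smul_comm, inv_mul_cancel₀ hρ, one_smul,
      mul_one]
    congr 1; abel
  have et : dg (z⁻¹ * w) = dg 1 - dg (ρ • (1 : D)) * dg z⁻¹ * dg (ρ⁻¹ • (z - w)) := by
    rw [dg_mul, dg_mul, dg_sub, smul_mul_assoc, one_mul, smul_mul_smul_comm,
      mul_inv_cancel₀ hρ, one_smul, mul_sub, inv_mul_cancel₀ hz]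
    congr 1; abel
  have hzw : z⁻¹ * w ≠ 0 := mul_ne_zero (inv_ne_zero hz) hw
  refine ⟨fz_block_frame hH (dg_mul_inv hz) (dg_inv_mul hz) h1i h1i (dg_mul_inv hzw)
    (dg_inv_mul hzw) (dg_mul_inv hw) (dg_inv_mul hw) et ew x1 x2 h11 h12 h21 h22, ?_⟩
  have := block_gram (H := H) x2 x1 (dg 1) (dg 1) (dg (ρ • (1 : D))) (dg (ρ⁻¹ • (z - w))) (dg z)
    h1i h22 h21 h12 h11
  rw [← ew, dg_star, dg_add] at this
  exact ⟨_, this⟩

end Vale.Agent.P011S

end

section
set_option linter.unusedSectionVars false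
set_option linter.unusedSimpArgs false

namespace Vale.Agent.P011S

open Module Matrix Filter Topology

section real

variable {N : ℕ}

theorem dot_self_pos {y : Fin N → ℝ} (hy : y ≠ 0) : 0 < y ⬝ᵥ y := by
  obtain ⟨i, hi⟩ : ∃ i, y i ≠ 0 := by
    by_contra hcon
    push Not at hcon
    exact hy (funext hcon)
  exact Finset.sum_pos' (fun j _ => mul_self_nonneg _)
    ⟨i, Finset.mem_univ _, mul_self_pos.mpr hi⟩

theorem posQ_one : PosQ (1 : Matrix (Fin N) (Fin N) ℝ) := by
  intro y hy
  rw [Matrix.one_mulVec]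
  exact dot_self_pos hy

theorem PosQ.combo {A B : Matrix (Fin N) (Fin N) ℝ} (hA : PosQ A) (hB : PosQ B) {t : ℝ}
    (h0 : 0 ≤ t) (h1 : t ≤ 1) : PosQ ((1 - t) • A + t • B) := by
  intro y hy
  rw [Matrix.add_mulVec, dotProduct_add, Matrix.smul_mulVec, Matrix.smul_mulVec,
    dotProduct_smul, dotProduct_smul, smul_eq_mul, smul_eq_mul]
  have hA' := hA y hy
  have hB' := hB y hy
  rcases eq_or_lt_of_le h0 with h | h
  · rw [← h]; simpa only [sub_zero, one_mul, zero_mul, add_zero, gt_iff_lt] using hA'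
  · have : 0 ≤ (1 - t) * (y ⬝ᵥ (A *ᵥ y)) := mul_nonneg (by linarith) hA'.le
    have := mul_pos h hB'
    linarith

theorem PosQ.det_ne {A : Matrix (Fin N) (Fin N) ℝ} (hA : PosQ A) : A.det ≠ 0 := by
  intro h
  obtain ⟨v, hv, hv0⟩ := (Matrix.exists_mulVec_eq_zero_iff).mpr h
  have := hA v hv
  rw [hv0, dotProduct_zero] at this
  exact lt_irrefl _ this

theorem dot_transpose (A : Matrix (Fin N) (Fin N) ℝ) (y : Fin N → ℝ) :
    y ⬝ᵥ (Aᵀ *ᵥ y) = y ⬝ᵥ (A *ᵥ y) := by
  rw [Matrix.mulVec_transpose, dotProduct_comm, ← Matrix.dotProduct_mulVec]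

theorem posQ_add_transpose {A : Matrix (Fin N) (Fin N) ℝ} : PosQ (A + Aᵀ) ↔ PosQ A := by
  constructor
  · intro h y hy
    have := h y hy
    rw [Matrix.add_mulVec, dotProduct_add, dot_transpose] at this
    linarith
  · intro h y hy
    have := h y hy
    rw [Matrix.add_mulVec, dotProduct_add, dot_transpose]
    linarith

theorem posQ_eventually {A : Matrix (Fin N) (Fin N) ℝ} (hA : PosQ A) :
    ∀ᶠ A' in 𝓝 A, PosQ A' := by
  have hcomp : IsCompact {y : Fin N → ℝ | y ⬝ᵥ y = 1} := by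
    apply (isCompact_univ_pi fun _ : Fin N => isCompact_Icc (a := (-1 : ℝ)) (b := 1)).of_isClosed_subset
    · exact isClosed_eq (by unfold dotProduct; fun_prop) continuous_const
    · intro y hy i _
      have h1 : y i * y i ≤ 1 := by
        rw [← (show y ⬝ᵥ y = 1 from hy)]
        exact Finset.single_le_sum (f := fun i => y i * y i)
          (fun j _ => mul_self_nonneg _) (Finset.mem_univ i)
      rw [Set.mem_Icc]
      constructor <;> nlinarith
  have hcont : Continuous fun p : Matrix (Fin N) (Fin N) ℝ × (Fin N → ℝ) =>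
      p.2 ⬝ᵥ (p.1 *ᵥ p.2) := by
    unfold dotProduct Matrix.mulVec dotProduct
    fun_prop
  have h1 : ∀ᶠ A' in 𝓝 A, ∀ y ∈ {y : Fin N → ℝ | y ⬝ᵥ y = 1}, 0 < y ⬝ᵥ (A' *ᵥ y) := by
    apply hcomp.eventually_forall_of_forall_eventually
    intro y hy
    have hy0 : y ≠ 0 := by
      rintro rfl
      simp only [Set.mem_ofPred_eq, dotProduct_zero, zero_ne_one] at hy
    exact hcont.continuousAt.eventually (lt_mem_nhds (hA y hy0))
  refine h1.mono fun A' hA' y hy => ?_
  have hpos := dot_self_pos hy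
  set r := Real.sqrt (y ⬝ᵥ y) with hr
  have hr0 : 0 < r := Real.sqrt_pos.mpr hpos
  have hrr : r * r = y ⬝ᵥ y := Real.mul_self_sqrt hpos.le
  have h2 := hA' (r⁻¹ • y) (by
    change (r⁻¹ • y) ⬝ᵥ (r⁻¹ • y) = 1
    rw [smul_dotProduct, dotProduct_smul, smul_eq_mul, smul_eq_mul, ← hrr]
    (clear * - hr0; field_simp))
  rw [Matrix.mulVec_smul, smul_dotProduct, dotProduct_smul, smul_eq_mul, smul_eq_mul] at h2
  have h3 : 0 < r⁻¹ := inv_pos.mpr hr0
  by_contra hcon
  have h4 : r⁻¹ * (r⁻¹ * (y ⬝ᵥ (A' *ᵥ y))) ≤ 0 :=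
    mul_nonpos_of_nonneg_of_nonpos h3.le (mul_nonpos_of_nonneg_of_nonpos h3.le (not_lt.mp hcon))
  linarith only [h2, h4]

theorem continuousAt_inv_matrix {A : Matrix (Fin N) (Fin N) ℝ} (hA : A.det ≠ 0) :
    ContinuousAt (fun B : Matrix (Fin N) (Fin N) ℝ => B⁻¹) A := by
  have h : (fun B : Matrix (Fin N) (Fin N) ℝ => B⁻¹) = fun B => (B.det)⁻¹ • B.adjugate := by
    ext1 B
    rw [Matrix.inv_def, Ring.inverse_eq_inv']
  rw [h]
  have h1 : ContinuousAt (fun B : Matrix (Fin N) (Fin N) ℝ => (B.det)⁻¹) A :=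
    (Continuous.matrix_det continuous_id).continuousAt.inv₀ hA
  have h2 : ContinuousAt (fun B : Matrix (Fin N) (Fin N) ℝ => B.adjugate) A :=
    (Continuous.matrix_adjugate continuous_id).continuousAt
  exact Tendsto.smul h1 h2

theorem skew_dot {s : Matrix (Fin N) (Fin N) ℝ} (hs : sᵀ = -s) (y : Fin N → ℝ) :
    y ⬝ᵥ (s *ᵥ y) = 0 := by
  have h := dot_transpose s y
  rw [hs, Matrix.neg_mulVec, dotProduct_neg] at h
  linarith only [h]

theorem posQ_one_sub_skew {s : Matrix (Fin N) (Fin N) ℝ} (hs : sᵀ = -s) : PosQ (1 - s) := by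
  intro y hy
  rw [Matrix.sub_mulVec, dotProduct_sub, skew_dot hs, sub_zero, Matrix.one_mulVec]
  exact dot_self_pos hy

/-- the Cayley transform -/
noncomputable def rcay (s : Matrix (Fin N) (Fin N) ℝ) : Matrix (Fin N) (Fin N) ℝ :=
  (1 + s) * (1 - s)⁻¹

theorem trace_sq_nonneg (A : Matrix (Fin N) (Fin N) ℝ) : 0 ≤ (Aᵀ * A).trace := by
  rw [Matrix.trace]
  refine Finset.sum_nonneg fun i _ => ?_
  rw [Matrix.diag_apply, Matrix.mul_apply]
  exact Finset.sum_nonneg fun j _ => mul_self_nonneg _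

theorem eq_zero_of_trace_sq {A : Matrix (Fin N) (Fin N) ℝ} (h : (Aᵀ * A).trace ≤ 0) : A = 0 := by
  have h0 : (Aᵀ * A).trace = 0 := le_antisymm h (trace_sq_nonneg A)
  rw [Matrix.trace, Finset.sum_eq_zero_iff_of_nonneg] at h0
  · ext i j
    have h1 := h0 j (Finset.mem_univ _)
    rw [Matrix.diag_apply, Matrix.mul_apply, Finset.sum_eq_zero_iff_of_nonneg] at h1
    · have h2 := h1 i (Finset.mem_univ _)
      rw [Matrix.transpose_apply, mul_self_eq_zero] at h2
      exact h2
    · exact fun j _ => mul_self_nonneg _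
  · intro i _
    rw [Matrix.diag_apply, Matrix.mul_apply]
    exact Finset.sum_nonneg fun j _ => mul_self_nonneg _

/-- first and second order conditions at a maximum over Cayley transforms -/
theorem cayley_conditions {z s : Matrix (Fin N) (Fin N) ℝ} (hs : sᵀ = -s)
    (hmax : ∀ t : ℝ, (rcay (t • s) * z).trace ≤ z.trace) :
    (s * z).trace = 0 ∧ (s * s * z).trace ≤ 0 := by
  have hskew : ∀ t : ℝ, (t • s)ᵀ = -(t • s) := by
    intro t
    rw [Matrix.transpose_smul, hs, smul_neg]
  have hdet : ∀ t : ℝ, IsUnit (1 - t • s).det := fun t =>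
    isUnit_iff_ne_zero.mpr (posQ_one_sub_skew (hskew t)).det_ne
  have hcay : ∀ t : ℝ, rcay (t • s) = 1 + (2 * t) • (s * (1 - t • s)⁻¹) := by
    intro t
    have h1 : (1 : Matrix (Fin N) (Fin N) ℝ) + t • s = (1 - t • s) + (2 * t) • s := by
      rw [two_mul, add_smul]; abel
    unfold rcay
    rw [h1, Matrix.add_mul, Matrix.mul_nonsing_inv _ (hdet t), Matrix.smul_mul]
  have hineq : ∀ t : ℝ, 2 * t * (s * (1 - t • s)⁻¹ * z).trace ≤ 0 := by
    intro t
    have := hmax t
    rw [hcay t, Matrix.add_mul, Matrix.one_mul, Matrix.trace_add, Matrix.smul_mul,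
      Matrix.trace_smul, smul_eq_mul] at this
    linarith
  have hcinv : ContinuousAt (fun t : ℝ => (1 - t • s)⁻¹) 0 := by
    have h1 : ContinuousAt (fun t : ℝ => (1 : Matrix (Fin N) (Fin N) ℝ) - t • s) 0 := by
      fun_prop
    have h2 : ContinuousAt (fun B : Matrix (Fin N) (Fin N) ℝ => B⁻¹)
        ((fun t : ℝ => (1 : Matrix (Fin N) (Fin N) ℝ) - t • s) 0) := by
      apply continuousAt_inv_matrix
      have := posQ_one_sub_skew (hskew 0)
      exact this.det_ne
    exact Tendsto.comp h2 h1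
  have hcinv' : ContinuousAt (fun t : ℝ => (1 + t • s)⁻¹) 0 := by
    have h1 : ContinuousAt (fun t : ℝ => (1 : Matrix (Fin N) (Fin N) ℝ) + t • s) 0 := by
      fun_prop
    have h2 : ContinuousAt (fun B : Matrix (Fin N) (Fin N) ℝ => B⁻¹)
        ((fun t : ℝ => (1 : Matrix (Fin N) (Fin N) ℝ) + t • s) 0) := by
      apply continuousAt_inv_matrix
      simp
    exact Tendsto.comp h2 h1
  have hc1 : ContinuousAt (fun t : ℝ => (s * (1 - t • s)⁻¹ * z).trace) 0 := by
    apply (Continuous.matrix_trace continuous_id).continuousAt.comp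
    exact (continuousAt_const.mul hcinv).mul continuousAt_const
  have hv0 : (s * (1 - (0 : ℝ) • s)⁻¹ * z).trace = (s * z).trace := by simp only [zero_smul, sub_zero, inv_one, mul_one]
  constructor
  · apply le_antisymm
    · have h1 : Tendsto (fun t : ℝ => (s * (1 - t • s)⁻¹ * z).trace) (𝓝[>] 0)
          (𝓝 ((s * z).trace)) := by
        have := hc1.tendsto
        rw [hv0] at this
        exact this.mono_left nhdsWithin_le_nhds
      apply le_of_tendsto h1
      filter_upwards [self_mem_nhdsWithin] with t ht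
      have h2 := hineq t
      have ht' : (0 : ℝ) < t := ht
      by_contra hcon
      have := mul_pos (mul_pos two_pos ht') (not_le.mp hcon)
      linarith only [h2, this]
    · have h1 : Tendsto (fun t : ℝ => (s * (1 - t • s)⁻¹ * z).trace) (𝓝[<] 0)
          (𝓝 ((s * z).trace)) := by
        have := hc1.tendsto
        rw [hv0] at this
        exact this.mono_left nhdsWithin_le_nhds
      apply ge_of_tendsto h1
      filter_upwards [self_mem_nhdsWithin] with t ht
      have h2 := hineq t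
      have ht' : t < (0 : ℝ) := ht
      by_contra hcon
      have h3 : 2 * t * (s * (1 - t • s)⁻¹ * z).trace > 0 :=
        mul_pos_of_neg_of_neg (by linarith only [ht']) (not_le.mp hcon)
      linarith only [h2, h3]
  · -- second order
    have hdet' : ∀ t : ℝ, IsUnit (1 + t • s).det := by
      intro t
      have := hdet (-t)
      rwa [neg_smul, sub_neg_eq_add] at this
    have hdiff : ∀ t : ℝ, (1 - t • s)⁻¹ - (1 + t • s)⁻¹ =
        (2 * t) • ((1 - t • s)⁻¹ * s * (1 + t • s)⁻¹) := by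
      intro t
      have h1 : (2 * t) • s = (1 + t • s) - (1 - t • s) := by
        rw [two_mul, add_smul]; abel
      calc (1 - t • s)⁻¹ - (1 + t • s)⁻¹
          = (1 - t • s)⁻¹ * ((1 + t • s) * (1 + t • s)⁻¹)
            - ((1 - t • s)⁻¹ * (1 - t • s)) * (1 + t • s)⁻¹ := by
            rw [Matrix.mul_nonsing_inv _ (hdet' t), Matrix.nonsing_inv_mul _ (hdet t),
              Matrix.mul_one, Matrix.one_mul]
        _ = (1 - t • s)⁻¹ * ((1 + t • s) - (1 - t • s)) * (1 + t • s)⁻¹ := by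
            simp only [Matrix.mul_sub, Matrix.sub_mul, Matrix.mul_assoc]
        _ = (2 * t) • ((1 - t • s)⁻¹ * s * (1 + t • s)⁻¹) := by
            rw [← h1, Matrix.mul_smul, Matrix.smul_mul]
    have hineq2 : ∀ t : ℝ, 0 < t →
        (s * ((1 - t • s)⁻¹ * s * (1 + t • s)⁻¹) * z).trace ≤ 0 := by
      intro t ht
      have h1 := hineq t
      have h2 := hineq (-t)
      rw [neg_smul, sub_neg_eq_add] at h2
      have h3 : (s * (1 - t • s)⁻¹ * z).trace - (s * (1 + t • s)⁻¹ * z).trace =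
          (2 * t) * (s * ((1 - t • s)⁻¹ * s * (1 + t • s)⁻¹) * z).trace := by
        rw [← Matrix.trace_sub, ← Matrix.sub_mul, ← Matrix.mul_sub, hdiff t, Matrix.mul_smul,
          Matrix.smul_mul, Matrix.trace_smul, smul_eq_mul]
      by_contra hcon
      have h4 := mul_pos (mul_pos two_pos ht) (mul_pos (mul_pos two_pos ht) (not_le.mp hcon))
      rw [← h3] at h4
      nlinarith only [h1, h2, h4]
    have hc2 : ContinuousAt (fun t : ℝ =>
        (s * ((1 - t • s)⁻¹ * s * (1 + t • s)⁻¹) * z).trace) 0 := by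
      apply (Continuous.matrix_trace continuous_id).continuousAt.comp
      exact (continuousAt_const.mul ((hcinv.mul continuousAt_const).mul hcinv')).mul
        continuousAt_const
    have hv1 : (s * ((1 - (0 : ℝ) • s)⁻¹ * s * (1 + (0 : ℝ) • s)⁻¹) * z).trace =
        (s * s * z).trace := by simp only [zero_smul, sub_zero, inv_one, one_mul, add_zero, mul_one]
    have h1 : Tendsto (fun t : ℝ => (s * ((1 - t • s)⁻¹ * s * (1 + t • s)⁻¹) * z).trace)
        (𝓝[>] 0) (𝓝 ((s * s * z).trace)) := by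
      have := hc2.tendsto
      rw [hv1] at this
      exact this.mono_left nhdsWithin_le_nhds
    apply le_of_tendsto h1
    filter_upwards [self_mem_nhdsWithin] with t ht
    exact hineq2 t ht

end real

end Vale.Agent.P011S

end

section
set_option linter.unusedSectionVars false
set_option linter.unusedSimpArgs false

namespace Vale.Agent.P011S

open Module Matrix Filter Topology

variable {D : Type} [DivisionRing D] [StarRing D] [CharZero D] [FiniteDimensional ℚ D]
variable {N : ℕ}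

instance : CoeFun (RealRep D N) fun _ => D → Matrix (Fin N) (Fin N) ℝ := ⟨fun ρ => ρ.toFun⟩

theorem acc_iff (ρ : RealRep D N) (z : D) : Acc z ↔ PosQ (ρ z) := by
  have h1 : ρ z + (ρ z)ᵀ = ρ (z + star z) := by
    rw [← ρ.star', ← map_add]
  rw [← posQ_add_transpose, h1]
  constructor
  · rintro ⟨h, h0⟩
    exact ρ.pos' _ h h0
  · intro h
    exact ρ.pos _ (by rw [star_add, star_star, add_comm]) h

theorem rho_rat (ρ : RealRep D N) (q : ℚ) (x : D) : ρ (q • x) = (q : ℝ) • ρ x := by
  rw [map_rat_smul ρ.toFun q x, Rat.cast_smul_eq_qsmul]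

/-- the real span of a subspace of `D` -/
def spanR (ρ : RealRep D N) (W : Set D) : Submodule ℝ (Matrix (Fin N) (Fin N) ℝ) :=
  Submodule.span ℝ (ρ.toFun '' W)

/-- real combinations are limits of rational elements -/
theorem mem_closure_of_span (ρ : RealRep D N) (W : Submodule ℚ D)
    {x : Matrix (Fin N) (Fin N) ℝ} (hx : x ∈ spanR ρ W) : x ∈ closure (ρ.toFun '' (W : Set D)) := by
  let G : AddSubgroup (Matrix (Fin N) (Fin N) ℝ) := W.toAddSubgroup.map ρ.toFun.toAddMonoidHom
  have hG : (G : Set (Matrix (Fin N) (Fin N) ℝ)) = ρ.toFun '' (W : Set D) := rfl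
  rw [← hG]
  change x ∈ G.topologicalClosure
  unfold spanR at hx
  induction hx using Submodule.span_induction with
  | mem x hx => exact subset_closure (by rw [hG]; exact hx)
  | zero => exact zero_mem _
  | add x y _ _ hx hy => exact add_mem hx hy
  | smul r x _ hx =>
    have hclosed : IsClosed {r : ℝ | r • x ∈ G.topologicalClosure} := by
      apply IsClosed.preimage (f := fun r : ℝ => r • x)
      · fun_prop
      · exact isClosed_closure
    refine (Rat.denseRange_cast (𝕜 := ℝ)).induction_on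
      (p := fun r : ℝ => r • x ∈ G.topologicalClosure) r hclosed ?_
    intro q
    have hmaps : Set.MapsTo (fun A : Matrix (Fin N) (Fin N) ℝ => (q : ℝ) • A)
        (G : Set (Matrix (Fin N) (Fin N) ℝ)) (G : Set (Matrix (Fin N) (Fin N) ℝ)) := by
      rw [hG]
      rintro _ ⟨w, hw, rfl⟩
      exact ⟨q • w, W.smul_mem q hw, rho_rat ρ q w⟩
    have hcont : Continuous fun A : Matrix (Fin N) (Fin N) ℝ => (q : ℝ) • A := by fun_prop
    exact map_mem_closure hcont hx hmaps

/-- the skew elements of a subalgebra -/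
def skewSub (C : Subalgebra ℚ D) : Submodule ℚ D where
  carrier := {s | s ∈ C ∧ star s = -s}
  add_mem' := by
    rintro a b ⟨ha, ha'⟩ ⟨hb, hb'⟩
    exact ⟨C.add_mem ha hb, by rw [star_add, ha', hb']; abel⟩
  zero_mem' := ⟨C.zero_mem, by simp⟩
  smul_mem' := by
    rintro q a ⟨ha, ha'⟩
    exact ⟨C.smul_mem ha q, by rw [star_smul_rat, ha', smul_neg]⟩

/-- the unitary elements of a subalgebra -/
def unitarySet (C : Subalgebra ℚ D) : Set D := {v | v ∈ C ∧ star v * v = 1}

section
variable (ρ : RealRep D N) (C : Subalgebra ℚ D) (hC : ∀ x ∈ C, star x ∈ C)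

/-- the real algebra spanned by a subalgebra -/
def algR : Subalgebra ℝ (Matrix (Fin N) (Fin N) ℝ) :=
  (spanR ρ (C : Set D)).toSubalgebra
    (Submodule.subset_span ⟨1, C.one_mem, map_one _⟩)
    (by
      intro x y hx hy
      unfold spanR at *
      induction hx using Submodule.span_induction with
      | mem x hx =>
        induction hy using Submodule.span_induction with
        | mem y hy =>
          obtain ⟨a, ha, rfl⟩ := hx
          obtain ⟨b, hb, rfl⟩ := hy
          exact Submodule.subset_span ⟨a * b, C.mul_mem ha hb, map_mul _ _ _⟩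
        | zero => rw [mul_zero]; exact Submodule.zero_mem _
        | add y z _ _ hy hz => rw [mul_add]; exact Submodule.add_mem _ hy hz
        | smul r y _ hy => rw [mul_smul_comm]; exact Submodule.smul_mem _ _ hy
      | zero => rw [zero_mul]; exact Submodule.zero_mem _
      | add x z _ _ hx hz => rw [add_mul]; exact Submodule.add_mem _ hx hz
      | smul r x _ hx => rw [smul_mul_assoc]; exact Submodule.smul_mem _ _ hx)

theorem mem_algR {x : Matrix (Fin N) (Fin N) ℝ} : x ∈ algR ρ C ↔ x ∈ spanR ρ (C : Set D) := Iff.rfl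

include hC in
theorem transpose_mem {x : Matrix (Fin N) (Fin N) ℝ} (hx : x ∈ algR ρ C) : xᵀ ∈ algR ρ C := by
  rw [mem_algR] at *
  unfold spanR at *
  induction hx using Submodule.span_induction with
  | mem x hx =>
    obtain ⟨a, ha, rfl⟩ := hx
    exact Submodule.subset_span ⟨star a, hC a ha, ρ.star' a⟩
  | zero => rw [Matrix.transpose_zero]; exact Submodule.zero_mem _
  | add x y _ _ hx hy => rw [Matrix.transpose_add]; exact Submodule.add_mem _ hx hy
  | smul r x _ hx => rw [Matrix.transpose_smul]; exact Submodule.smul_mem _ _ hx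

include hC in
theorem skew_mem_span {x : Matrix (Fin N) (Fin N) ℝ} (hx : x ∈ algR ρ C) :
    x - xᵀ ∈ spanR ρ (skewSub C : Set D) := by
  rw [mem_algR] at hx
  unfold spanR at *
  induction hx using Submodule.span_induction with
  | mem x hx =>
    obtain ⟨a, ha, rfl⟩ := hx
    refine Submodule.subset_span ⟨a - star a, ⟨C.sub_mem ha (hC a ha), ?_⟩, ?_⟩
    · rw [star_sub, star_star]; abel
    · rw [map_sub, ρ.star']
  | zero => rw [Matrix.transpose_zero, sub_zero]; exact Submodule.zero_mem _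
  | add x y _ _ hx hy =>
    have : x + y - (x + y)ᵀ = (x - xᵀ) + (y - yᵀ) := by
      rw [Matrix.transpose_add]; abel
    rw [this]
    exact Submodule.add_mem _ hx hy
  | smul r x _ hx =>
    have : r • x - (r • x)ᵀ = r • (x - xᵀ) := by
      rw [Matrix.transpose_smul, smul_sub]
    rw [this]
    exact Submodule.smul_mem _ _ hx

include hC in
theorem skew_mem_closure {s : Matrix (Fin N) (Fin N) ℝ} (hs : s ∈ algR ρ C) (hs' : sᵀ = -s) :
    s ∈ closure (ρ.toFun '' (skewSub C : Set D)) := by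
  apply mem_closure_of_span
  have h1 := skew_mem_span ρ C hC hs
  rw [hs', sub_neg_eq_add, ← two_smul ℝ s] at h1
  have h2 := Submodule.smul_mem _ (2⁻¹ : ℝ) h1
  rwa [smul_smul, inv_mul_cancel₀ two_ne_zero, one_smul] at h2

theorem inv_mem_sub {c : D} (hc : c ∈ C) (h0 : c ≠ 0) : c⁻¹ ∈ C := by
  let T : C →ₗ[ℚ] C := LinearMap.mulLeft ℚ (⟨c, hc⟩ : C)
  have inj : Function.Injective T := by
    rw [injective_iff_map_eq_zero]
    intro x hx
    have h1 : c * (x : D) = 0 := congrArg Subtype.val hx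
    exact Subtype.ext ((mul_eq_zero.mp h1).resolve_left h0)
  obtain ⟨x, hx⟩ := (LinearMap.injective_iff_surjective.mp inj) 1
  have h1 : c * (x : D) = 1 := congrArg Subtype.val hx
  rw [show c⁻¹ = (x : D) from (eq_inv_of_mul_eq_one_right h1).symm]
  exact x.2

theorem one_sub_skew_ne_r {s : D} (hs : star s = -s) : 1 - s ≠ 0 := by
  intro h
  have h1 : s = 1 := (sub_eq_zero.mp h).symm
  rw [h1, star_one] at hs
  have : (2 : D) = 0 := by
    have h2 : (1 : D) + 1 = 0 := by
      nth_rewrite 1 [hs]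
      exact neg_add_cancel 1
    rwa [one_add_one_eq_two] at h2
  exact two_ne_zero this

theorem cayley_mem {s : D} (hs : s ∈ skewSub C) : (1 + s) * (1 - s)⁻¹ ∈ unitarySet C := by
  obtain ⟨hsC, hss⟩ := hs
  have h1 := one_sub_skew_ne_r hss
  have h2 : 1 + s ≠ 0 := by
    have := one_sub_skew_ne_r (s := -s) (by rw [star_neg, hss])
    rwa [sub_neg_eq_add] at this
  refine ⟨C.mul_mem (C.add_mem C.one_mem hsC) (inv_mem_sub C (C.sub_mem C.one_mem hsC) h1), ?_⟩
  rw [star_mul, star_inv₀, star_add, star_sub, star_one, hss, sub_neg_eq_add]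
  have hcomm : (1 - s) * (1 + s) = (1 + s) * (1 - s) := by noncomm_ring
  calc (1 + s)⁻¹ * (1 + -s) * ((1 + s) * (1 - s)⁻¹)
      = (1 + s)⁻¹ * ((1 - s) * (1 + s)) * (1 - s)⁻¹ := by
        rw [← sub_eq_add_neg]; simp only [mul_assoc]
    _ = 1 := by
        rw [hcomm, ← mul_assoc, inv_mul_cancel₀ h2, one_mul, mul_inv_cancel₀ h1]

theorem rho_inv {x : D} (hx : x ≠ 0) : (ρ x)⁻¹ = ρ x⁻¹ := by
  apply Matrix.inv_eq_right_inv
  rw [← map_mul, mul_inv_cancel₀ hx, map_one]

theorem rcay_rho {s : D} (hs : s ∈ skewSub C) : rcay (ρ s) = ρ ((1 + s) * (1 - s)⁻¹) := by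
  have h1 := one_sub_skew_ne_r hs.2
  unfold rcay
  rw [map_mul, ← rho_inv ρ h1, map_add, map_sub, map_one]

/-- the closure of the unitary group -/
def GG : Set (Matrix (Fin N) (Fin N) ℝ) := closure (ρ.toFun '' unitarySet C)

theorem GG_compact : IsCompact (GG ρ C) := by
  apply (isCompact_univ_pi fun _ : Fin N => isCompact_univ_pi fun _ : Fin N =>
    isCompact_Icc (a := (-1 : ℝ)) (b := 1)).of_isClosed_subset isClosed_closure
  apply closure_minimal
  · rintro _ ⟨v, ⟨-, hv⟩, rfl⟩ i - j -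
    have h1 : (ρ v)ᵀ * ρ v = 1 := by rw [← ρ.star', ← map_mul, hv, map_one]
    have h2 := congrFun (congrFun h1 j) j
    rw [Matrix.mul_apply, Matrix.one_apply_eq] at h2
    have h3 : ρ v i j * ρ v i j ≤ 1 := by
      rw [← h2]
      exact Finset.single_le_sum (f := fun i => (ρ v)ᵀ j i * ρ v i j)
        (fun k _ => mul_self_nonneg _) (Finset.mem_univ i)
    rw [Set.mem_Icc]
    constructor <;> nlinarith
  · exact isClosed_set_pi fun i _ => isClosed_set_pi fun j _ => isClosed_Icc

theorem GG_mul {x y : Matrix (Fin N) (Fin N) ℝ} (hx : x ∈ GG ρ C) (hy : y ∈ GG ρ C) :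
    x * y ∈ GG ρ C := by
  refine map_mem_closure₂ continuous_mul hx hy ?_
  rintro _ ⟨a, ⟨ha, ha'⟩, rfl⟩ _ ⟨b, ⟨hb, hb'⟩, rfl⟩
  refine ⟨a * b, ⟨C.mul_mem ha hb, ?_⟩, map_mul _ _ _⟩
  rw [star_mul]
  calc star b * star a * (a * b) = star b * (star a * a) * b := by noncomm_ring
    _ = 1 := by rw [ha', mul_one, hb']

include hC in
theorem GG_transpose {x : Matrix (Fin N) (Fin N) ℝ} (hx : x ∈ GG ρ C) : xᵀ ∈ GG ρ C := by
  refine map_mem_closure continuous_id.matrix_transpose hx ?_
  rintro _ ⟨a, ⟨ha, ha'⟩, rfl⟩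
  refine ⟨star a, ⟨hC a ha, ?_⟩, ρ.star' a⟩
  rw [star_star]
  exact mul_eq_one_comm.mp ha'

theorem GG_orth {x : Matrix (Fin N) (Fin N) ℝ} (hx : x ∈ GG ρ C) : xᵀ * x = 1 := by
  have h : IsClosed {x : Matrix (Fin N) (Fin N) ℝ | xᵀ * x = 1} :=
    isClosed_eq (continuous_id.matrix_transpose.mul continuous_id) continuous_const
  refine closure_minimal ?_ h hx
  rintro _ ⟨a, ⟨-, ha'⟩, rfl⟩
  change (ρ a)ᵀ * ρ a = 1
  rw [← ρ.star', ← map_mul, ha', map_one]

theorem GG_sub {x : Matrix (Fin N) (Fin N) ℝ} (hx : x ∈ GG ρ C) : x ∈ algR ρ C := by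
  have h : IsClosed ((spanR ρ (C : Set D) : Submodule ℝ (Matrix (Fin N) (Fin N) ℝ)) :
      Set (Matrix (Fin N) (Fin N) ℝ)) := Submodule.closed_of_finiteDimensional _
  refine closure_minimal ?_ h hx
  rintro _ ⟨a, ⟨ha, -⟩, rfl⟩
  exact Submodule.subset_span ⟨a, ha, rfl⟩

include hC in
theorem GG_cay {s : Matrix (Fin N) (Fin N) ℝ} (hs : s ∈ algR ρ C) (hs' : sᵀ = -s) :
    rcay s ∈ GG ρ C := by
  have h1 := skew_mem_closure ρ C hC hs hs'
  have h2 : ContinuousAt (fun B : Matrix (Fin N) (Fin N) ℝ => rcay B) s := by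
    unfold rcay
    have h3 : ContinuousAt (fun B : Matrix (Fin N) (Fin N) ℝ => (1 - B)⁻¹) s := by
      have h4 : ContinuousAt (fun B : Matrix (Fin N) (Fin N) ℝ => 1 - B) s := by fun_prop
      exact Tendsto.comp (continuousAt_inv_matrix (posQ_one_sub_skew hs').det_ne) h4
    exact ContinuousAt.mul (by fun_prop) h3
  refine h2.continuousWithinAt.mem_closure h1 ?_
  rintro _ ⟨a, ha, rfl⟩
  exact ⟨_, cayley_mem C ha, (rcay_rho ρ C ha).symm⟩

end

end Vale.Agent.P011S

end

section
set_option linter.unusedSectionVars false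
set_option linter.unusedSimpArgs false

namespace Vale.Agent.P011S

open Module Matrix Filter Topology

variable {D : Type} [DivisionRing D] [StarRing D] [CharZero D] [FiniteDimensional ℚ D]
variable {N : ℕ}

theorem aeval_mulVec {z : Matrix (Fin N) (Fin N) ℝ} {v : Fin N → ℝ} {μ : ℝ}
    (h : z *ᵥ v = μ • v) (p : Polynomial ℝ) :
    (Polynomial.aeval z p) *ᵥ v = (p.eval μ) • v := by
  have hpow : ∀ n : ℕ, (z ^ n) *ᵥ v = (μ ^ n) • v := by
    intro n
    induction n with
    | zero => simp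
    | succ n ih =>
      rw [pow_succ, ← Matrix.mulVec_mulVec, h, Matrix.mulVec_smul, ih, smul_smul, pow_succ,
        mul_comm]
  induction p using Polynomial.induction_on' with
  | add p q hp hq =>
    rw [map_add, Matrix.add_mulVec, hp, hq, Polynomial.eval_add, add_smul]
  | monomial n a =>
    rw [Polynomial.aeval_monomial, Polynomial.eval_monomial, ← Matrix.mulVec_mulVec, hpow,
      Matrix.mulVec_smul, Algebra.algebraMap_eq_smul_one, Matrix.smul_mulVec, Matrix.one_mulVec,
      smul_smul, mul_comm]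

theorem exists_neg_eigen {z : Matrix (Fin N) (Fin N) ℝ} (hz : zᵀ = z) (hdet : z.det ≠ 0)
    (hneg : ¬ PosQ z) :
    ∃ (μ : ℝ) (σ : Matrix (Fin N) (Fin N) ℝ), μ < 0 ∧ σ ≠ 0 ∧
      (∃ q : Polynomial ℝ, σ = Polynomial.aeval z q) ∧ z * σ = μ • σ := by
  have hH : z.IsHermitian := by
    rw [Matrix.IsHermitian, Matrix.conjTranspose_eq_transpose_of_trivial, hz]
  obtain ⟨i, hi⟩ : ∃ i, hH.eigenvalues i ≤ 0 := by
    by_contra hcon
    push Not at hcon
    have h1 := hH.posDef_iff_eigenvalues_pos.mpr hcon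
    apply hneg
    intro y hy
    have := h1.dotProduct_mulVec_pos hy
    simpa only [gt_iff_lt, star_trivial] using this
  have hi0 : hH.eigenvalues i ≠ 0 := by
    intro h0
    apply hdet
    rw [hH.det_eq_prod_eigenvalues, Finset.prod_eq_zero (Finset.mem_univ i)]
    simp [h0]
  have hμ : hH.eigenvalues i < 0 := lt_of_le_of_ne hi hi0
  set μ := hH.eigenvalues i with hμd
  have hv := hH.mulVec_eigenvectorBasis i
  rw [← hμd] at hv
  set v : Fin N → ℝ := ⇑(hH.eigenvectorBasis i) with hvd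
  have hv0 : v ≠ 0 := by
    intro h
    have h1 : hH.eigenvectorBasis i ≠ 0 := hH.eigenvectorBasis.orthonormal.ne_zero i
    apply h1
    ext j
    exact congrFun h j
  have hint : IsIntegral ℝ z := Algebra.IsIntegral.isIntegral z
  have hroot : (minpoly ℝ z).IsRoot μ := by
    have h1 := aeval_mulVec hv (minpoly ℝ z)
    rw [minpoly.aeval, Matrix.zero_mulVec] at h1
    rcases smul_eq_zero.mp h1.symm with h2 | h2
    · exact h2
    · exact absurd h2 hv0
  obtain ⟨q, hq⟩ := Polynomial.dvd_iff_isRoot.mpr hroot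
  have hm0 : minpoly ℝ z ≠ 0 := minpoly.ne_zero hint
  have hq0 : q ≠ 0 := by
    rintro rfl
    rw [mul_zero] at hq
    exact hm0 hq
  refine ⟨μ, Polynomial.aeval z q, hμ, ?_, ⟨q, rfl⟩, ?_⟩
  · intro h0
    have h1 := minpoly.degree_le_of_ne_zero ℝ z hq0 h0
    rw [hq, Polynomial.degree_mul, Polynomial.degree_X_sub_C, Polynomial.degree_eq_natDegree hq0]
      at h1
    have h2 : ((1 + q.natDegree : ℕ) : WithBot ℕ) ≤ ((q.natDegree : ℕ) : WithBot ℕ) := by
      push_cast
      exact h1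
    have h3 : 1 + q.natDegree ≤ q.natDegree := by exact_mod_cast h2
    omega
  · have h1 : Polynomial.aeval z (minpoly ℝ z) = 0 := minpoly.aeval ℝ z
    rw [hq, map_mul, map_sub, Polynomial.aeval_X, Polynomial.aeval_C, Matrix.sub_mul,
      Algebra.algebraMap_eq_smul_one, Matrix.smul_mul, Matrix.one_mul] at h1
    exact sub_eq_zero.mp h1

theorem transpose_aeval {z : Matrix (Fin N) (Fin N) ℝ} (hz : zᵀ = z) (q : Polynomial ℝ) :
    (Polynomial.aeval z q)ᵀ = Polynomial.aeval z q := by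
  induction q using Polynomial.induction_on' with
  | add p q hp hq => rw [map_add, Matrix.transpose_add, hp, hq]
  | monomial n a =>
    rw [Polynomial.aeval_monomial, Algebra.algebraMap_eq_smul_one, Matrix.smul_mul, Matrix.one_mul,
      Matrix.transpose_smul, Matrix.transpose_pow, hz]

section
variable (ρ : RealRep D N) (C : Subalgebra ℚ D) (hC : ∀ x ∈ C, star x ∈ C)

theorem algR_comm {θ : D} (hθ : ∀ x, x * θ = θ * x) {x : Matrix (Fin N) (Fin N) ℝ}
    (hx : x ∈ algR ρ C) : x * ρ θ = ρ θ * x := by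
  rw [mem_algR] at hx
  unfold spanR at hx
  induction hx using Submodule.span_induction with
  | mem x hx =>
    obtain ⟨a, ha, rfl⟩ := hx
    change ρ a * ρ θ = ρ θ * ρ a
    rw [← map_mul, hθ, map_mul]
  | zero => rw [Matrix.zero_mul, Matrix.mul_zero]
  | add x y _ _ hx hy => rw [Matrix.add_mul, Matrix.mul_add, hx, hy]
  | smul r x _ hx => rw [Matrix.smul_mul, Matrix.mul_smul, hx]

include hC in
/-- Polar rotation: an invertible element of the real algebra can be rotated by a unitary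
element into the accretive cone. -/
theorem polar {θ : D} (hθ : ∀ x, x * θ = θ * x) (hθs : star θ = -θ) (hθ0 : θ ≠ 0) (hθC : θ ∈ C)
    {b : Matrix (Fin N) (Fin N) ℝ} (hb : b ∈ algR ρ C) (hb0 : b.det ≠ 0) :
    ∃ v ∈ unitarySet C, PosQ ((ρ v)ᵀ * b) := by
  have hne : (GG ρ C).Nonempty :=
    ⟨ρ 1, subset_closure ⟨1, ⟨C.one_mem, by rw [star_one, mul_one]⟩, rfl⟩⟩
  have hcont : Continuous fun x : Matrix (Fin N) (Fin N) ℝ => (xᵀ * b).trace :=
    (continuous_id.matrix_transpose.matrix_mul continuous_const).matrix_trace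
  obtain ⟨u, hu, humax⟩ := (GG_compact ρ C).exists_isMaxOn hne hcont.continuousOn
  set z := uᵀ * b with hzd
  have hzA : z ∈ algR ρ C :=
    (algR ρ C).mul_mem (transpose_mem ρ C hC (GG_sub ρ C hu)) hb
  have hmax : ∀ c ∈ GG ρ C, (cᵀ * z).trace ≤ z.trace := by
    intro c hc
    have h1 := humax (GG_mul ρ C hu hc)
    change ((u * c)ᵀ * b).trace ≤ (uᵀ * b).trace at h1
    rwa [Matrix.transpose_mul, Matrix.mul_assoc] at h1
  have hcond : ∀ s ∈ algR ρ C, sᵀ = -s → (s * z).trace = 0 ∧ (s * s * z).trace ≤ 0 := by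
    intro s hs hss
    apply cayley_conditions hss
    intro t
    have h1 : rcay (t • s) ∈ GG ρ C := GG_cay ρ C hC ((algR ρ C).smul_mem hs t) (by
      rw [Matrix.transpose_smul, hss, smul_neg])
    have h2 := hmax _ (GG_transpose ρ C hC h1)
    rwa [Matrix.transpose_transpose] at h2
  have hzs : zᵀ = z := by
    set s := z - zᵀ with hsd
    have hsA : s ∈ algR ρ C := (algR ρ C).sub_mem hzA (transpose_mem ρ C hC hzA)
    have hss : sᵀ = -s := by
      rw [hsd, Matrix.transpose_sub, Matrix.transpose_transpose, neg_sub]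
    have h1 := (hcond s hsA hss).1
    have h2 : (s * zᵀ).trace = 0 := by
      rw [← Matrix.trace_transpose, Matrix.transpose_mul, Matrix.transpose_transpose, hss,
        Matrix.mul_neg, Matrix.trace_neg, Matrix.trace_mul_comm, h1, neg_zero]
    have h3 : (sᵀ * s).trace = 0 := by
      rw [hss, Matrix.neg_mul, Matrix.trace_neg]
      have h4 : s * s = s * z - s * zᵀ := by rw [← Matrix.mul_sub]
      rw [h4, Matrix.trace_sub, h1, h2, sub_zero, neg_zero]
    have h4 := eq_zero_of_trace_sq h3.le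
    exact (sub_eq_zero.mp h4).symm
  have hzdet : z.det ≠ 0 := by
    rw [hzd, Matrix.det_mul, Matrix.det_transpose]
    apply mul_ne_zero _ hb0
    intro h0
    have h1 := congrArg Matrix.det (GG_orth ρ C hu)
    rw [Matrix.det_mul, Matrix.det_transpose, h0, Matrix.det_one, mul_zero] at h1
    exact zero_ne_one h1
  have hzpos : PosQ z := by
    by_contra hneg
    obtain ⟨μ, σ, hμ, hσ0, ⟨q, hq⟩, hzσ⟩ := exists_neg_eigen hzs hzdet hneg
    have hσs : σᵀ = σ := by rw [hq, transpose_aeval hzs]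
    have hσA : σ ∈ algR ρ C := by
      rw [hq]
      exact (Algebra.adjoin_le (by simpa using hzA)) (Polynomial.aeval_mem_adjoin_singleton ℝ z)
    have hθA : ρ θ ∈ algR ρ C := Submodule.subset_span ⟨θ, hθC, rfl⟩
    have hθt : (ρ θ)ᵀ = -ρ θ := by rw [← ρ.star', hθs, map_neg]
    set s := ρ θ * σ with hsd
    have hsA : s ∈ algR ρ C := (algR ρ C).mul_mem hθA hσA
    have hcomm := algR_comm ρ C hθ hσA
    have hss : sᵀ = -s := by
      rw [hsd, Matrix.transpose_mul, hθt, hσs, Matrix.mul_neg, hcomm]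
    have h1 := (hcond s hsA hss).2
    have hσz : σ * z = μ • σ := by
      have := congrArg Matrix.transpose hzσ
      rwa [Matrix.transpose_mul, hσs, hzs, Matrix.transpose_smul, hσs] at this
    have h2 : s * s * z = (-μ) • (sᵀ * s) := by
      rw [hss, Matrix.neg_mul, smul_neg, neg_smul, neg_neg]
      have : s * s * z = s * (ρ θ * (σ * z)) := by
        rw [hsd]; simp only [Matrix.mul_assoc]
      rw [this, hσz, Matrix.mul_smul, Matrix.mul_smul]
    rw [h2, Matrix.trace_smul, smul_eq_mul] at h1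
    have h3 : (sᵀ * s).trace ≤ 0 := by
      by_contra hcon
      have := mul_pos (neg_pos.mpr hμ) (not_le.mp hcon)
      linarith only [h1, this]
    have h4 := eq_zero_of_trace_sq h3
    apply hσ0
    have h5 : ρ θ⁻¹ * (ρ θ * σ) = 0 := by rw [← hsd, h4, Matrix.mul_zero]
    rwa [← Matrix.mul_assoc, ← map_mul, inv_mul_cancel₀ hθ0, map_one, Matrix.one_mul] at h5
  have hcont2 : Continuous fun x : Matrix (Fin N) (Fin N) ℝ => xᵀ * b :=
    continuous_id.matrix_transpose.matrix_mul continuous_const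
  have hev : ∀ᶠ x in 𝓝 u, PosQ (xᵀ * b) :=
    hcont2.continuousAt.eventually (posQ_eventually hzpos)
  obtain ⟨x, hx1, hx2⟩ := mem_closure_iff_nhds.mp hu _ hev
  obtain ⟨v, hv, rfl⟩ := hx2
  exact ⟨v, hv, hx1⟩

end

end Vale.Agent.P011S

end

section
set_option linter.unusedSectionVars false
set_option linter.unusedSimpArgs false

namespace Vale.Agent.P011S

open Module Matrix Filter Topology

variable {D : Type} [DivisionRing D] [StarRing D] [CharZero D] [FiniteDimensional ℚ D]
variable {N : ℕ}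

theorem rho_det_ne (ρ : RealRep D N) {x : D} (hx : x ≠ 0) : (ρ x).det ≠ 0 := by
  intro h0
  have h1 : ρ x * ρ x⁻¹ = 1 := by rw [← map_mul, mul_inv_cancel₀ hx, map_one]
  have h2 := congrArg Matrix.det h1
  rw [Matrix.det_mul, h0, zero_mul, Matrix.det_one] at h2
  exact zero_ne_one h2

theorem Acc.ne_zero {z : D} (hz : Acc z) : z ≠ 0 := by
  rintro rfl
  exact hz.2 (by simp)

/-- (R1) rotation of an element of a star-closed subalgebra into the accretive cone -/
theorem exists_rotate (ρ : RealRep D N) (C : Subalgebra ℚ D) (hC : ∀ x ∈ C, star x ∈ C)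
    {θ : D} (hθ : ∀ x, x * θ = θ * x) (hθs : star θ = -θ) (hθ0 : θ ≠ 0) (hθC : θ ∈ C)
    {g : D} (hg : g ∈ C) (hg0 : g ≠ 0) :
    ∃ v ∈ C, star v * v = 1 ∧ Acc (star v * g) := by
  obtain ⟨v, ⟨hvC, hv⟩, hpos⟩ := polar ρ C hC hθ hθs hθ0 hθC
    (b := ρ g) (Submodule.subset_span ⟨g, hg, rfl⟩) (rho_det_ne ρ hg0)
  refine ⟨v, hvC, hv, (acc_iff ρ _).mpr ?_⟩
  have : ρ (star v * g) = (ρ v)ᵀ * ρ g := by rw [← ρ.star', ← map_mul]
  rw [this]
  exact hpos

/-- the segment from one to `h` -/
def dseg (h : D) (q : ℚ) : D := 1 + q • (h - 1)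

theorem rho_dseg (ρ : RealRep D N) (h : D) (q : ℚ) :
    ρ (dseg h q) = 1 + (q : ℝ) • (ρ h - 1) := by
  unfold dseg
  rw [map_add, map_one, rho_rat, map_sub, map_one]

theorem posQ_dseg {A : Matrix (Fin N) (Fin N) ℝ} (hA : PosQ A) {t : ℝ} (h0 : 0 ≤ t)
    (h1 : t ≤ 1) : PosQ (1 + t • (A - 1)) := by
  have := (posQ_one (N := N)).combo hA h0 h1
  convert this using 1
  rw [smul_sub, sub_smul, one_smul]; abel

/-- (R2) a chain of rotations along a segment -/
theorem exists_chain (ρ : RealRep D N)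
    {θ : D} (hθ : ∀ x, x * θ = θ * x) (hθs : star θ = -θ) (hθ0 : θ ≠ 0)
    {g h : D} (hg0 : g ≠ 0) (hh : Acc h) :
    ∃ n : ℕ, 0 < n ∧ ∀ i : ℕ, i < n → ∃ v : D, star v * v = 1 ∧
      Acc (star v * (g * dseg h ((i : ℚ) / n))) ∧
      Acc (star v * (g * dseg h (((i + 1 : ℕ) : ℚ) / n))) ∧
      Acc ((dseg h ((i : ℚ) / n))⁻¹ * dseg h (((i + 1 : ℕ) : ℚ) / n)) := by
  have hh' := (acc_iff ρ h).mp hh
  let kk : ℝ → Matrix (Fin N) (Fin N) ℝ := fun t => 1 + t • (ρ h - 1)
  have hkk : Continuous kk := by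
    change Continuous fun t : ℝ => 1 + t • (ρ h - 1)
    fun_prop
  have hkpos : ∀ t ∈ Set.Icc (0 : ℝ) 1, PosQ (kk t) := fun t ht => posQ_dseg hh' ht.1 ht.2
  have hkA : ∀ t, kk t ∈ algR ρ ⊤ := by
    intro t
    refine Subalgebra.add_mem _ (Subalgebra.one_mem _) (Subalgebra.smul_mem _ ?_ _)
    exact Subalgebra.sub_mem _ (Submodule.subset_span ⟨h, trivial, rfl⟩) (Subalgebra.one_mem _)
  let P : Set ℝ → Prop := fun U => IsOpen U ∧ ∃ v : D, star v * v = 1 ∧
    ∀ t ∈ U, ∀ t' ∈ U, PosQ ((ρ v)ᵀ * (ρ g * kk t)) ∧ PosQ ((kk t)⁻¹ * kk t')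
  have hcover : Set.Icc (0 : ℝ) 1 ⊆ ⋃ i : {U : Set ℝ // P U}, i.1 := by
    intro τ hτ
    have hb0 : (ρ g * kk τ).det ≠ 0 := by
      rw [Matrix.det_mul]
      exact mul_ne_zero (rho_det_ne ρ hg0) (hkpos τ hτ).det_ne
    obtain ⟨v, ⟨-, hv⟩, hpos⟩ := polar ρ ⊤ (fun _ _ => trivial) hθ hθs hθ0 trivial
      (b := ρ g * kk τ)
      ((algR ρ ⊤).mul_mem (Submodule.subset_span ⟨g, trivial, rfl⟩) (hkA τ)) hb0
    have h1 : ∀ᶠ t in 𝓝 τ, PosQ ((ρ v)ᵀ * (ρ g * kk t)) := by
      have hc : Continuous fun t => (ρ v)ᵀ * (ρ g * kk t) :=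
        continuous_const.matrix_mul (continuous_const.matrix_mul hkk)
      exact hc.continuousAt.eventually (posQ_eventually hpos)
    have h2 : ∀ᶠ p : ℝ × ℝ in 𝓝 τ ×ˢ 𝓝 τ, PosQ ((kk p.1)⁻¹ * kk p.2) := by
      have hinv : ContinuousAt (fun t : ℝ => (kk t)⁻¹) τ :=
        Tendsto.comp (continuousAt_inv_matrix (hkpos τ hτ).det_ne) hkk.continuousAt
      have hinv' : Tendsto (fun p : ℝ × ℝ => (kk p.1)⁻¹) (𝓝 τ ×ˢ 𝓝 τ) (𝓝 ((kk τ)⁻¹)) :=
        hinv.tendsto.comp tendsto_fst
      have hk' : Tendsto (fun p : ℝ × ℝ => kk p.2) (𝓝 τ ×ˢ 𝓝 τ) (𝓝 (kk τ)) :=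
        (hkk.tendsto τ).comp tendsto_snd
      have hmul : Tendsto (fun p : ℝ × ℝ => (kk p.1)⁻¹ * kk p.2) (𝓝 τ ×ˢ 𝓝 τ)
          (𝓝 ((kk τ)⁻¹ * kk τ)) := hinv'.mul hk'
      have hone : PosQ ((kk τ)⁻¹ * kk τ) := by
        rw [Matrix.nonsing_inv_mul _ (isUnit_iff_ne_zero.mpr (hkpos τ hτ).det_ne)]
        exact posQ_one
      exact hmul.eventually (posQ_eventually hone)
    obtain ⟨U2, hU2, hU2'⟩ := (Filter.eventually_prod_self_iff
      (r := fun t t' : ℝ => PosQ ((kk t)⁻¹ * kk t'))).mp h2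
    obtain ⟨U, hUsub, hUo, hτU⟩ := mem_nhds_iff.mp (Filter.inter_mem h1 hU2)
    refine Set.mem_iUnion.mpr ⟨⟨U, hUo, v, hv, ?_⟩, hτU⟩
    intro t ht t' ht'
    exact ⟨(hUsub ht).1, hU2' t (hUsub ht).2 t' (hUsub ht').2⟩
  obtain ⟨δ, hδ, hδ'⟩ := lebesgue_number_lemma_of_metric isCompact_Icc
    (fun i : {U : Set ℝ // P U} => i.2.1) hcover
  obtain ⟨n, hn⟩ := exists_nat_gt (1 / δ)
  have hn0 : (0 : ℝ) < n := lt_trans (by positivity) hn
  have hnN : n ≠ 0 := by
    rintro rfl
    simp at hn0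
  have hnδ : (1 : ℝ) / n < δ := by
    rw [div_lt_iff₀ hδ] at hn
    rw [div_lt_iff₀ hn0]
    linarith
  refine ⟨n, Nat.pos_of_ne_zero hnN, ?_⟩
  · intro i hi
    have hk : ∀ j : ℕ, ρ (dseg h ((j : ℚ) / n)) = kk ((j : ℝ) / n) := by
      intro j
      rw [rho_dseg]
      push_cast
      rfl
    have hmem : ∀ j : ℕ, j ≤ n → (j : ℝ) / n ∈ Set.Icc (0 : ℝ) 1 := by
      intro j hj
      refine ⟨by (clear * - hnN; positivity), ?_⟩
      rw [div_le_one hn0]
      exact_mod_cast hj
    have hacc : ∀ j : ℕ, j ≤ n → Acc (dseg h ((j : ℚ) / n)) := by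
      intro j hj
      rw [acc_iff ρ, hk]
      exact hkpos _ (hmem j hj)
    obtain ⟨⟨U, hU⟩, hsub⟩ := hδ' ((i : ℝ) / n) (hmem i hi.le)
    obtain ⟨hUo, v, hv, hUv⟩ := hU
    have m1 : (i : ℝ) / n ∈ U := hsub (Metric.mem_ball_self hδ)
    have m2 : (((i + 1 : ℕ) : ℝ)) / n ∈ U := by
      apply hsub
      rw [Metric.mem_ball, Real.dist_eq]
      have : (((i + 1 : ℕ) : ℝ)) / n - (i : ℝ) / n = 1 / n := by
        push_cast; ring
      rw [this, abs_of_pos (by positivity)]
      exact hnδ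
    refine ⟨v, hv, ?_, ?_, ?_⟩
    · rw [acc_iff ρ, map_mul, map_mul, hk, ρ.star']
      exact (hUv _ m1 _ m1).1
    · rw [acc_iff ρ, map_mul, map_mul, hk, ρ.star']
      exact (hUv _ m2 _ m2).1
    · rw [acc_iff ρ, map_mul, ← rho_inv ρ (hacc i hi.le).ne_zero, hk, hk]
      exact (hUv _ m1 _ m2).2

end Vale.Agent.P011S

end

section
/-!
Analytic part: paths of translates by a central skew element.
-/

set_option linter.unusedSectionVars false
set_option linter.unusedSimpArgs false

open Matrix Module Filter Topology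

namespace Vale.Agent.P011S

section real

variable {N : ℕ}

theorem skew_indep {A J : Matrix (Fin N) (Fin N) ℝ} (hAJ : A * J = J * A) (hJ : Jᵀ = -J)
    (t : ℝ → ℝ) (s : Finset ℝ) : ∀ y : ℝ → (Fin N → ℝ),
    (∀ x ∈ s, (A + x • (1 : Matrix (Fin N) (Fin N) ℝ) + t x • J) *ᵥ y x = 0) →
    ∑ x ∈ s, y x = 0 → ∀ x ∈ s, y x = 0 := by
  classical
  induction s using Finset.induction_on with
  | empty => intro y _ _ x hx; simp at hx
  | insert a s ha ih =>
    intro y hy hsum
    rw [Finset.sum_insert ha] at hsum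
    set M : ℝ → Matrix (Fin N) (Fin N) ℝ := fun x =>
      A + x • (1 : Matrix (Fin N) (Fin N) ℝ) + t x • J with hM
    have hya : M a *ᵥ y a = 0 := hy a (Finset.mem_insert_self _ _)
    have h1 : ∑ x ∈ s, M a *ᵥ y x = 0 := by
      have h2 := congrArg (fun v => M a *ᵥ v) hsum
      simp only [Matrix.mulVec_add, hya, zero_add, Matrix.mulVec_zero, Matrix.mulVec_sum] at h2
      exact h2
    have hcomm : ∀ x, M x * M a = M a * M x := by
      intro x
      simp only [hM, Matrix.add_mul, Matrix.mul_add, Matrix.smul_mul, Matrix.mul_smul, hAJ,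
        Matrix.one_mul, Matrix.mul_one]
      module
    have h3 := ih (fun x => M a *ᵥ y x) (by
      intro x hx
      have hyx : M x *ᵥ y x = 0 := hy x (Finset.mem_insert_of_mem hx)
      change M x *ᵥ (M a *ᵥ y x) = 0
      rw [Matrix.mulVec_mulVec, hcomm, ← Matrix.mulVec_mulVec, hyx, Matrix.mulVec_zero]) h1
    have h4 : ∀ x ∈ s, y x = 0 := by
      intro x hx
      have hyx : M x *ᵥ y x = 0 := hy x (Finset.mem_insert_of_mem hx)
      have hax : a ≠ x := by
        rintro rfl
        exact ha hx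
      have h5 : M a = M x + ((a - x) • (1 : Matrix (Fin N) (Fin N) ℝ) + (t a - t x) • J) := by
        simp only [hM]; module
      have h6 : M a *ᵥ y x = 0 := h3 x hx
      rw [h5, Matrix.add_mulVec, hyx, zero_add, Matrix.add_mulVec, Matrix.smul_mulVec,
        Matrix.smul_mulVec, Matrix.one_mulVec] at h6
      have h7 := congrArg (fun v => y x ⬝ᵥ v) h6
      simp only [dotProduct_add, dotProduct_smul, smul_eq_mul, dotProduct_zero,
        skew_dot hJ, mul_zero, add_zero] at h7
      have h8 : y x ⬝ᵥ y x = 0 := by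
        rcases mul_eq_zero.mp h7 with h | h
        · exact absurd (sub_eq_zero.mp h) hax
        · exact h
      by_contra hne
      exact (dot_self_pos hne).ne' h8
    intro x hx
    rcases Finset.mem_insert.mp hx with rfl | hx
    · rw [Finset.sum_eq_zero h4, add_zero] at hsum
      exact hsum
    · exact h4 x hx

/-- the set of bad real shifts is finite -/
theorem bad_finite {A J : Matrix (Fin N) (Fin N) ℝ} (hAJ : A * J = J * A) (hJ : Jᵀ = -J) :
    {x : ℝ | ∃ t : ℝ, (A + x • (1 : Matrix (Fin N) (Fin N) ℝ) + t • J).det = 0}.Finite := by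
  classical
  by_contra hinf
  obtain ⟨s, hs, hcard⟩ := (Set.not_finite.mp hinf).exists_subset_card_eq (N + 1)
  have hex : ∀ x : ℝ, ∃ (t : ℝ) (y : Fin N → ℝ), x ∈ s → y ≠ 0 ∧
      (A + x • (1 : Matrix (Fin N) (Fin N) ℝ) + t • J) *ᵥ y = 0 := by
    intro x
    by_cases hx : x ∈ s
    · obtain ⟨t, ht⟩ := hs hx
      obtain ⟨v, hv, hv0⟩ := (Matrix.exists_mulVec_eq_zero_iff).mpr ht
      exact ⟨t, v, fun _ => ⟨hv, hv0⟩⟩
    · exact ⟨0, 0, fun h => absurd h hx⟩
  choose t y hty using hex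
  have hli : LinearIndependent ℝ (fun x : s => y x) := by
    rw [linearIndependent_iff']
    intro u g hsum i hi
    have h1 := skew_indep hAJ hJ t (u.map ⟨Subtype.val, Subtype.val_injective⟩)
      (fun x => if h : x ∈ s then g ⟨x, h⟩ • y x else 0) (by
        intro x hx
        obtain ⟨x', hx', rfl⟩ := Finset.mem_map.mp hx
        have hx's : (x' : ℝ) ∈ s := x'.2
        simp only [Function.Embedding.coeFn_mk, hx's, dif_pos]
        rw [Matrix.mulVec_smul, (hty x' hx's).2, smul_zero]) (by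
        rw [Finset.sum_map]
        convert hsum using 1
        refine Finset.sum_congr rfl fun x _ => ?_
        simp) i (Finset.mem_map_of_mem _ hi)
    simp only [Finset.coe_mem, dif_pos] at h1
    rcases smul_eq_zero.mp h1 with h | h
    · exact h
    · exact absurd h (hty i i.2).1
  have h2 := hli.fintype_card_le_finrank
  simp only [Fintype.card_coe, finrank_fintype_fun_eq_card, Fintype.card_fin, hcard] at h2
  omega

theorem abs_dot_le (M : Matrix (Fin N) (Fin N) ℝ) (y : Fin N → ℝ) :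
    |y ⬝ᵥ (M *ᵥ y)| ≤ (∑ i, ∑ j, |M i j|) * (y ⬝ᵥ y) := by
  have h1 : y ⬝ᵥ (M *ᵥ y) = ∑ i, ∑ j, M i j * (y i * y j) := by
    simp only [dotProduct, Matrix.mulVec, Finset.mul_sum]
    refine Finset.sum_congr rfl fun i _ => Finset.sum_congr rfl fun j _ => ?_
    ring
  rw [h1, Finset.sum_mul]
  refine (Finset.abs_sum_le_sum_abs _ _).trans (Finset.sum_le_sum fun i _ => ?_)
  rw [Finset.sum_mul]
  refine (Finset.abs_sum_le_sum_abs _ _).trans (Finset.sum_le_sum fun j _ => ?_)
  have h2 : ∀ k, y k ^ 2 ≤ y ⬝ᵥ y := by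
    intro k
    rw [pow_two]
    exact Finset.single_le_sum (f := fun i => y i * y i) (fun j _ => mul_self_nonneg _)
      (Finset.mem_univ k)
  have h3 : |y i * y j| ≤ y ⬝ᵥ y := by
    rw [abs_le]
    constructor <;> nlinarith only [h2 i, h2 j]
  rw [abs_mul]
  exact mul_le_mul_of_nonneg_left h3 (abs_nonneg _)

/-- uniform accretivity of small steps along a path of invertible matrices -/
theorem step_bound {A J : Matrix (Fin N) (Fin N) ℝ} {T : ℝ}
    (h : ∀ t ∈ Set.Icc (0 : ℝ) T, (A + t • J).det ≠ 0) :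
    ∃ ε0 : ℝ, 0 < ε0 ∧ ∀ ε : ℝ, 0 ≤ ε → ε ≤ ε0 → ∀ t ∈ Set.Icc (0 : ℝ) T,
      PosQ (1 + ε • ((A + t • J)⁻¹ * J)) := by
  have hcont : ContinuousOn (fun t : ℝ => ∑ i, ∑ j, |((A + t • J)⁻¹ * J) i j|)
      (Set.Icc (0 : ℝ) T) := by
    intro t ht
    apply ContinuousAt.continuousWithinAt
    have h1 : ContinuousAt (fun t : ℝ => A + t • J) t := by fun_prop
    have h2 : ContinuousAt (fun B : Matrix (Fin N) (Fin N) ℝ => B⁻¹)
        ((fun t : ℝ => A + t • J) t) := continuousAt_inv_matrix (h t ht)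
    have h3 : ContinuousAt (fun t : ℝ => (A + t • J)⁻¹) t := Tendsto.comp h2 h1
    have h4 : ContinuousAt (fun t : ℝ => (A + t • J)⁻¹ * J) t := h3.mul continuousAt_const
    refine tendsto_finsetSum _ fun i _ => tendsto_finsetSum _ fun j _ => ?_
    have h5 : Continuous fun B : Matrix (Fin N) (Fin N) ℝ => |B i j| := by fun_prop
    exact Tendsto.comp h5.continuousAt h4
  obtain ⟨C, hC⟩ := isCompact_Icc.bddAbove_image hcont
  have hC' : ∀ t ∈ Set.Icc (0 : ℝ) T, ∑ i, ∑ j, |((A + t • J)⁻¹ * J) i j| ≤ C := fun t ht =>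
    hC (Set.mem_image_of_mem _ ht)
  refine ⟨1 / (|C| + 1), by positivity, fun ε h0 h1 t ht y hy => ?_⟩
  have hy' := dot_self_pos hy
  rw [Matrix.add_mulVec, dotProduct_add, Matrix.one_mulVec, Matrix.smul_mulVec, dotProduct_smul,
    smul_eq_mul]
  have h2 := abs_dot_le ((A + t • J)⁻¹ * J) y
  have h3 : |y ⬝ᵥ (((A + t • J)⁻¹ * J) *ᵥ y)| ≤ |C| * (y ⬝ᵥ y) :=
    h2.trans (mul_le_mul_of_nonneg_right ((hC' t ht).trans (le_abs_self C)) hy'.le)
  have h4 : -(|C| * (y ⬝ᵥ y)) ≤ y ⬝ᵥ (((A + t • J)⁻¹ * J) *ᵥ y) := by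
    have := neg_le_of_abs_le h3
    exact this
  have h5 : ε * |C| < 1 := by
    have : ε * (|C| + 1) ≤ 1 := by
      rw [le_div_iff₀ (by positivity)] at h1
      exact h1
    rcases h0.lt_or_eq with h | h
    · linarith
    · rw [← h]; simp only [zero_mul, zero_lt_one]
  have h6 : ε * -(|C| * (y ⬝ᵥ y)) ≤ ε * (y ⬝ᵥ (((A + t • J)⁻¹ * J) *ᵥ y)) :=
    mul_le_mul_of_nonneg_left h4 h0
  nlinarith only [h6, hy', h5]

end real

variable {D : Type} [DivisionRing D] [StarRing D] [FormPos D] [CharZero D] [FiniteDimensional ℚ D]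
variable {N : ℕ}

/-- translate by a multiple of a skew element -/
def tr (z θ : D) (t : ℚ) : D := z + t • θ

theorem tr_re {z θ : D} (hθ : star θ = -θ) (t : ℚ) : tr z θ t + star (tr z θ t) = z + star z := by
  unfold tr
  rw [star_add, star_smul_rat, hθ, smul_neg]; abel

theorem rho_tr (ρ : RealRep D N) (z θ : D) (t : ℚ) : ρ (tr z θ t) = ρ z + (t : ℝ) • ρ θ := by
  unfold tr
  rw [map_add, rho_rat]

theorem sos_sum_ne {a b : D} (ha : a ∈ sos D) (hb : b ∈ sos D) (hb0 : b ≠ 0) : a + b ≠ 0 := by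
  intro h
  apply hb0
  apply sos_antisymm hb
  rw [← eq_neg_of_add_eq_zero_left h]
  exact ha

/-- for large `t`, the inverse of the translate is small -/
theorem large_tr {z θ : D} (hθ : star θ = -θ) (hθ0 : θ ≠ 0) (r : ℚ) :
    ∃ T : ℚ, 0 < T ∧ ∀ t : ℚ, T ≤ t → tr z θ t ≠ 0 → Acc (1 + r • (tr z θ t)⁻¹) := by
  have hθs : star θ * θ ∈ sos D := sos_star_mul θ
  have hθs0 : star θ * θ ≠ 0 := mul_ne_zero (star_ne_zero.mpr hθ0) hθ0
  obtain ⟨q, hq, h1⟩ := arch (a := 2 • (star z * z) - r • (z + star z)) (by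
    rw [star_sub, star_nsmul, star_smul_rat, star_mul, star_star, star_add, star_star,
      add_comm (star z)]) hθs hθs0
  refine ⟨q + 1, by linarith, fun t ht hne => ?_⟩
  set x := tr z θ t with hx
  have ht2 : q < t ^ 2 := by nlinarith only [ht]
  have h2 := sos_smul (sos_star_mul (z + (t / 2) • θ)) (q := 4) (by norm_num)
  have h3 : (t ^ 2 - q) • (star θ * θ) ∈ sos D := sos_smul hθs (by linarith)
  have h30 : (t ^ 2 - q) • (star θ * θ) ≠ 0 := smul_ne_zero (by linarith) hθs0
  have key : (star x * x + r • star x) + star (star x * x + r • star x)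
      = ((4 : ℚ) • (star (z + (t / 2) • θ) * (z + (t / 2) • θ)) +
        ((q : D) * (star θ * θ) - (2 • (star z * z) - r • (z + star z)))) +
        (t ^ 2 - q) • (star θ * θ) := by
    rw [hx]
    unfold tr
    simp only [star_add, star_smul_rat, star_mul, star_star, add_mul, mul_add, smul_mul_assoc,
      mul_smul_comm, smul_add, smul_smul, hθ, neg_mul, mul_neg, smul_neg, neg_neg, star_neg]
    rw [← Rat.smul_def]
    module
  have ha : Acc (star x * x + r • star x) := by
    refine ⟨?_, ?_⟩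
    · rw [key]
      exact (sos D).add_mem ((sos D).add_mem h2 h1) h3
    · rw [key]
      exact sos_sum_ne ((sos D).add_mem h2 h1) h3 h30
  have h4 := ha.congr (p := x⁻¹) (inv_ne_zero hne)
  have h5 : star x⁻¹ * (star x * x + r • star x) * x⁻¹ = 1 + r • x⁻¹ := by
    have h6 : star x⁻¹ * star x = 1 := by rw [← star_mul, mul_inv_cancel₀ hne, star_one]
    rw [mul_add, add_mul, ← mul_assoc, h6, one_mul, mul_inv_cancel₀ hne, mul_smul_comm, h6,
      smul_mul_assoc, one_mul]
  rwa [h5] at h4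

theorem Up.smul' {M : ℚ} {x : D} (h : Up M x) (c : ℚ) : Up (c ^ 2 * M) (c • x) := by
  have := sos_smul h (sq_nonneg c)
  unfold Up
  convert this using 1
  rw [star_smul_rat, smul_mul_smul_comm, smul_sub, smul_smul, pow_two]

/-- choice of the initial shift -/
theorem exists_shift (ρ : RealRep D N) {z θ : D} (hθ : star θ = -θ)
    (hθc : ∀ x, x * θ = θ * x) :
    ∃ R0 : ℚ, R0 ≠ 0 ∧ Acc (1 + (R0 ^ 2) • z⁻¹) ∧ (z + star z) + (2 * R0 ^ 2) • (1 : D) ≠ 0 ∧
      ∀ t : ℝ, (ρ (z + (R0 ^ 2) • (1 : D)) + t • ρ θ).det ≠ 0 := by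
  obtain ⟨M, hM, hup⟩ := exists_up (-z⁻¹)
  obtain ⟨m0, hm0⟩ := exists_nat_gt (2 * M)
  let f : ℕ → ℚ := fun m => 1 / ((m : ℚ) + m0 + 1)
  have hpos : ∀ m : ℕ, (0 : ℚ) < (m : ℚ) + m0 + 1 := fun m => by (clear * -; positivity)
  have hf0 : ∀ m, 0 < f m := fun m => by simp only [f]; exact div_pos one_pos (hpos m)
  have hfinj : ∀ m m', f m ^ 2 = f m' ^ 2 → m = m' := by
    intro m m' h
    have h1 : f m = f m' := (pow_left_inj₀ (hf0 m).le (hf0 m').le two_ne_zero).mp h
    simp only [f] at h1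
    have h2 : (m : ℚ) + m0 + 1 = (m' : ℚ) + m0 + 1 := by
      rw [one_div, one_div, _root_.inv_inj] at h1
      exact h1
    have h3 : (m : ℚ) = m' := by linarith only [h2]
    exact_mod_cast h3
  have hJ : (ρ θ)ᵀ = -ρ θ := by rw [← ρ.star', hθ, map_neg]
  have hAJ : ρ z * ρ θ = ρ θ * ρ z := by rw [← map_mul, ← map_mul, hθc]
  have hB1 := bad_finite hAJ hJ
  have hF1 : {m : ℕ | ((f m ^ 2 : ℚ) : ℝ) ∈ {x : ℝ | ∃ t : ℝ,
      (ρ z + x • (1 : Matrix (Fin N) (Fin N) ℝ) + t • ρ θ).det = 0}}.Finite := by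
    refine hB1.preimage (f := fun m : ℕ => ((f m ^ 2 : ℚ) : ℝ)) ?_
    intro m _ m' _ h
    have h1 : ((f m ^ 2 : ℚ) : ℝ) = ((f m' ^ 2 : ℚ) : ℝ) := h
    exact hfinj m m' (by exact_mod_cast h1)
  have hF2 : {m : ℕ | (z + star z) + (2 * f m ^ 2) • (1 : D) = 0}.Finite := by
    refine Set.Subsingleton.finite ?_
    intro m hm m' hm'
    apply hfinj
    have h1 : (2 * f m ^ 2) • (1 : D) = (2 * f m' ^ 2) • (1 : D) := by
      have e1 : (2 * f m ^ 2) • (1 : D) = -(z + star z) := eq_neg_of_add_eq_zero_right hm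
      have e2 : (2 * f m' ^ 2) • (1 : D) = -(z + star z) := eq_neg_of_add_eq_zero_right hm'
      rw [e1, e2]
    have h2 := smul_left_injective ℚ (one_ne_zero (α := D)) h1
    linarith only [h2]
  obtain ⟨m, hm⟩ := (hF1.union hF2).exists_notMem
  rw [Set.mem_union, not_or] at hm
  obtain ⟨hm1, hm2⟩ := hm
  refine ⟨f m, (hf0 m).ne', ?_, hm2, ?_⟩
  · refine acc_of_near (δ := (f m ^ 2) ^ 2 * M) ?_ ?_
    · have h1 : f m ≤ 1 := by
        simp only [f]
        rw [div_le_one (hpos m)]
        have : (0 : ℚ) ≤ m := by (clear * -; positivity)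
        have : (0 : ℚ) ≤ m0 := by (clear * -; positivity)
        linarith only []
      have h2 : f m * (2 * M) < 1 := by
        simp only [f]
        rw [div_mul_eq_mul_div, one_mul, div_lt_one (hpos m)]
        have : (0 : ℚ) ≤ m := by (clear * -; positivity)
        linarith only [hm0]
      have h3 : (f m ^ 2) ^ 2 ≤ f m := by
        have h4 : (f m ^ 2) ^ 2 = f m * f m ^ 3 := by ring
        rw [h4]
        exact mul_le_of_le_one_right (hf0 m).le (pow_le_one₀ (hf0 m).le h1)
      nlinarith only [h2, hM, h3]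
    · have h1 : (1 : D) - (1 + (f m ^ 2) • z⁻¹) = (f m ^ 2) • (-z⁻¹) := by
        rw [smul_neg]; abel
      rw [h1]
      exact hup.smul' _
  · intro t ht
    apply hm1
    refine ⟨t, ?_⟩
    rw [map_add, rho_rat, map_one] at ht
    exact ht

/-- the path from a given element to the accretive cone -/
theorem exists_path (ρ : RealRep D N) {z θ : D} (hθ : star θ = -θ) (hθ0 : θ ≠ 0)
    (hdet : ∀ t : ℝ, (ρ z + t • ρ θ).det ≠ 0) (q : ℚ) :
    ∃ (r : ℚ) (n : ℕ) (R : ℚ), r ≠ 0 ∧ r ^ 2 * q ≤ 1 ∧ R ≠ 0 ∧ (∀ t : ℚ, tr z θ t ≠ 0) ∧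
      (∀ j < n, Acc ((tr z θ ((j : ℚ) * r ^ 2))⁻¹ * tr z θ (((j + 1 : ℕ) : ℚ) * r ^ 2))) ∧
      Acc (1 + (R ^ 2) • (tr z θ ((n : ℚ) * r ^ 2))⁻¹) ∧
      Acc (tr z θ ((n : ℚ) * r ^ 2) + (R ^ 2) • (1 : D)) := by
  have hN0 : ∀ t : ℚ, tr z θ t ≠ 0 := by
    intro t h
    apply hdet t
    rw [← rho_tr, h, map_zero]
    have : Nonempty (Fin N) := by
      by_contra hN
      rw [not_nonempty_iff] at hN
      have h1 := (ρ.pos 0 (by simp) (fun y hy => absurd (Subsingleton.elim y 0) hy)).2
      exact h1 rfl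
    exact Matrix.det_zero
  -- choice of `R`
  obtain ⟨q1, hq1, h1⟩ := arch (a := -(z + star z)) (by
    rw [star_neg, star_add, star_star, add_comm]) sos_one (one_ne_zero (α := D))
  obtain ⟨R, hR⟩ := exists_nat_gt (q1 + 1)
  have hR1 : (1 : ℚ) < R := by linarith
  have hRq : q1 < (R : ℚ) ^ 2 := by nlinarith only [hR]
  have haR : ∀ t : ℚ, Acc (tr z θ t + ((R : ℚ) ^ 2) • (1 : D)) := by
    intro t
    refine Lo.acc (m := 2 * (R : ℚ) ^ 2 - q1) (by linarith) ?_
    unfold Lo
    convert h1 using 1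
    rw [star_add, star_smul_rat, star_one, mul_one, sub_neg_eq_add, ← tr_re hθ t]
    have : (q1 : D) = q1 • (1 : D) := by rw [Rat.smul_def, mul_one]
    rw [this]
    module
  obtain ⟨T, hT, hlarge⟩ := large_tr (z := z) hθ hθ0 ((R : ℚ) ^ 2)
  obtain ⟨ε0, hε0, hstep⟩ := step_bound (A := ρ z) (J := ρ θ) (T := (T : ℝ))
    (fun t _ => hdet t)
  obtain ⟨m, hm⟩ := exists_nat_gt (max (1 / ε0) (max (q : ℝ) 1))
  have hm1 : (1 : ℝ) < m := lt_of_le_of_lt ((le_max_right _ _).trans (le_max_right _ _)) hm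
  have hmq : (q : ℝ) < m := lt_of_le_of_lt ((le_max_left _ _).trans (le_max_right _ _)) hm
  have hmε : 1 / ε0 < m := lt_of_le_of_lt (le_max_left _ _) hm
  have hm1' : (1 : ℚ) < m := by exact_mod_cast hm1
  have hmq' : q < m := by exact_mod_cast hmq
  have hm0 : (0 : ℚ) < m := by linarith only [hm1']
  have hr2 : ((1 / (m : ℚ)) ^ 2) = 1 / (m : ℚ) ^ 2 := by rw [div_pow, one_pow]
  have hrpos : 0 < (1 / (m : ℚ)) ^ 2 := by (clear * - hm1'; positivity)
  set n := ⌈T * (m : ℚ) ^ 2⌉₊ with hn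
  refine ⟨1 / m, n, R, by (clear * - hm1'; positivity), ?_, by (clear * - hR1; positivity), hN0, ?_, ?_, haR _⟩
  · rw [hr2, div_mul_eq_mul_div, one_mul, div_le_one (by (clear * - hm1'; positivity))]
    nlinarith only [hmq', hm1']
  · intro j hj
    have hjT : (j : ℚ) * (1 / (m : ℚ)) ^ 2 < T := by
      rw [hr2, mul_one_div, div_lt_iff₀ (by (clear * - hm1'; positivity))]
      exact Nat.lt_ceil.mp hj
    rw [acc_iff ρ, map_mul, ← rho_inv ρ (hN0 _), rho_tr, rho_tr]
    have h2 := hstep (((1 / (m : ℚ)) ^ 2 : ℚ) : ℝ) (by exact_mod_cast hrpos.le) (by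
      push_cast
      have h3 : (1 / (m : ℝ)) ^ 2 ≤ 1 / m := by
        rw [pow_two]
        apply mul_le_of_le_one_right (by (clear * - hm1; positivity))
        rw [div_le_one (by linarith only [hm1])]
        exact hm1.le
      have h4 : 1 / (m : ℝ) ≤ ε0 := by
        rw [div_le_iff₀ (by linarith only [hm1])]
        rw [div_lt_iff₀ hε0] at hmε
        nlinarith only [hmε]
      exact h3.trans h4) (((j : ℚ) * (1 / (m : ℚ)) ^ 2 : ℚ) : ℝ) (by
      constructor
      · have : (0 : ℚ) ≤ (j : ℚ) * (1 / (m : ℚ)) ^ 2 := by (clear * - hm1'; positivity)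
        exact_mod_cast this
      · exact_mod_cast hjT.le)
    convert h2 using 1
    have h5 : (((((j + 1 : ℕ) : ℚ) * (1 / (m : ℚ)) ^ 2 : ℚ)) : ℝ)
        = (((j : ℚ) * (1 / (m : ℚ)) ^ 2 : ℚ) : ℝ) + (((1 / (m : ℚ)) ^ 2 : ℚ) : ℝ) := by
      push_cast; ring
    rw [h5, add_smul, ← add_assoc, Matrix.mul_add, Matrix.nonsing_inv_mul _
      (isUnit_iff_ne_zero.mpr (hdet _)), Matrix.mul_smul]
  · refine hlarge _ ?_ (hN0 _)
    rw [hr2, mul_one_div, le_div_iff₀ (by (clear * - hm1'; positivity))]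
    exact Nat.le_ceil _

end Vale.Agent.P011S

end

section
set_option linter.unusedSectionVars false
set_option linter.unusedSimpArgs false

namespace Vale.Agent.P011S

open Module Matrix

variable {D : Type} [DivisionRing D] [StarRing D] [CharZero D] [FiniteDimensional ℚ D] {N : ℕ}

theorem rot_one (ρ : RealRep D N) {θ : D} (hθ : ∀ x, x * θ = θ * x) (hθs : star θ = -θ)
    (hθ0 : θ ≠ 0) : ∀ g : D, g ≠ 0 → ∃ v : D, star v * v = 1 ∧ Acc (star v * g) := by
  intro g hg
  obtain ⟨v, -, hv, hv'⟩ := exists_rotate ρ ⊤ (fun _ _ => trivial) hθ hθs hθ0 trivial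
    (g := g) trivial hg
  exact ⟨v, hv, hv'⟩

theorem rot_comm (ρ : RealRep D N) {θ : D} (hθ : ∀ x, x * θ = θ * x) (hθs : star θ = -θ)
    (hθ0 : θ ≠ 0) : ∀ s : D, s ≠ 0 → star s = s →
      ∃ v : D, star v * v = 1 ∧ v * s = s * v ∧ Acc (star v * s) := by
  intro s hs0 hs
  have h1 : ∀ x ∈ Subalgebra.centralizer ℚ {s}, star x ∈ Subalgebra.centralizer ℚ {s} := by
    intro x hx
    rw [Subalgebra.mem_centralizer_iff] at hx ⊢
    intro y hy
    rw [Set.mem_singleton_iff.mp hy]
    have := congrArg star (hx s rfl)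
    rw [star_mul, star_mul, hs] at this
    exact this.symm
  have h2 : θ ∈ Subalgebra.centralizer ℚ {s} := by
    rw [Subalgebra.mem_centralizer_iff]
    intro y _
    exact hθ y
  have h3 : s ∈ Subalgebra.centralizer ℚ {s} := by
    rw [Subalgebra.mem_centralizer_iff]
    intro y hy
    rw [Set.mem_singleton_iff.mp hy]
  obtain ⟨v, hvC, hv, hv'⟩ := exists_rotate ρ _ h1 hθ hθs hθ0 h2 h3 hs0
  exact ⟨v, hv, ((Subalgebra.mem_centralizer_iff ℚ).mp hvC s rfl).symm, hv'⟩

theorem dseg_eq_sg (h : D) (q : ℚ) : dseg h q = sg 1 h q := by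
  unfold dseg sg
  rw [smul_sub, sub_smul, one_smul]; abel

theorem rot_chain (ρ : RealRep D N) {θ : D} (hθ : ∀ x, x * θ = θ * x) (hθs : star θ = -θ)
    (hθ0 : θ ≠ 0) : ∀ g h : D, g ≠ 0 → Acc h → ∃ n : ℕ, 0 < n ∧ ∀ i : ℕ, i < n →
      ∃ v : D, star v * v = 1 ∧ Acc (star v * (g * sg 1 h ((i : ℚ) / n))) ∧
        Acc (star v * (g * sg 1 h (((i + 1 : ℕ) : ℚ) / n))) ∧
        Acc ((sg 1 h ((i : ℚ) / n))⁻¹ * sg 1 h (((i + 1 : ℕ) : ℚ) / n)) := by
  intro g h hg hh
  obtain ⟨n, hn, H⟩ := exists_chain ρ hθ hθs hθ0 hg hh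
  refine ⟨n, hn, fun i hi => ?_⟩
  obtain ⟨v, hv, h1, h2, h3⟩ := H i hi
  rw [dseg_eq_sg] at h1 h2
  rw [dseg_eq_sg, dseg_eq_sg] at h3
  exact ⟨v, hv, h1, h2, h3⟩

end Vale.Agent.P011S

end

section
/-!
Classes of all quasi-reflections of an anisotropic form with room.
-/

set_option linter.unusedSectionVars false
set_option linter.unusedSimpArgs false

open Matrix

namespace Vale.Agent.P011S

variable {D : Type} [DivisionRing D] [StarRing D] [FormPos D] [CharZero D] [FiniteDimensional ℚ D]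
variable {μ : Type} [Fintype μ] [DecidableEq μ] {N : ℕ}

section setup

variable {H : Matrix μ μ D} (hH : An H) {R : ℕ} (hR : Room H R)
  (h2 : 2 ≤ R) {c c' : D} (hc : Good c c')
  (hmul : ∀ g h : D, g ≠ 0 → h ≠ 0 → FF hH (g * h) = FF hH g * FF hH h)

include hR h2 hc hmul

theorem FF_one : FF hH (1 : D) = 1 := by
  have h1 : Acc (1 : D) := ⟨by simpa only [star_one] using (sos D).add_mem sos_one sos_one, by
    rw [star_one]; norm_num⟩
  rw [FF_acc hH hR h2 hc h1, mul_inv_cancel]

theorem FF_inv {g : D} (hg : g ≠ 0) : FF hH g⁻¹ = (FF hH g)⁻¹ := by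
  have := hmul g g⁻¹ hg (inv_ne_zero hg)
  rw [mul_inv_cancel₀ hg, FF_one hH hR h2 hc hmul] at this
  exact eq_inv_of_mul_eq_one_right this.symm

/-- linking two parameters -/
theorem link {z w : D} (hz : z ≠ 0) (hzw : Acc (z⁻¹ * w)) (ha0 : z + star z ≠ 0)
    (hx : Rp H (z + star z)) {ρ : ℚ} (hρ : ρ ≠ 0)
    (hcond : 2 - star (ρ⁻¹ • (z - w) + ρ • (1 : D)) * (z + star z)⁻¹ *
      (ρ⁻¹ • (z - w) + ρ • (1 : D)) ∈ sos D) :
    fd hH z * (FF hH z)⁻¹ = fd hH w * (FF hH w)⁻¹ ∧ Rp H (w + star w) := by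
  have hw : w ≠ 0 := by
    rintro rfl
    rw [mul_zero] at hzw
    exact hzw.ne rfl
  obtain ⟨h1, h3⟩ := fd_rel hH hR h2 hz hw ha0 hx hρ hcond
  refine ⟨?_, h3⟩
  have h4 : fd hH (z⁻¹ * w) = fd hH 1 * (FF hH z)⁻¹ * FF hH w := by
    have h5 := FF_acc hH hR h2 hc hzw
    rw [hmul _ _ (inv_ne_zero hz) hw, FF_inv hH hR h2 hc hmul hz] at h5
    have h6 : fd hH (z⁻¹ * w) = fd hH (z⁻¹ * w) * (fd hH 1)⁻¹ * fd hH 1 := by
      rw [inv_mul_cancel_right]
    rw [h6, ← h5, mul_comm _ (fd hH 1), mul_assoc]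
  rw [h4] at h1
  have h7 : fd hH w = fd hH z * (FF hH z)⁻¹ * FF hH w := by
    have h8 : fd hH z * (fd hH 1 * (FF hH z)⁻¹ * FF hH w)
        = fd hH 1 * (fd hH z * (FF hH z)⁻¹ * FF hH w) := by
      simp only [mul_assoc, mul_left_comm]
    rw [h8] at h1
    exact (mul_left_cancel h1).symm
  rw [h7, mul_inv_cancel_right]

/-- the real jump -/
theorem jump {z : D} (hz : z ≠ 0) (ha0 : z + star z ≠ 0)
    (hx : Rp H (z + star z)) {r : ℚ} (hr : r ≠ 0) (hacc : Acc (1 + (r ^ 2) • z⁻¹)) :
    fd hH z * (FF hH z)⁻¹ = fd hH (z + (r ^ 2) • (1 : D)) * (FF hH (z + (r ^ 2) • (1 : D)))⁻¹ ∧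
      Rp H ((z + (r ^ 2) • (1 : D)) + star (z + (r ^ 2) • (1 : D))) := by
  refine link hH hR h2 hc hmul hz ?_ ha0 hx hr ?_
  · rw [mul_add, inv_mul_cancel₀ hz, mul_smul_comm, mul_one]
    exact hacc
  · have : r⁻¹ • (z - (z + (r ^ 2) • (1 : D))) + r • (1 : D) = 0 := by
      rw [sub_add_cancel_left, smul_neg, smul_smul]
      have : r⁻¹ * r ^ 2 = r := by field_simp
      rw [this]; abel
    rw [this]
    simpa only [star_zero, zero_mul, mul_zero, sub_zero] using sos_two (D := D)

/-- the skew step -/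
theorem skew_step {z θ : D} (hθ : star θ = -θ)
    (hz : z ≠ 0) (ha0 : z + star z ≠ 0) (hx : Rp H (z + star z)) {r q : ℚ} (hr : r ≠ 0)
    (hq : (q : D) - (1 + θ) * (z + star z)⁻¹ * (1 - θ) ∈ sos D) (hrq : r ^ 2 * q ≤ 1)
    (hacc : Acc (z⁻¹ * (z + (r ^ 2) • θ))) :
    fd hH z * (FF hH z)⁻¹ = fd hH (z + (r ^ 2) • θ) * (FF hH (z + (r ^ 2) • θ))⁻¹ ∧
      Rp H ((z + (r ^ 2) • θ) + star (z + (r ^ 2) • θ)) := by
  refine link hH hR h2 hc hmul hz hacc ha0 hx hr ?_
  have e : r⁻¹ • (z - (z + (r ^ 2) • θ)) + r • (1 : D) = r • (1 - θ) := by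
    rw [sub_add_cancel_left, smul_neg, smul_smul]
    have : r⁻¹ * r ^ 2 = r := by field_simp
    rw [this, smul_sub]; abel
  have e' : star (r • (1 - θ)) = r • (1 + θ) := by
    rw [star_smul_rat, star_sub, star_one, hθ, sub_neg_eq_add]
  rw [e, e', smul_mul_assoc, smul_mul_assoc, mul_smul_comm, smul_smul]
  have h3 := (sos D).add_mem (sos_smul hq (q := r ^ 2) (by (clear * - hr; positivity)))
    (sos_smul (sos_one (D := D)) (q := 2 - r ^ 2 * q) (by linarith only [hrq]))
  convert h3 using 1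
  have h4 : (q : D) = q • (1 : D) := by rw [Rat.smul_def, mul_one]
  have h5 : (2 : D) = (2 : ℚ) • (1 : D) := by rw [Rat.smul_def]; norm_num
  rw [h4, h5, ← pow_two]
  module

/-- **the class of every quasi-reflection** -/
theorem fd_eq_FF (ρ : RealRep D N) {θ : D} (hθ : star θ = -θ) (hθ0 : θ ≠ 0)
    (hθc : ∀ x, x * θ = θ * x) {z : D} (hz : z ≠ 0) (ha0 : z + star z ≠ 0)
    (hx : Rp H (z + star z)) : fd hH z = fd hH 1 * FF hH z := by
  obtain ⟨R0, hR0, hacc0, hne0, hdet⟩ := exists_shift ρ (z := z) hθ hθc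
  obtain ⟨j1, x1⟩ := jump hH hR h2 hc hmul hz ha0 hx hR0 hacc0
  obtain ⟨z', hz'⟩ : ∃ z' : D, z' = z + (R0 ^ 2) • (1 : D) := ⟨_, rfl⟩
  rw [← hz'] at j1 x1 hdet
  have hre : z' + star z' = (z + star z) + (2 * R0 ^ 2) • (1 : D) := by
    rw [hz', star_add, star_smul_rat, star_one]; module
  have ha0' : z' + star z' ≠ 0 := by rw [hre]; exact hne0
  obtain ⟨q, hq0, hq⟩ := arch (a := (1 + θ) * (z' + star z')⁻¹ * (1 - θ)) (by
    simp only [star_mul, star_add, star_sub, star_one, hθ, star_inv₀, star_star, mul_assoc,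
      sub_neg_eq_add, add_comm (star z') z', ← sub_eq_add_neg]) sos_one (one_ne_zero (α := D))
  rw [mul_one] at hq
  obtain ⟨r, n, R', hr, hrq, hR', hN0, hsteps, hacc1, hacc2⟩ := exists_path ρ (z := z') hθ hθ0 hdet q
  have key : ∀ j : ℕ, j ≤ n → fd hH z' * (FF hH z')⁻¹ =
      fd hH (tr z' θ ((j : ℚ) * r ^ 2)) * (FF hH (tr z' θ ((j : ℚ) * r ^ 2)))⁻¹ ∧
      Rp H (tr z' θ ((j : ℚ) * r ^ 2) + star (tr z' θ ((j : ℚ) * r ^ 2))) := by
    intro j
    induction j with
    | zero =>
      intro _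
      have : tr z' θ (((0 : ℕ) : ℚ) * r ^ 2) = z' := by simp [tr]
      rw [this]
      exact ⟨rfl, x1⟩
    | succ j ih =>
      intro hj
      obtain ⟨ih1, ih2⟩ := ih (by omega)
      have e1 : tr z' θ (((j + 1 : ℕ) : ℚ) * r ^ 2) =
          tr z' θ ((j : ℚ) * r ^ 2) + (r ^ 2) • θ := by
        unfold tr
        push_cast
        module
      have h3 := hsteps j (by omega)
      rw [e1] at h3 ⊢
      have h4 := tr_re (z := z') hθ ((j : ℚ) * r ^ 2)
      obtain ⟨s1, s2⟩ := skew_step hH hR h2 hc hmul hθ (hN0 _) (by rw [h4]; exact ha0')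
        ih2 hr (by rw [h4]; exact hq) hrq h3
      exact ⟨ih1.trans s1, s2⟩
  obtain ⟨k1, k2⟩ := key n le_rfl
  have h4 := tr_re (z := z') hθ ((n : ℚ) * r ^ 2)
  obtain ⟨l1, -⟩ := jump hH hR h2 hc hmul (hN0 _) (by rw [h4]; exact ha0') k2 hR' hacc1
  have h5 : fd hH z * (FF hH z)⁻¹ = fd hH 1 := by
    rw [j1, k1, l1, FF_acc hH hR h2 hc hacc2, _root_.mul_inv_rev, inv_inv,
      mul_comm (fd hH 1), mul_inv_cancel_left]
  rw [← h5, inv_mul_cancel_right]

end setup

end Vale.Agent.P011S

end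
end

section

namespace Vale.Agent.P011S

/-- The group of the invertible elements of `D` whose reduced norm is fixed by the involution. -/
def SigmaP {K D F : Type} [Field K] [DivisionRing D] [StarRing D] [Algebra K D] [Field F]
    [Algebra K F] {p : ℕ} (f : D →ₐ[K] Matrix (Fin p) (Fin p) F) : Subgroup Dˣ where
  carrier := {Z | (f (star (Z : D))).det = (f (Z : D)).det}
  mul_mem' := by
    intro a b ha hb
    simp only [Set.mem_ofPred_eq] at *
    rw [Units.val_mul, star_mul, map_mul, map_mul, Matrix.det_mul, Matrix.det_mul, ha, hb,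
      mul_comm]
  one_mem' := by simp
  inv_mem' := by
    intro a ha
    simp only [Set.mem_ofPred_eq] at *
    have key : ∀ x y : D, x * y = 1 → (f x).det * (f y).det = 1 := by
      intro x y h
      rw [← Matrix.det_mul, ← map_mul, h, map_one, Matrix.det_one]
    have h1 := key a (↑a⁻¹ : D) (Units.mul_inv a)
    have h2 := key (star (↑a⁻¹ : D)) (star (a : D)) (by rw [← star_mul, Units.mul_inv, star_one])
    rw [ha] at h2
    have h0 : (f (a : D)).det ≠ 0 := left_ne_zero_of_mul_eq_one h1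
    apply mul_left_cancel₀ h0
    rw [h1, mul_comm, h2]

theorem mem_SigmaP {K D F : Type} [Field K] [DivisionRing D] [StarRing D] [Algebra K D] [Field F]
    [Algebra K F] {p : ℕ} (f : D →ₐ[K] Matrix (Fin p) (Fin p) F) (Z : Dˣ) :
    Z ∈ SigmaP f ↔ (f (star (Z : D))).det = (f (Z : D)).det := Iff.rfl

theorem isQuotientOfSUK_of {K D F : Type} [Field K] [DivisionRing D] [StarRing D] [Algebra K D]
    [Field F] [Algebra K F] {p : ℕ} (f : D →ₐ[K] Matrix (Fin p) (Fin p) F) (G : Type) [Group G]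
    (h : ∃ π : SigmaP f →* G, Function.Surjective π ∧
      ∀ s : SigmaP f, star ((s : Dˣ) : D) = ((s : Dˣ) : D) → π s = 1) :
    IsQuotientOfSUK f G := by
  classical
  obtain ⟨π, hs, hk⟩ := h
  obtain ⟨τ, hτ⟩ : ∃ τ : D → G, ∀ (Z : D) (h0 : Z ≠ 0) (h1 : (f (star Z)).det = (f Z).det),
      τ Z = π ⟨Units.mk0 Z h0, h1⟩ := by
    refine ⟨fun Z => if hZ : Z ≠ 0 ∧ (f (star Z)).det = (f Z).det then
      π ⟨Units.mk0 Z hZ.1, hZ.2⟩ else 1, ?_⟩
    intro Z h0 h1
    have h2 : Z ≠ 0 ∧ (f (star Z)).det = (f Z).det := ⟨h0, h1⟩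
    change (if hZ : Z ≠ 0 ∧ (f (star Z)).det = (f Z).det then
      π ⟨Units.mk0 Z hZ.1, hZ.2⟩ else 1) = _
    rw [dif_pos h2]
  refine ⟨τ, ?_, ?_, ?_⟩
  · rintro Z ⟨hZ0, hZ⟩ W ⟨hW0, hW⟩
    rw [hτ (Z * W) (mul_ne_zero hZ0 hW0) (by
      rw [star_mul, map_mul, map_mul, Matrix.det_mul, Matrix.det_mul, hZ, hW, mul_comm]),
      hτ Z hZ0 hZ, hτ W hW0 hW]
    have e : (⟨Units.mk0 (Z * W) (mul_ne_zero hZ0 hW0), by
        rw [mem_SigmaP, Units.val_mk0, star_mul, map_mul, map_mul, Matrix.det_mul, Matrix.det_mul,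
          hZ, hW, mul_comm]⟩ : SigmaP f) =
        (⟨Units.mk0 Z hZ0, hZ⟩ : SigmaP f) * (⟨Units.mk0 W hW0, hW⟩ : SigmaP f) :=
      Subtype.ext (Units.ext rfl)
    rw [e, map_mul]
  · intro g
    obtain ⟨Z, rfl⟩ := hs g
    refine ⟨((Z : Dˣ) : D), ⟨Units.ne_zero _, Z.2⟩, ?_⟩
    rw [hτ _ (Units.ne_zero _) Z.2]
    exact congrArg π (Subtype.ext (Units.ext rfl))
  · intro s hs0 hss
    rw [hτ s hs0 (by rw [hss])]
    exact hk _ hss

end Vale.Agent.P011S
end
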