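import Vale.Agent.P011.MathlibUsed
import Vale.Agent.P011.Bdl.B1
import Vale.Agent.P011S.Defs4

set_option linter.all false

section

section
/-!
The base change of a central division algebra is simple, and its center is the base field.
-/

set_option linter.unusedSectionVars false
set_option linter.unusedSimpArgs false

open Module TensorProduct

namespace Vale.Agent.P011S

section tensor

variable {K D E : Type} [Field K] [DivisionRing D] [Algebra K D] [Field E] [Algebra K E]

open Classical in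
/-- coordinates of the base change -/
noncomputable def crd {ι : Type} (b : Basis ι K E) : E ⊗[K] D ≃ₗ[K] ι →₀ D :=
  TensorProduct.equivFinsuppOfBasisLeft b

theorem crd_tmul {ι : Type} (b : Basis ι K E) (e : E) (d : D) (i : ι) :
    crd b (e ⊗ₜ d) i = b.repr e i • d := by
  classical
  exact TensorProduct.equivFinsuppOfBasisLeft_apply_tmul_apply b e d i

theorem crd_symm {ι : Type} (b : Basis ι K E) (v : ι →₀ D) :
    (crd b).symm v = v.sum fun i n => b i ⊗ₜ n := by
  classical
  exact TensorProduct.equivFinsuppOfBasisLeft_symm_apply b v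

theorem crd_mul_right {ι : Type} (b : Basis ι K E) (x : E ⊗[K] D) (d : D) (i : ι) :
    crd b (x * (1 ⊗ₜ d)) i = crd b x i * d := by
  induction x using TensorProduct.induction_on with
  | zero => simp
  | tmul e c =>
    rw [Algebra.TensorProduct.tmul_mul_tmul, mul_one, crd_tmul, crd_tmul, smul_mul_assoc]
  | add x y hx hy => rw [add_mul, map_add, map_add, Finsupp.add_apply, Finsupp.add_apply, hx, hy,
      add_mul]

theorem crd_mul_left {ι : Type} (b : Basis ι K E) (x : E ⊗[K] D) (d : D) (i : ι) :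
    crd b ((1 ⊗ₜ d) * x) i = d * crd b x i := by
  induction x using TensorProduct.induction_on with
  | zero => simp
  | tmul e c =>
    rw [Algebra.TensorProduct.tmul_mul_tmul, one_mul, crd_tmul, crd_tmul, mul_smul_comm]
  | add x y hx hy => rw [mul_add, map_add, map_add, Finsupp.add_apply, Finsupp.add_apply, hx, hy,
      mul_add]

/-- an element whose coordinates are central comes from `E` -/
theorem mem_of_crd {ι : Type} (b : Basis ι K E) (x : E ⊗[K] D)
    (h : ∀ i, crd b x i ∈ Set.range (algebraMap K D)) : ∃ e : E, x = e ⊗ₜ 1 := by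
  choose k hk using h
  refine ⟨(crd b x).sum fun i _ => k i • b i, ?_⟩
  have h1 : x = (crd b x).sum fun i n => b i ⊗ₜ n := by
    rw [← crd_symm, LinearEquiv.symm_apply_apply]
  refine h1.trans ?_
  rw [Finsupp.sum, Finsupp.sum, TensorProduct.sum_tmul]
  refine Finset.sum_congr rfl fun i _ => ?_
  rw [← hk i, TensorProduct.smul_tmul, Algebra.algebraMap_eq_smul_one]

variable [Algebra.IsCentral K D]

theorem mem_range_of_comm {d : D} (h : ∀ c : D, c * d = d * c) :
    d ∈ Set.range (algebraMap K D) := by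
  have h1 : d ∈ Subalgebra.center K D := by
    rw [Subalgebra.mem_center_iff]
    intro c
    exact h c
  rw [Algebra.IsCentral.center_eq_bot, Algebra.mem_bot] at h1
  exact h1

/-- the center of the base change -/
theorem center_tensor {x : E ⊗[K] D} (h : ∀ d : D, (1 ⊗ₜ d) * x = x * (1 ⊗ₜ d)) :
    ∃ e : E, x = e ⊗ₜ 1 := by
  let b := Basis.ofVectorSpace K E
  apply mem_of_crd b
  intro i
  apply mem_range_of_comm
  intro c
  rw [← crd_mul_left, h, crd_mul_right]

/-- the base change is simple -/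
theorem simple_tensor : IsSimpleRing (E ⊗[K] D) := by
  classical
  let b := Basis.ofVectorSpace K E
  have key : ∀ (n : ℕ) (I : TwoSidedIdeal (E ⊗[K] D)) (x : E ⊗[K] D), x ∈ I → x ≠ 0 →
      (crd b x).support.card = n → I = ⊤ := by
    intro n
    induction n using Nat.strong_induction_on with
    | _ n ih =>
      intro I x hx hx0 hn
      have hv0 : crd b x ≠ 0 := by
        intro h0
        exact hx0 ((crd b).map_eq_zero_iff.mp h0)
      obtain ⟨i0, hi0⟩ : ∃ i, crd b x i ≠ 0 := by
        by_contra hcon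
        push Not at hcon
        exact hv0 (Finsupp.ext hcon)
      obtain ⟨y, hy⟩ : ∃ y, y = x * (1 ⊗ₜ (crd b x i0)⁻¹) := ⟨_, rfl⟩
      have hyI : y ∈ I := by rw [hy]; exact I.mul_mem_right _ _ hx
      have hyc : ∀ i, crd b y i = crd b x i * (crd b x i0)⁻¹ := fun i => by
        rw [hy, crd_mul_right]
      have hy1 : crd b y i0 = 1 := by rw [hyc, mul_inv_cancel₀ hi0]
      have hysup : (crd b y).support ⊆ (crd b x).support := by
        intro i hi
        rw [Finsupp.mem_support_iff] at hi ⊢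
        intro h0
        apply hi
        rw [hyc, h0, zero_mul]
      by_cases hcomm : ∀ d : D, (1 ⊗ₜ d) * y = y * (1 ⊗ₜ d)
      · obtain ⟨e, he⟩ := center_tensor hcomm
        have he0 : e ≠ 0 := by
          rintro rfl
          rw [TensorProduct.zero_tmul] at he
          rw [he, map_zero, Finsupp.zero_apply] at hy1
          exact zero_ne_one hy1
        rw [← TwoSidedIdeal.one_mem_iff]
        have h1 : (1 : E ⊗[K] D) = (e⁻¹ ⊗ₜ 1) * y := by
          rw [he, Algebra.TensorProduct.tmul_mul_tmul, inv_mul_cancel₀ he0, mul_one,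
            Algebra.TensorProduct.one_def]
        rw [h1]
        exact I.mul_mem_left _ _ hyI
      · push Not at hcomm
        obtain ⟨d, hd⟩ := hcomm
        obtain ⟨z, hz⟩ : ∃ z, z = (1 ⊗ₜ d) * y - y * (1 ⊗ₜ d) := ⟨_, rfl⟩
        have hzI : z ∈ I := by
          rw [hz]
          exact I.sub_mem (I.mul_mem_left _ _ hyI) (I.mul_mem_right _ _ hyI)
        have hz0 : z ≠ 0 := by rw [hz]; exact sub_ne_zero.mpr hd
        have hzc : ∀ i, crd b z i = d * crd b y i - crd b y i * d := by
          intro i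
          rw [hz, map_sub, Finsupp.sub_apply, crd_mul_left, crd_mul_right]
        refine ih (crd b z).support.card ?_ I z hzI hz0 rfl
        rw [← hn]
        apply Finset.card_lt_card
        rw [Finset.ssubset_iff_of_subset]
        · refine ⟨i0, by rw [Finsupp.mem_support_iff]; exact hi0, ?_⟩
          rw [Finsupp.mem_support_iff, hzc, hy1, mul_one, one_mul, sub_self]
          simp
        · intro i hi
          rw [Finsupp.mem_support_iff, hzc] at hi
          apply hysup
          rw [Finsupp.mem_support_iff]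
          intro h0
          apply hi
          rw [h0, mul_zero, zero_mul, sub_self]
  have hnt : Nontrivial (E ⊗[K] D) := by
    refine ⟨⟨1, 0, ?_⟩⟩
    intro h10
    obtain ⟨i, hi⟩ : ∃ i, b.repr (1 : E) i ≠ 0 := by
      by_contra hcon
      push Not at hcon
      have h2 : b.repr (1 : E) = 0 := Finsupp.ext hcon
      exact one_ne_zero (b.repr.map_eq_zero_iff.mp h2)
    have h1 := congrArg (fun x => crd b x i) h10
    simp only [Algebra.TensorProduct.one_def, crd_tmul, map_zero, Finsupp.zero_apply,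
      Algebra.smul_def, mul_one, map_eq_zero] at h1
    exact hi h1
  refine ⟨⟨fun I => ?_⟩⟩
  by_cases hI : I = ⊥
  · exact Or.inl hI
  · right
    obtain ⟨x, hx, hx0⟩ : ∃ x ∈ I, x ≠ 0 := by
      by_contra hcon
      push Not at hcon
      apply hI
      rw [eq_bot_iff]
      intro x hx
      rw [hcon x hx]
      exact zero_mem _
    exact key _ I x hx hx0 rfl

end tensor

end Vale.Agent.P011S

end

section
/-!
Linear algebra and Galois theory over a finite dimensional division algebra (no involution).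
-/

set_option linter.unusedSectionVars false
set_option linter.unusedSimpArgs false

open Matrix Module Polynomial

namespace Vale.Agent.P011S.SF

theorem mem_range_of_comm {K D : Type} [Field K] [DivisionRing D] [Algebra K D]
    [Algebra.IsCentral K D] {w : D} (h : ∀ a : D, a * w = w * a) :
    ∃ k : K, algebraMap K D k = w := by
  have h1 : w ∈ Subalgebra.center K D := Subalgebra.mem_center_iff.mpr h
  have h2 := Algebra.IsCentral.out h1
  rw [Algebra.mem_bot] at h2
  exact h2

theorem isUnit_of_left_inj {K D ν : Type} [Field K] [DivisionRing D] [Algebra K D]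
    [FiniteDimensional K D] [Fintype ν] [DecidableEq ν]
    (x : Matrix ν ν D) (h : ∀ w : Matrix ν ν D, x * w = 0 → w = 0) : IsUnit x := by
  have inj : Function.Injective (LinearMap.mulLeft K x) := by
    rw [injective_iff_map_eq_zero]
    intro w hw
    exact h w hw
  have surj := LinearMap.injective_iff_surjective.mp inj
  obtain ⟨y, hy⟩ := surj 1
  rw [LinearMap.mulLeft_apply] at hy
  have h2 : y * x = 1 := by
    have : x * (y * x - 1) = 0 := by
      rw [Matrix.mul_sub, ← Matrix.mul_assoc, hy]; simp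
    exact sub_eq_zero.mp (h _ this)
  exact ⟨⟨x, y, hy, h2⟩, rfl⟩

theorem tensor_inj {K D : Type} [Field K] [DivisionRing D] [Algebra K D]
    [Algebra.IsCentral K D] {ι : Type} [DecidableEq ι] (e : ι → D) (he : LinearIndependent K e) :
    ∀ (s : Finset ι) (v : ι → D), (∀ d : D, ∑ j ∈ s, e j * d * v j = 0) → ∀ j ∈ s, v j = 0 := by
  intro s
  induction s using Finset.strongInduction with
  | H s ih =>
    intro v hv
    by_contra hcon
    push Not at hcon
    obtain ⟨j0, hj0, hne⟩ := hcon
    let w : ι → D := fun j => v j * (v j0)⁻¹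
    have hw0 : w j0 = 1 := mul_inv_cancel₀ hne
    have hw : ∀ d : D, ∑ j ∈ s, e j * d * w j = 0 := by
      intro d
      have := congrArg (· * (v j0)⁻¹) (hv d)
      simp only [Finset.sum_mul, zero_mul, mul_assoc] at this
      simpa only [w, mul_assoc] using this
    have hcomm : ∀ j ∈ s, ∀ a : D, a * w j = w j * a := by
      intro j hj a
      by_cases hjj : j = j0
      · rw [hjj, hw0]; simp
      · have := ih (s.erase j0) (Finset.erase_ssubset hj0) (fun j => a * w j - w j * a) (by
          intro d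
          have h1 : ∑ j ∈ s, e j * d * (a * w j - w j * a) = 0 := by
            have e1 := hw (d * a)
            have e2 := congrArg (· * a) (hw d)
            simp only [Finset.sum_mul, zero_mul] at e2
            calc ∑ j ∈ s, e j * d * (a * w j - w j * a)
                = ∑ j ∈ s, e j * (d * a) * w j - ∑ j ∈ s, e j * d * w j * a := by
                  rw [← Finset.sum_sub_distrib]
                  refine Finset.sum_congr rfl fun j _ => ?_
                  noncomm_ring
              _ = 0 := by rw [e1, e2, sub_zero]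
          rw [← Finset.add_sum_erase s _ hj0, hw0] at h1
          simpa only [mul_one, one_mul, sub_self, mul_zero, zero_add] using h1) j (Finset.mem_erase.mpr ⟨hjj, hj⟩)
        exact sub_eq_zero.mp this
    have hK : ∀ j, ∃ k : K, j ∈ s → algebraMap K D k = w j := by
      intro j
      by_cases hj : j ∈ s
      · obtain ⟨k, hk⟩ := mem_range_of_comm (K := K) (hcomm j hj)
        exact ⟨k, fun _ => hk⟩
      · exact ⟨0, fun h => absurd h hj⟩
    choose k hk using hK
    have h1 : ∑ j ∈ s, k j • e j = 0 := by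
      rw [← hw 1]
      refine Finset.sum_congr rfl fun j hj => ?_
      rw [mul_one, ← hk j hj, Algebra.smul_def, Algebra.commutes]
    have h2 := (linearIndependent_iff'.mp he) s k h1 j0 hj0
    have h3 := hk j0 hj0
    rw [h2, hw0, map_zero] at h3
    exact zero_ne_one h3


section
variable {K D : Type} [Field K] [DivisionRing D] [Algebra K D] [FiniteDimensional K D]
  [Algebra.IsCentral K D] {n : ℕ} (b : Basis (Fin n) K D)

theorem lmm_col (u : D) (j : Fin n) : ∑ k, Algebra.leftMulMatrix b u k j • b k = u * b j := by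
  refine (Finset.sum_congr rfl fun k _ => ?_).trans (b.sum_repr (u * b j))
  rw [Algebra.leftMulMatrix_eq_repr_mul]

/-- the intertwiner between the scalar matrix and the regular representation -/
noncomputable def PPK : Matrix (Fin n) (Fin n) D := Matrix.of fun i j => b j * b i

theorem PPK_isUnit : IsUnit (PPK b) := by
  apply isUnit_of_left_inj (K := K)
  intro w hw
  ext j k
  apply tensor_inj (K := K) (fun i => b i) b.linearIndependent Finset.univ (fun j => w j k) _ j
    (Finset.mem_univ j)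
  intro d
  have hb : ∀ i, ∑ j, b j * b i * w j k = 0 := by
    intro i
    exact congrFun (congrFun hw i) k
  have hd := b.sum_repr d
  rw [← hd]
  calc ∑ j, b j * (∑ i, b.repr d i • b i) * w j k
      = ∑ j, ∑ i, b.repr d i • (b j * b i * w j k) := by
        refine Finset.sum_congr rfl fun j _ => ?_
        rw [Finset.mul_sum, Finset.sum_mul]
        refine Finset.sum_congr rfl fun i _ => ?_
        rw [mul_smul_comm, smul_mul_assoc]
    _ = ∑ i, b.repr d i • ∑ j, b j * b i * w j k := by
        rw [Finset.sum_comm]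
        refine Finset.sum_congr rfl fun i _ => ?_
        rw [Finset.smul_sum]
    _ = 0 := by simp only [hb, smul_zero, Finset.sum_const_zero]

/-- the regular representation with entries in `D` -/
noncomputable def rhoK (u : D) : Matrix (Fin n) (Fin n) D :=
  (Algebra.leftMulMatrix b u).map (algebraMap K D)

theorem PPK_rho (u : D) : (Matrix.diagonal fun _ => u) * PPK b = PPK b * rhoK b u := by
  ext i j
  rw [Matrix.diagonal_mul, Matrix.mul_apply]
  simp only [PPK, of_apply, rhoK, map_apply]
  calc u * (b j * b i) = (∑ k, Algebra.leftMulMatrix b u k j • b k) * b i := by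
        rw [lmm_col, mul_assoc]
    _ = ∑ k, b k * b i * algebraMap K D (Algebra.leftMulMatrix b u k j) := by
        rw [Finset.sum_mul]
        refine Finset.sum_congr rfl fun k _ => ?_
        rw [smul_mul_assoc, Algebra.smul_def, Algebra.commutes]


end

section

variable {D : Type} [DivisionRing D]
variable {L E : Type} [Field L] [Field E] [Algebra L E] [FiniteDimensional L E]

/-- matrix of multiplication by `y`, with entries moved to `D` -/
noncomputable def RR (j : L →+* D) : E →+* Matrix (Fin (finrank L E)) (Fin (finrank L E)) D :=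
  j.mapMatrix.comp (Algebra.leftMulMatrix (finBasis L E)).toRingHom

/-- coordinate vector of `e`, moved to `D` -/
noncomputable def VV (j : L →+* D) : E →+ (Fin (finrank L E) → D) where
  toFun e := fun i => j ((finBasis L E).repr e i)
  map_zero' := by ext i; simp
  map_add' x y := by ext i; simp

theorem VV_apply (j : L →+* D) (e : E) (i : Fin (finrank L E)) :
    VV j e i = j ((finBasis L E).repr e i) := rfl

theorem RR_apply (j : L →+* D) (y : E) (i k : Fin (finrank L E)) :
    RR j y i k = j (Algebra.leftMulMatrix (finBasis L E) y i k) := rfl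

theorem RR_mulVec_VV (j : L →+* D) (y e : E) : RR j y *ᵥ VV j e = VV j (y * e) := by
  ext i
  rw [VV_apply, ← Algebra.leftMulMatrix_mulVec_repr]
  simp only [mulVec, dotProduct, RR_apply, VV_apply, map_sum, map_mul]

theorem RR_algebraMap (j : L →+* D) (l : L) :
    RR j (algebraMap L E l) = Matrix.diagonal fun _ => j l := by
  ext i k
  rw [RR_apply, Algebra.leftMulMatrix_eq_repr_mul, ← Algebra.smul_def, map_smul,
    Finsupp.smul_apply, Basis.repr_self, smul_eq_mul, map_mul]
  by_cases h : i = k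
  · subst h; simp
  · rw [Matrix.diagonal_apply_ne _ h, Finsupp.single_eq_of_ne h]; simp

theorem VV_basis (j : L →+* D) (k : Fin (finrank L E)) :
    VV j (finBasis L E k) = Pi.single k 1 := by
  ext i
  rw [VV_apply, Basis.repr_self]
  by_cases h : i = k
  · subst h; simp
  · rw [Finsupp.single_eq_of_ne h, Pi.single_eq_of_ne h]; simp

theorem RR_isUnit (j : L →+* D) {y : E} (hy : y ≠ 0) : IsUnit (RR j y) :=
  ⟨⟨RR j y, RR j y⁻¹, by rw [← map_mul, mul_inv_cancel₀ hy, map_one],
    by rw [← map_mul, inv_mul_cancel₀ hy, map_one]⟩, rfl⟩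


/-- the intertwiner attached to `w'` -/
noncomputable def PP (j : L →+* D) (σ : E →+* E) (w' : Fin (finrank L E) → D) :
    Matrix (Fin (finrank L E)) (Fin (finrank L E)) D :=
  Matrix.of fun i k => (RR j (σ (finBasis L E k)) *ᵥ w') i

theorem PP_mulVec_VV (j : L →+* D) (σ : E →+* E) (w' : Fin (finrank L E) → D)
    (hw' : ∀ l : L, RR j (σ (algebraMap L E l)) *ᵥ w' = fun i => w' i * j l) (e : E) :
    PP j σ w' *ᵥ VV j e = RR j (σ e) *ᵥ w' := by
  have h1 : e = ∑ k, (finBasis L E).repr e k • finBasis L E k := ((finBasis L E).sum_repr e).symm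
  have h2 : RR j (σ e) *ᵥ w' = ∑ k, RR j (σ (finBasis L E k)) *ᵥ
      (fun i => w' i * j ((finBasis L E).repr e k)) := by
    conv_lhs => rw [h1]
    rw [map_sum, map_sum, Matrix.sum_mulVec]
    refine Finset.sum_congr rfl fun k _ => ?_
    rw [Algebra.smul_def, map_mul, mul_comm, map_mul, ← Matrix.mulVec_mulVec, hw']
  rw [h2]
  ext i
  rw [Finset.sum_apply]
  simp only [Matrix.mulVec, dotProduct, PP, Matrix.of_apply, VV_apply]
  refine Finset.sum_congr rfl fun k _ => ?_
  rw [Finset.sum_mul]
  refine Finset.sum_congr rfl fun m _ => ?_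
  rw [mul_assoc]

theorem PP_mul_RR (j : L →+* D) (σ : E →+* E) (w' : Fin (finrank L E) → D)
    (hw' : ∀ l : L, RR j (σ (algebraMap L E l)) *ᵥ w' = fun i => w' i * j l) (y : E) :
    PP j σ w' * RR j y = RR j (σ y) * PP j σ w' := by
  have h : ∀ (X Y : Matrix (Fin (finrank L E)) (Fin (finrank L E)) D),
      (∀ k, X *ᵥ VV j (finBasis L E k) = Y *ᵥ VV j (finBasis L E k)) → X = Y := by
    intro X Y h
    ext i k
    have := congrFun (h k) i
    rw [VV_basis] at this
    simpa using this
  apply h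
  intro k
  rw [← Matrix.mulVec_mulVec, ← Matrix.mulVec_mulVec, RR_mulVec_VV, PP_mulVec_VV j σ w' hw',
    PP_mulVec_VV j σ w' hw', Matrix.mulVec_mulVec, map_mul, map_mul]

theorem PP_inj (j : L →+* D) (hC : ∀ a : D, (∀ l, j l * a = a * j l) → ∃ l, j l = a)
    (σ : E →+* E) (w' : Fin (finrank L E) → D)
    (hw' : ∀ l : L, RR j (σ (algebraMap L E l)) *ᵥ w' = fun i => w' i * j l) (h0 : w' ≠ 0)
    (v : Fin (finrank L E) → D) (hv : PP j σ w' *ᵥ v = 0) : v = 0 := by
  classical
  by_contra hne
  have hex : ∃ m : ℕ, ∃ v : Fin (finrank L E) → D, v ≠ 0 ∧ PP j σ w' *ᵥ v = 0 ∧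
      (Finset.univ.filter fun i => v i ≠ 0).card = m := ⟨_, v, hne, hv, rfl⟩
  obtain ⟨v, hv0, hvk, hvm⟩ := Nat.find_spec hex
  have hmin : ∀ u : Fin (finrank L E) → D, PP j σ w' *ᵥ u = 0 →
      (Finset.univ.filter fun i => u i ≠ 0).card < Nat.find hex → u = 0 := by
    intro u hu hlt
    by_contra hu0
    exact Nat.find_min hex hlt ⟨u, hu0, hu, rfl⟩
  obtain ⟨i0, hi0⟩ : ∃ i, v i ≠ 0 := by
    by_contra h
    push Not at h
    exact hv0 (funext h)
  have hright : ∀ (u : Fin (finrank L E) → D) (d : D), PP j σ w' *ᵥ u = 0 →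
      PP j σ w' *ᵥ (fun i => u i * d) = 0 := by
    intro u d hu
    ext i
    have := congrFun hu i
    simp only [Matrix.mulVec, dotProduct, Pi.zero_apply] at this ⊢
    rw [show (∑ k, PP j σ w' i k * (u k * d)) = (∑ k, PP j σ w' i k * u k) * d by
      rw [Finset.sum_mul]; exact Finset.sum_congr rfl fun k _ => (mul_assoc _ _ _).symm]
    rw [this, zero_mul]
  let u : Fin (finrank L E) → D := fun i => v i * (v i0)⁻¹
  have hu1 : u i0 = 1 := mul_inv_cancel₀ hi0
  have huk : PP j σ w' *ᵥ u = 0 := hright v _ hvk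
  have husupp : ∀ i, u i ≠ 0 ↔ v i ≠ 0 := by
    intro i
    simp only [u]
    constructor
    · intro h h'
      exact h (by rw [h', zero_mul])
    · intro h
      exact mul_ne_zero h (inv_ne_zero hi0)
  have hucomm : ∀ (l : L) i, j l * u i = u i * j l := by
    intro l
    have h1 : PP j σ w' *ᵥ (fun i => j l * u i - u i * j l) = 0 := by
      have h2 : PP j σ w' *ᵥ (fun i => j l * u i) = 0 := by
        have h3 : (fun i => j l * u i) = RR j (algebraMap L E l) *ᵥ u := by
          rw [RR_algebraMap]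
          ext i
          rw [Matrix.mulVec_diagonal]
        rw [h3, Matrix.mulVec_mulVec, PP_mul_RR j σ w' hw', ← Matrix.mulVec_mulVec, huk,
          Matrix.mulVec_zero]
      have h4 := hright u (j l) huk
      have h5 : (fun i => j l * u i - u i * j l) = (fun i => j l * u i) - (fun i => u i * j l) := rfl
      rw [h5, Matrix.mulVec_sub, h2, h4, sub_zero]
    have h6 := hmin _ h1 (by
      rw [← hvm]
      apply Finset.card_lt_card
      rw [Finset.ssubset_iff_of_subset]
      · refine ⟨i0, ?_, ?_⟩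
        · simpa only [ne_eq, Finset.mem_filter, Finset.mem_univ, true_and] using hi0
        · simp only [ne_eq, Finset.mem_filter, Finset.mem_univ, hu1, mul_one, one_mul, sub_self, not_true_eq_false, and_false, not_false_eq_true]
      · intro i hi
        simp only [Finset.mem_filter, Finset.mem_univ, true_and] at hi ⊢
        intro hvi
        apply hi
        have : u i = 0 := by
          by_contra hui
          exact (husupp i).mp hui hvi
        rw [this]; simp)
    intro i
    have := congrFun h6 i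
    exact sub_eq_zero.mp this
  choose a ha using fun i => hC (u i) (fun l => hucomm l i)
  let e : E := ∑ k, a k • finBasis L E k
  have hue : u = VV j e := by
    ext i
    rw [VV_apply, ← ha i]
    congr 1
    simp only [e, map_sum, map_smul, Finsupp.coe_finsetSum, Finset.sum_apply,
      Finsupp.smul_apply, Basis.repr_self, smul_eq_mul]
    rw [Finset.sum_eq_single i]
    · simp
    · intro b _ hb
      rw [Finsupp.single_eq_of_ne hb.symm, mul_zero]
    · intro h; exact absurd (Finset.mem_univ _) h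
  have he : e ≠ 0 := by
    intro h
    rw [h, map_zero] at hue
    rw [hue] at hu1
    exact zero_ne_one hu1
  rw [hue, PP_mulVec_VV j σ w' hw'] at huk
  apply h0
  have hσe : σ e ≠ 0 := fun h => he (by simpa using h)
  have : RR j (σ e)⁻¹ *ᵥ (RR j (σ e) *ᵥ w') = w' := by
    rw [Matrix.mulVec_mulVec, ← map_mul, inv_mul_cancel₀ hσe, map_one, Matrix.one_mulVec]
  rw [← this, huk, Matrix.mulVec_zero]


end

/-- Artin, Whaples: the maps `d ↦ a * d * w` satisfy no nontrivial relation when the right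
factors are linearly independent over the centre. -/
theorem artin_whaples {K D ι : Type} [Field K] [DivisionRing D] [Algebra K D]
    [Algebra.IsCentral K D] [Fintype ι] (w : ι → D) (hw : LinearIndependent K w) (a : ι → D)
    (h : ∀ d : D, ∑ i, a i * d * w i = 0) : a = 0 := by
  classical
  by_contra hne
  have hex : ∃ m : ℕ, ∃ v : ι → D, v ≠ 0 ∧ (∀ d : D, ∑ i, v i * d * w i = 0) ∧
      (Finset.univ.filter fun i => v i ≠ 0).card = m := ⟨_, a, hne, h, rfl⟩
  obtain ⟨v, hv0, hvk, hvm⟩ := Nat.find_spec hex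
  have hmin : ∀ u : ι → D, (∀ d : D, ∑ i, u i * d * w i = 0) →
      (Finset.univ.filter fun i => u i ≠ 0).card < Nat.find hex → u = 0 := by
    intro u hu hlt
    by_contra hu0
    exact Nat.find_min hex hlt ⟨u, hu0, hu, rfl⟩
  obtain ⟨i0, hi0⟩ : ∃ i, v i ≠ 0 := by
    by_contra h
    push Not at h
    exact hv0 (funext h)
  let u : ι → D := fun i => (v i0)⁻¹ * v i
  have hu1 : u i0 = 1 := inv_mul_cancel₀ hi0
  have huk : ∀ d : D, ∑ i, u i * d * w i = 0 := by
    intro d
    have : ∑ i, u i * d * w i = (v i0)⁻¹ * ∑ i, v i * d * w i := by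
      rw [Finset.mul_sum]
      exact Finset.sum_congr rfl fun i _ => by simp only [u, mul_assoc]
    rw [this, hvk, mul_zero]
  have hcomm : ∀ b i, u i * b = b * u i := by
    intro b
    have h1 := hmin (fun i => u i * b - b * u i) (by
      intro d
      have h2 := huk (b * d)
      have h3 : b * ∑ i, u i * d * w i = 0 := by rw [huk, mul_zero]
      rw [Finset.mul_sum] at h3
      rw [← sub_eq_zero] at h2
      calc ∑ i, (u i * b - b * u i) * d * w i
          = ∑ i, u i * (b * d) * w i - ∑ i, b * (u i * d * w i) := by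
            rw [← Finset.sum_sub_distrib]
            exact Finset.sum_congr rfl fun i _ => by
              simp only [sub_mul, mul_assoc]
        _ = 0 := by rw [h3]; exact h2) (by
      rw [← hvm]
      apply Finset.card_lt_card
      rw [Finset.ssubset_iff_of_subset]
      · refine ⟨i0, ?_, ?_⟩
        · simpa only [ne_eq, Finset.mem_filter, Finset.mem_univ, true_and] using hi0
        · simp only [ne_eq, Finset.mem_filter, Finset.mem_univ, hu1, one_mul, mul_one, sub_self, not_true_eq_false, and_false, not_false_eq_true]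
      · intro i hi
        simp only [Finset.mem_filter, Finset.mem_univ, true_and] at hi ⊢
        intro hvi
        apply hi
        simp only [hvi, mul_zero, zero_mul, sub_self, u])
    intro i
    exact sub_eq_zero.mp (congrFun h1 i)
  have hK : ∀ i, ∃ k : K, algebraMap K D k = u i := by
    intro i
    have h1 : u i ∈ Subalgebra.center K D := by
      rw [Subalgebra.mem_center_iff]
      intro b
      exact (hcomm b i).symm
    exact Algebra.mem_bot.mp (Algebra.IsCentral.out h1)
  choose k hk using hK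
  have h4 := huk 1
  have h5 : ∑ i, k i • w i = 0 := by
    rw [← h4]
    refine Finset.sum_congr rfl fun i _ => ?_
    rw [Algebra.smul_def, hk, mul_one]
  have h6 := Fintype.linearIndependent_iff.mp hw k h5 i0
  rw [← hk i0, h6, map_zero] at hu1
  exact zero_ne_one hu1


section
variable {K D L E : Type} [Field K] [DivisionRing D] [Algebra K D]
  [Field L] [Algebra K L] [Field E] [Algebra K E] [Algebra L E] [IsScalarTower K L E]
  [FiniteDimensional L E]

/-- left action of `E` on coordinate vectors -/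
noncomputable def lam (j : L →ₐ[K] D) : E →ₐ[K] End K (Fin (finrank L E) → D) where
  toFun y :=
    { toFun := fun v => RR (j : L →+* D) y *ᵥ v
      map_add' := fun v v' => Matrix.mulVec_add _ v v'
      map_smul' := fun c v => Matrix.mulVec_smul _ c v }
  map_one' := by ext v i; simp
  map_mul' x y := by
    ext v i
    simp only [map_mul, LinearMap.coe_mk, AddHom.coe_mk, Module.End.mul_apply,
      Matrix.mulVec_mulVec, LinearMap.coe_comp, Function.comp_apply, LinearMap.coe_single]
  map_zero' := by ext v i; simp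
  map_add' x y := by
    ext v i
    simp only [map_add, Matrix.add_mulVec, LinearMap.coe_mk, AddHom.coe_mk,
      LinearMap.add_apply, LinearMap.coe_comp, Function.comp_apply, LinearMap.coe_single,
      Pi.add_apply]
  commutes' k := by
    ext v d i
    simp only [LinearMap.coe_comp, LinearMap.coe_mk, AddHom.coe_mk, Function.comp_apply,
      LinearMap.coe_single, Module.algebraMap_end_apply, Pi.smul_apply]
    rw [IsScalarTower.algebraMap_apply K L E, RR_algebraMap, Matrix.mulVec_diagonal]
    rw [RingHom.coe_coe, AlgHom.commutes, Algebra.smul_def]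

theorem lam_apply (j : L →ₐ[K] D) (y : E) (v : Fin (finrank L E) → D) :
    lam j y v = RR (j : L →+* D) y *ᵥ v := rfl

/-- right action of `L` on vectors -/
noncomputable def rho (ν : Type) (j : L →ₐ[K] D) : L →ₐ[K] End K (ν → D) where
  toFun l :=
    { toFun := fun v => fun i => v i * j l
      map_add' := fun v v' => by ext i; simp [add_mul]
      map_smul' := fun c v => by ext i; simp [smul_mul_assoc] }
  map_one' := by ext v i; simp
  map_mul' x y := by
    refine LinearMap.ext fun v => ?_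
    funext i
    simp only [LinearMap.coe_mk, AddHom.coe_mk, Module.End.mul_apply]
    rw [mul_comm x y, map_mul, mul_assoc]
  map_zero' := by
    refine LinearMap.ext fun v => ?_
    funext i
    simp
  map_add' x y := by
    refine LinearMap.ext fun v => ?_
    funext i
    simp [mul_add]
  commutes' k := by
    refine LinearMap.ext fun v => ?_
    funext i
    simp only [LinearMap.coe_mk, AddHom.coe_mk, Module.algebraMap_end_apply, Pi.smul_apply]
    rw [AlgHom.commutes, Algebra.smul_def, Algebra.commutes]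

theorem rho_apply (ν : Type) (j : L →ₐ[K] D) (l : L) (v : ν → D) :
    rho ν j l v = fun i => v i * j l := rfl

theorem lam_rho (j : L →ₐ[K] D) (y : E) (l : L) :
    lam j y * rho _ j l = rho _ j l * lam j y := by
  refine LinearMap.ext fun v => ?_
  funext i
  rw [Module.End.mul_apply, Module.End.mul_apply, lam_apply, rho_apply, rho_apply, lam_apply]
  simp only [Matrix.mulVec, dotProduct, Finset.sum_mul, mul_assoc]

theorem exists_intertwiner [Algebra.IsCentral K D] (j : L →ₐ[K] D) (σ : E →ₐ[K] E) (w : L)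
    (hint : IsIntegral K w) (hw : Algebra.adjoin K {w} = ⊤) :
    ∃ w' : Fin (finrank L E) → D, w' ≠ 0 ∧
      ∀ l : L, RR (j : L →+* D) (σ (algebraMap L E l)) *ᵥ w' = fun i => w' i * (j : L →+* D) l := by
  classical
  -- it suffices to treat the generator
  suffices h : ∃ w' : Fin (finrank L E) → D, w' ≠ 0 ∧
      lam j (σ (algebraMap L E w)) w' = rho _ j w w' by
    obtain ⟨w', h0, hw'⟩ := h
    refine ⟨w', h0, fun l => ?_⟩
    change lam j (σ (algebraMap L E l)) w' = rho _ j l w'
    have hl : l ∈ Algebra.adjoin K {w} := by rw [hw]; exact Algebra.mem_top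
    induction hl using Algebra.adjoin_induction with
    | mem x hx => rw [Set.mem_singleton_iff] at hx; rw [hx, hw']
    | algebraMap r =>
      rw [← IsScalarTower.algebraMap_apply K L E, AlgHom.commutes, AlgHom.commutes,
        AlgHom.commutes]
    | add x y _ _ hx hy => rw [map_add, map_add, map_add, map_add, LinearMap.add_apply,
        LinearMap.add_apply, hx, hy]
    | mul x y _ _ hx hy =>
      rw [map_mul, map_mul, map_mul, map_mul, Module.End.mul_apply, hy, ← Module.End.mul_apply,
        lam_rho, Module.End.mul_apply, hx, ← Module.End.mul_apply, ← map_mul, ← map_mul, mul_comm]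
  set ρ : E := σ (algebraMap L E w) with hρ
  set f := minpoly K w with hf
  set p := f.natDegree with hp
  have hfρ : aeval ρ f = 0 := by
    rw [hρ, aeval_algHom_apply, aeval_algebraMap_apply, hf, minpoly.aeval, map_zero, map_zero]
  have hp0 : 0 < p := minpoly.natDegree_pos hint
  let h : ℕ → K[X] := fun m => (Polynomial.divX)^[m] f
  let G : ℕ → E := fun m => aeval ρ (h m)
  have hcoeff : ∀ m n, (h m).coeff n = f.coeff (n + m) := by
    intro m
    induction m with
    | zero => intro n; rfl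
    | succ m ih =>
      intro n
      simp only [h] at ih ⊢
      rw [Function.iterate_succ_apply', Polynomial.coeff_divX, ih]
      congr 1; ring
  have hG : ∀ m, G m = ρ * G (m + 1) + algebraMap K E (f.coeff m) := by
    intro m
    have h1 := Polynomial.divX_mul_X_add (h m)
    have h2 : h (m + 1) = (h m).divX := by simp only [h]; rw [Function.iterate_succ_apply']
    simp only [G]
    rw [h2]
    conv_lhs => rw [← h1]
    rw [map_add, map_mul, aeval_X, aeval_C, hcoeff, zero_add, mul_comm]
  have hGp : G p = 1 := by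
    have h1 : h p = C 1 := by
      ext n
      rw [hcoeff, coeff_C]
      by_cases hn : n = 0
      · subst hn
        rw [zero_add, if_pos rfl]
        exact minpoly.monic hint
      · rw [if_neg hn]
        exact Polynomial.coeff_eq_zero_of_natDegree_lt (by omega)
    simp only [G]
    rw [h1, map_one, map_one]
  have hG0 : G 0 = 0 := hfρ
  let S : End K (Fin (finrank L E) → D) :=
    ∑ m ∈ Finset.range p, lam j (G (m + 1)) * rho _ j (w ^ m)
  have hS : lam j ρ * S = rho _ j w * S := by
    rw [← sub_eq_zero]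
    have h1 : ∀ m, lam j ρ * (lam j (G (m + 1)) * rho _ j (w ^ m)) -
        rho _ j w * (lam j (G (m + 1)) * rho _ j (w ^ m)) =
        (lam j (G m) * rho _ j (w ^ m) - lam j (G (m + 1)) * rho _ j (w ^ (m + 1))) -
          rho _ j (f.coeff m • w ^ m) := by
      intro m
      have h2 : lam j ρ * (lam j (G (m + 1)) * rho _ j (w ^ m)) =
          lam j (G m) * rho _ j (w ^ m) - rho _ j (f.coeff m • w ^ m) := by
        rw [← mul_assoc, ← map_mul, eq_sub_iff_add_eq]
        have h3 : rho (Fin (finrank L E)) j (f.coeff m • w ^ m) =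
            lam j (algebraMap K E (f.coeff m)) * rho _ j (w ^ m) := by
          rw [AlgHom.commutes, map_smul, Algebra.smul_def]
        rw [h3, ← add_mul, ← map_add, ← hG]
      have h4 : rho _ j w * (lam j (G (m + 1)) * rho _ j (w ^ m)) =
          lam j (G (m + 1)) * rho _ j (w ^ (m + 1)) := by
        rw [← mul_assoc, ← lam_rho, mul_assoc, ← map_mul, pow_succ']
      rw [h2, h4]
      abel
    rw [Finset.mul_sum, Finset.mul_sum, ← Finset.sum_sub_distrib,
      Finset.sum_congr rfl fun m _ => h1 m, Finset.sum_sub_distrib,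
      Finset.sum_range_sub' (fun m => lam j (G m) * rho _ j (w ^ m)), hG0, hGp, map_zero,
      zero_mul, map_one, one_mul, zero_sub, ← map_sum, ← neg_add', ← map_add]
    have h5 : w ^ p + ∑ m ∈ Finset.range p, f.coeff m • w ^ m = 0 := by
      have h6 := minpoly.aeval K w
      rw [aeval_eq_sum_range, Finset.sum_range_succ] at h6
      have h7 : (minpoly K w).coeff (minpoly K w).natDegree = 1 := minpoly.monic hint
      rw [h7, one_smul] at h6
      rw [add_comm]
      exact h6
    rw [h5, map_zero, neg_zero]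
  by_contra hcon
  push Not at hcon
  have hSv : ∀ v, S v = 0 := by
    intro v
    by_contra hv
    apply hcon _ hv
    rw [← Module.End.mul_apply, hS, Module.End.mul_apply]
  have hn : 0 < finrank L E := finrank_pos
  let i0 : Fin (finrank L E) := ⟨0, hn⟩
  let v : Fin (finrank L E) → D := Pi.single i0 1
  have hli : LinearIndependent K fun i : Fin p => j w ^ (i : ℕ) := by
    have h1 := (linearIndependent_pow (K := K) w).map' j.toLinearMap
      (LinearMap.ker_eq_bot.mpr j.toRingHom.injective)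
    have h2 : (j.toLinearMap ∘ fun i : Fin p => w ^ (i : ℕ)) = fun i : Fin p => j w ^ (i : ℕ) := by
      funext i
      simp only [AlgHom.coe_toLinearMap, Function.comp_apply, map_pow]
    rw [← h2]
    exact h1
  have haw := artin_whaples (fun i : Fin p => j w ^ (i : ℕ)) hli
    (fun i : Fin p => (RR (j : L →+* D) (G (i + 1)) *ᵥ v) i0) (by
      intro d
      have h1 := congrFun (hSv (fun i => v i * d)) i0
      simp only [S, LinearMap.sum_apply, Finset.sum_apply, Pi.zero_apply] at h1
      rw [Finset.sum_range] at h1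
      rw [← h1]
      refine Finset.sum_congr rfl fun m _ => ?_
      rw [Module.End.mul_apply, lam_apply, rho_apply]
      simp only [Matrix.mulVec, dotProduct, Finset.sum_mul, mul_assoc, map_pow])
  have h8 := congrFun haw ⟨p - 1, by omega⟩
  simp only [Pi.zero_apply] at h8
  rw [show p - 1 + 1 = p by omega, hGp, map_one, Matrix.one_mulVec] at h8
  simp [v] at h8


end

section

variable {p : ℕ} {K D F : Type} [Field K] [DivisionRing D] [Algebra K D]
  [Algebra.IsCentral K D] [Field F] [Algebra K F]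

theorem split_rel_aux (hp : 0 < p) (f : D →ₐ[K] Matrix (Fin p) (Fin p) F)
    {ι : Type} [DecidableEq ι] (c : ι → F) (hc : LinearIndependent K c) :
    ∀ (s : Finset ι) (x : ι → D), (∑ j ∈ s, c j • f (x j) = 0) → ∀ j ∈ s, x j = 0 := by
  intro s
  induction s using Finset.strongInduction with
  | H s ih =>
    intro x hx
    by_contra hcon
    push Not at hcon
    obtain ⟨j0, hj0, hne⟩ := hcon
    let y : ι → D := fun j => (x j0)⁻¹ * x j
    have hy0 : y j0 = 1 := inv_mul_cancel₀ hne
    have hy : ∑ j ∈ s, c j • f (y j) = 0 := by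
      have := congrArg (fun m => f (x j0)⁻¹ * m) hx
      simp only [Finset.mul_sum, mul_zero, mul_smul_comm] at this
      rw [← this]
      refine Finset.sum_congr rfl fun j _ => ?_
      rw [← map_mul]
    have hcomm : ∀ j ∈ s, ∀ a : D, a * y j = y j * a := by
      intro j hj a
      by_cases hjj : j = j0
      · rw [hjj, hy0]; simp
      · have := ih (s.erase j0) (Finset.erase_ssubset hj0) (fun j => a * y j - y j * a) (by
          have h1 : ∑ j ∈ s, c j • f (a * y j - y j * a) = 0 := by
            have e1 := congrArg (fun m => f a * m) hy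
            have e2 := congrArg (fun m => m * f a) hy
            simp only [Finset.mul_sum, mul_smul_comm, mul_zero, Finset.sum_mul, smul_mul_assoc, zero_mul] at e1 e2
            calc ∑ j ∈ s, c j • f (a * y j - y j * a)
                = ∑ j ∈ s, c j • (f a * f (y j)) - ∑ j ∈ s, c j • (f (y j) * f a) := by
                  rw [← Finset.sum_sub_distrib]
                  refine Finset.sum_congr rfl fun j _ => ?_
                  rw [map_sub, map_mul f a (y j), map_mul f (y j) a, smul_sub]
              _ = 0 := by rw [e1, e2, sub_zero]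
          rw [← Finset.add_sum_erase s _ hj0, hy0] at h1
          simpa only [map_sub, map_mul, mul_one, one_mul, sub_self, map_zero, smul_zero, zero_add] using h1) j (Finset.mem_erase.mpr ⟨hjj, hj⟩)
        exact sub_eq_zero.mp this
    have hK : ∀ j, ∃ k : K, j ∈ s → algebraMap K D k = y j := by
      intro j
      by_cases hj : j ∈ s
      · obtain ⟨k, hk⟩ := mem_range_of_comm (K := K) (hcomm j hj)
        exact ⟨k, fun _ => hk⟩
      · exact ⟨0, fun h => absurd h hj⟩
    choose k hk using hK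
    have h1 : ∑ j ∈ s, k j • c j = 0 := by
      have h2 := congrFun (congrFun hy ⟨0, hp⟩) ⟨0, hp⟩
      rw [Matrix.sum_apply] at h2
      rw [Matrix.zero_apply] at h2
      rw [← h2]
      refine Finset.sum_congr rfl fun j hj => ?_
      rw [← hk j hj, AlgHom.commutes, Matrix.smul_apply, Matrix.algebraMap_matrix_apply]
      simp [Algebra.smul_def, mul_comm]
    have h2 := (linearIndependent_iff'.mp hc) s k h1 j0 hj0
    have h3 := hk j0 hj0
    rw [h2, hy0, map_zero] at h3
    exact zero_ne_one h3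

/-- images of `K`-independent elements are `F`-independent. -/
theorem split_indep (hp : 0 < p) (f : D →ₐ[K] Matrix (Fin p) (Fin p) F)
    {ι : Type} [Fintype ι] (d : ι → D) (hd : LinearIndependent K d) :
    LinearIndependent F (fun i => f (d i)) := by
  classical
  rw [Fintype.linearIndependent_iff]
  intro γ hγ
  let c := Basis.ofVectorSpace K F
  let s : Finset (Basis.ofVectorSpaceIndex K F) := Finset.univ.biUnion fun i => (c.repr (γ i)).support
  have hγs : ∀ i, γ i = ∑ j ∈ s, c.repr (γ i) j • c j := by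
    intro i
    conv_lhs => rw [← c.linearCombination_repr (γ i)]
    rw [Finsupp.linearCombination_apply, Finsupp.sum]
    apply Finset.sum_subset
    · intro j hj
      exact Finset.mem_biUnion.mpr ⟨i, Finset.mem_univ _, hj⟩
    · intro j _ hj
      rw [Finsupp.notMem_support_iff.mp hj, zero_smul]
  have h1 := split_rel_aux hp f (fun j => c j) c.linearIndependent s
    (fun j => ∑ i, c.repr (γ i) j • d i) (by
      rw [← hγ]
      calc ∑ j ∈ s, c j • f (∑ i, c.repr (γ i) j • d i)
          = ∑ j ∈ s, ∑ i, (c.repr (γ i) j • c j) • f (d i) := by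
            refine Finset.sum_congr rfl fun j _ => ?_
            rw [map_sum, Finset.smul_sum]
            refine Finset.sum_congr rfl fun i _ => ?_
            rw [map_smul, smul_comm, smul_assoc]
        _ = ∑ i, γ i • f (d i) := by
            rw [Finset.sum_comm]
            refine Finset.sum_congr rfl fun i _ => ?_
            rw [← Finset.sum_smul, ← hγs i])
  intro i
  rw [hγs i]
  apply Finset.sum_eq_zero
  intro j hj
  rw [(Fintype.linearIndependent_iff.mp hd) _ (h1 j hj) i, zero_smul]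


open scoped Kronecker in
/-- determinant of left multiplication on `D` -/
theorem norm_eq_det_pow (hp : 0 < p) [FiniteDimensional K D] (hD : Module.finrank K D = p ^ 2)
    (f : D →ₐ[K] Matrix (Fin p) (Fin p) F) (u : D) :
    algebraMap K F (Algebra.norm K u) = (f u).det ^ p := by
  let b : Basis (Fin p × Fin p) K D := (Module.finBasisOfFinrankEq K D hD).reindex
    ((finCongr (sq p)).trans finProdFinEquiv.symm)
  let T : Matrix (Fin p × Fin p) (Fin p × Fin p) F := Matrix.of fun rs i => f (b i) rs.1 rs.2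
  have hT : IsUnit T := by
    rw [← Matrix.linearIndependent_cols_iff_isUnit]
    have h1 := split_indep hp f b b.linearIndependent
    rw [Fintype.linearIndependent_iff] at h1 ⊢
    intro g hg
    apply h1
    ext r s
    have := congrFun hg (r, s)
    simpa [Finset.sum_apply, Matrix.sum_apply, T, Matrix.col] using this
  have hM : (f u ⊗ₖ (1 : Matrix (Fin p) (Fin p) F)) * T =
      T * (Algebra.leftMulMatrix b u).map (algebraMap K F) := by
    ext ⟨r, s⟩ i
    have e1 : ((f u ⊗ₖ (1 : Matrix (Fin p) (Fin p) F)) * T) (r, s) i = (f (u * b i)) r s := by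
      rw [map_mul, Matrix.mul_apply, Matrix.mul_apply, Fintype.sum_prod_type]
      refine Finset.sum_congr rfl fun q _ => ?_
      rw [Finset.sum_eq_single s]
      · simp [T, Matrix.kroneckerMap_apply]
      · intro s' _ hs'
        simp [Matrix.kroneckerMap_apply, Ne.symm hs']
      · intro h; exact absurd (Finset.mem_univ _) h
    have e2 : u * b i = ∑ k, Algebra.leftMulMatrix b u k i • b k := by
      refine ((b.sum_repr (u * b i)).symm).trans (Finset.sum_congr rfl fun k _ => ?_)
      rw [Algebra.leftMulMatrix_eq_repr_mul]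
    rw [e1, e2, map_sum, Matrix.sum_apply, Matrix.mul_apply]
    refine Finset.sum_congr rfl fun k _ => ?_
    rw [map_smul]
    simp [T, Algebra.smul_def, mul_comm]
  have h2 := congrArg Matrix.det hM
  rw [Matrix.det_mul, Matrix.det_mul, mul_comm] at h2
  have hT0 : T.det ≠ 0 := ((Matrix.isUnit_iff_isUnit_det T).mp hT).ne_zero
  have h3 := mul_left_cancel₀ hT0 h2
  rw [Matrix.det_kronecker, Matrix.det_one, one_pow, mul_one, Fintype.card_fin] at h3
  rw [h3, Algebra.norm_eq_matrix_det b, RingHom.map_det]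
  rfl

theorem charpoly_unique {F : Type} [Field F] {p : ℕ} (A : Matrix (Fin p) (Fin p) F)
    (hA : LinearIndependent F (fun i : Fin p => A ^ (i : ℕ))) (m : Polynomial F) (hm : m.Monic)
    (hd : m.natDegree = p) (h0 : Polynomial.aeval A m = 0) : A.charpoly = m := by
  rcases Nat.eq_zero_or_pos p with hp | hp
  · subst hp
    rw [hm.natDegree_eq_zero.mp hd]
    have hc := A.charpoly_monic
    rw [hc.natDegree_eq_zero.mp (by simp)]
  · have hc := A.charpoly_monic
    have hcd : A.charpoly.natDegree = p := by simp only [charpoly_natDegree_eq_dim, Fintype.card_fin]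
    by_contra hne
    have hδ : A.charpoly - m ≠ 0 := sub_ne_zero.mpr hne
    have hlt : (A.charpoly - m).degree < (p : WithBot ℕ) := by
      have h1 : A.charpoly.degree = m.degree := by
        rw [Polynomial.degree_eq_natDegree hc.ne_zero, Polynomial.degree_eq_natDegree hm.ne_zero,
          hcd, hd]
      have := Polynomial.degree_sub_lt_left h1 hc.ne_zero
        (by rw [hc.leadingCoeff, hm.leadingCoeff])
      rwa [Polynomial.degree_eq_natDegree hc.ne_zero, hcd] at this
    have hlt' : (A.charpoly - m).natDegree < p :=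
      (Polynomial.natDegree_lt_iff_degree_lt hδ).mpr hlt
    have h2 : Polynomial.aeval A (A.charpoly - m) = 0 := by
      rw [map_sub, Matrix.aeval_self_charpoly, h0, sub_zero]
    rw [Polynomial.aeval_eq_sum_range' hlt', Finset.sum_range] at h2
    have h3 := Fintype.linearIndependent_iff.mp hA _ h2
    apply hδ
    ext i
    rw [Polynomial.coeff_zero]
    by_cases hi : i < p
    · exact h3 ⟨i, hi⟩
    · exact Polynomial.coeff_eq_zero_of_natDegree_lt (by omega)

/-- the determinant in a splitting is the field norm on maximal subfields -/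
theorem norm_of_split (hp : p.Prime)
    (f : D →ₐ[K] Matrix (Fin p) (Fin p) F) {L : Type} [Field L] [Algebra K L]
    [FiniteDimensional K L] (hL : Module.finrank K L = p) (j : L →ₐ[K] D) (x : L) :
    (f (j x)).det = algebraMap K F (Algebra.norm K x) := by
  have hx : IsIntegral K x := IsIntegral.of_finite K x
  have hdvd := minpoly.degree_dvd hx
  rw [hL] at hdvd
  rcases (Nat.dvd_prime hp).mp hdvd with h1 | h1
  · rw [minpoly.natDegree_eq_one_iff] at h1
    obtain ⟨k, rfl⟩ := h1
    rw [AlgHom.commutes, AlgHom.commutes, Algebra.norm_algebraMap, hL,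
      Matrix.algebraMap_eq_diagonal, Matrix.det_diagonal]
    simp only [Pi.algebraMap_apply, Finset.prod_const, Finset.card_univ, Fintype.card_fin, map_pow]
  · have hli := linearIndependent_pow (K := K) x
    rw [h1] at hli
    have c1 : (f (j x)).charpoly = (minpoly K x).map (algebraMap K F) := by
      apply charpoly_unique
      · have e1 : LinearIndependent K (fun i : Fin p => j (x ^ (i : ℕ))) :=
          hli.map' j.toLinearMap (LinearMap.ker_eq_bot.mpr j.injective)
        have e2 := split_indep hp.pos f _ e1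
        convert e2 using 2 with i
        rw [map_pow, map_pow]
      · exact (minpoly.monic hx).map _
      · rw [Polynomial.natDegree_map, h1]
      · rw [Polynomial.aeval_map_algebraMap]
        have : Polynomial.aeval (f (j x)) (minpoly K x) =
            f (j (Polynomial.aeval x (minpoly K x))) := by
          rw [← Polynomial.aeval_algHom_apply, ← Polynomial.aeval_algHom_apply]
        rw [this, minpoly.aeval, map_zero, map_zero]
    let b : Basis (Fin p) K L := Module.finBasisOfFinrankEq K L hL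
    have c2 : (Algebra.leftMulMatrix b x).charpoly = minpoly K x := by
      apply charpoly_unique
      · have e1 : LinearIndependent K (fun i : Fin p => Algebra.leftMulMatrix b (x ^ (i : ℕ))) :=
          hli.map' (Algebra.leftMulMatrix b).toLinearMap
            (LinearMap.ker_eq_bot.mpr (Algebra.leftMulMatrix_injective b))
        convert e1 using 2 with i
        rw [map_pow]
      · exact minpoly.monic hx
      · exact h1
      · rw [Polynomial.aeval_algHom_apply, minpoly.aeval, map_zero]
    rw [Algebra.norm_eq_matrix_det b, Matrix.det_eq_sign_charpoly_coeff,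
      Matrix.det_eq_sign_charpoly_coeff, c1, c2, Polynomial.coeff_map]
    simp only [Fintype.card_fin, map_mul, map_pow, map_neg, map_one]


end

section

variable {p : ℕ} [Fact p.Prime] {K D : Type} [Field K] [DivisionRing D] [Algebra K D]
  [FiniteDimensional K D] [Algebra.IsCentral K D]

theorem mem_range_of_central {w : D} (h : ∀ a, w * a = a * w) :
    w ∈ Set.range (algebraMap K D) := by
  have h1 : w ∈ Subalgebra.center K D := by
    rw [Subalgebra.mem_center_iff]
    intro b
    exact (h b).symm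
  exact Algebra.mem_bot.mp (Algebra.IsCentral.out h1)

theorem finrank_sub (hD : finrank K D = p ^ 2) {w : D} (hwc : w ∉ Set.range (algebraMap K D))
    {L : Type} [Field L] [Algebra K L] [FiniteDimensional K L] (j : L →ₐ[K] D) (w0 : L)
    (hj : j w0 = w) : finrank K L = p := by
  have hp1 : p.Prime := Fact.out
  let _ : Module L D := Module.compHom D (j : L →+* D)
  have hsmul : ∀ (l : L) (d : D), l • d = j l * d := fun l d => rfl
  have : IsScalarTower K L D := ⟨fun k l d => by
    rw [hsmul, hsmul, map_smul, smul_mul_assoc]⟩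
  have hmul := finrank_mul_finrank K L D
  rw [hD] at hmul
  have hdvd : finrank K L ∣ p ^ 2 := Dvd.intro _ hmul
  obtain ⟨i, hi, hi'⟩ := (Nat.dvd_prime_pow hp1).mp hdvd
  interval_cases i
  · exfalso
    rw [pow_zero] at hi'
    obtain ⟨k, hk⟩ := (finrank_eq_one_iff_of_nonzero' (1 : L) one_ne_zero).mp hi' w0
    apply hwc
    refine ⟨k, ?_⟩
    rw [← hj, ← hk, map_smul, map_one, Algebra.smul_def, mul_one]
  · rw [hi', pow_one]
  · exfalso
    rw [hi'] at hmul
    have h1 : finrank L D = 1 := by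
      have : 0 < p ^ 2 := pow_pos hp1.pos 2
      exact Nat.eq_of_mul_eq_mul_left this (by rw [hmul, mul_one])
    have h2 := (finrank_eq_one_iff_of_nonzero' (1 : D) one_ne_zero).mp h1
    apply hwc
    apply mem_range_of_central
    intro a
    obtain ⟨l, hl⟩ := h2 a
    rw [hsmul, mul_one] at hl
    rw [← hl, ← hj, ← map_mul, ← map_mul, mul_comm]

theorem centralizer_sub (hD : finrank K D = p ^ 2) {w : D}
    (hwc : w ∉ Set.range (algebraMap K D)) {L : Type} [Field L] [Algebra K L]
    [FiniteDimensional K L] (j : L →ₐ[K] D) (w0 : L) (hj : j w0 = w)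
    (hdeg : finrank K L = p) (a : D) (ha : w * a = a * w) : ∃ l, j l = a := by
  have hp1 : p.Prime := Fact.out
  let C := Subalgebra.centralizer K ({w} : Set D)
  have hC : ∀ b, b ∈ C ↔ w * b = b * w := by
    intro b
    rw [Subalgebra.mem_centralizer_iff]
    simp only [Set.mem_singleton_iff, forall_eq]
  have hjC : j.range ≤ C := by
    rintro _ ⟨l, rfl⟩
    rw [hC, ← hj]
    change j w0 * j l = j l * j w0
    rw [← map_mul, ← map_mul, mul_comm]
  let _ : DivisionRing C := divisionRingOfFiniteDimensional K C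
  have hmul := finrank_mul_finrank K C D
  rw [hD] at hmul
  have hdvd : finrank K C ∣ p ^ 2 := Dvd.intro _ hmul
  have hrange : finrank K j.range = p := by
    rw [← hdeg]
    exact (LinearEquiv.finrank_eq (AlgEquiv.ofInjective j j.toRingHom.injective).toLinearEquiv).symm
  have hle : p ≤ finrank K C := by
    rw [← hrange]
    exact Submodule.finrank_mono (s := Subalgebra.toSubmodule j.range)
      (t := Subalgebra.toSubmodule C) hjC
  obtain ⟨i, hi, hi'⟩ := (Nat.dvd_prime_pow hp1).mp hdvd
  have hp2 := hp1.two_le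
  interval_cases i
  · rw [pow_zero] at hi'; omega
  · rw [pow_one] at hi'
    have h1 : j.range = C := Subalgebra.eq_of_le_of_finrank_eq hjC (by rw [hrange, hi'])
    have h2 : a ∈ C := (hC a).mpr ha
    rw [← h1] at h2
    exact h2
  · exfalso
    have h1 : C = ⊤ := Subalgebra.eq_of_le_of_finrank_eq le_top (by
      rw [hi', ← hD]
      exact (Subalgebra.topEquiv (R := K) (A := D)).toLinearEquiv.finrank_eq.symm)
    apply hwc
    apply mem_range_of_central
    intro b
    have h2 : b ∈ C := by rw [h1]; exact Algebra.mem_top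
    exact (hC b).mp h2


end

/-- Hilbert 90 for a cyclic group of automorphisms. -/
theorem h90 {K E : Type} [Field K] [Field E] [Algebra K E] (σ : E ≃ₐ[K] E)
    (h0 : 0 < orderOf σ) (x : E) (hx : ∏ i ∈ Finset.range (orderOf σ), (σ ^ i) x = 1) :
    ∃ b : E, b ≠ 0 ∧ σ b = x * b := by
  classical
  set p := orderOf σ with hp
  let β : ℕ → E := fun i => ∏ m ∈ Finset.range i, (σ ^ m) x
  have hβ : ∀ i, x * σ (β i) = β (i + 1) := by
    intro i
    simp only [β]
    rw [Finset.prod_range_succ', map_prod, pow_zero, mul_comm]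
    congr 1
    refine Finset.prod_congr rfl fun m _ => ?_
    rw [pow_succ']
    rfl
  let T : E → E := fun z => ∑ i ∈ Finset.range p, β i * (σ ^ i) z
  have hT : ∀ z, x * σ (T z) = T z := by
    intro z
    let F : ℕ → E := fun i => β i * (σ ^ i) z
    have h1 : x * σ (T z) = ∑ i ∈ Finset.range p, F (i + 1) := by
      simp only [T, F]
      rw [map_sum, Finset.mul_sum]
      refine Finset.sum_congr rfl fun i _ => ?_
      rw [map_mul, ← mul_assoc, hβ, pow_succ']
      rfl
    have h2 : ∑ i ∈ Finset.range p, F (i + 1) + F 0 = ∑ i ∈ Finset.range p, F i + F p := by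
      rw [← Finset.sum_range_succ', Finset.sum_range_succ]
    have h3 : F 0 = F p := by
      simp only [F, β]
      rw [hx, hp, pow_orderOf_eq_one, pow_zero, Finset.prod_range_zero]
    rw [h3] at h2
    rw [h1]
    exact add_right_cancel h2
  have hinj : Function.Injective fun i : Fin p =>
      (((σ ^ (i : ℕ) : E ≃ₐ[K] E) : E →+* E) : E →* E) := by
    intro i j hij
    have h1 : (σ ^ (i : ℕ)) = σ ^ (j : ℕ) := by
      ext z
      exact DFunLike.congr_fun hij z
    have h2 := pow_injOn_Iio_orderOf (Set.mem_Iio.mpr i.2) (Set.mem_Iio.mpr j.2) h1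
    exact Fin.ext h2
  have hli := (linearIndependent_monoidHom E E).comp _ hinj
  obtain ⟨z, hz⟩ : ∃ z, T z ≠ 0 := by
    by_contra hcon
    push Not at hcon
    have h1 := Fintype.linearIndependent_iff.mp hli (fun i : Fin p => β i) (by
      funext z
      have h2 := hcon z
      simp only [T] at h2
      rw [Finset.sum_range] at h2
      simpa only [Function.comp_apply, MonoidHom.coe_coe, RingHom.coe_coe, AlgEquiv.coe_pow, Finset.sum_apply,     Pi.smul_apply, smul_eq_mul, Pi.zero_apply] using h2) ⟨0, h0⟩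
    simp only [AlgEquiv.coe_pow, Finset.range_zero, Finset.prod_empty, one_ne_zero, β] at h1
  refine ⟨(T z)⁻¹, inv_ne_zero hz, ?_⟩
  have h1 := hT z
  have h2 : σ (T z) ≠ 0 := by simpa using hz
  rw [map_inv₀]
  field_simp
  rw [mul_comm]
  exact h1.symm


end Vale.Agent.P011S.SF

end

section
/-!
Division algebras of prime degree: every homomorphism from the multiplicative group to an
abelian group kills the elements of reduced norm one.
-/

set_option linter.unusedSectionVars false
set_option linter.unusedSimpArgs false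

open Module IntermediateField Matrix

namespace Vale.Agent.P011S

/-- Hilbert 90 in a normal closure of a field of prime degree. -/
theorem galois_pure_abs {K L E : Type} [Field K] [Field L] [Field E] [CharZero K]
    [Algebra K L] [Algebra K E] [Algebra L E] [IsScalarTower K L E]
    [FiniteDimensional K L] [FiniteDimensional K E] [FiniteDimensional L E] [IsGalois K E]
    (p : ℕ) [hp : Fact p.Prime] (hdeg : finrank K L = p)
    (hgen : ∀ T : Subfield E, (∀ (f : L →ₐ[K] E) (a : L), f a ∈ T) → ∀ y, y ∈ T)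
    (x : L) (hnx : Algebra.norm K x = 1) :
    Nat.Coprime (finrank L E) p ∧
      ∃ (σ : E →ₐ[K] E) (b : E), b ≠ 0 ∧ σ b = algebraMap L E x * b := by
  classical
  have hp1 : p.Prime := hp.out
  let f0 : L →ₐ[K] E := IsScalarTower.toAlgHom K L E
  have hf0 : ∀ l, f0 l = algebraMap L E l := fun l => rfl
  have : IsGalois L E := IsGalois.tower_top_of_isGalois K L E
  -- degrees
  have hgal : Nat.card (E ≃ₐ[K] E) = finrank K E := IsGalois.card_aut_eq_finrank K E
  have hmul : p * finrank L E = finrank K E := by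
    rw [← hdeg]; exact finrank_mul_finrank K L E
  let Ω := AlgebraicClosure E
  have hcardΩ : Fintype.card (L →ₐ[K] Ω) = p := by rw [AlgHom.card, hdeg]
  have hcardE : Nat.card (L →ₐ[K] E) ≤ p := by
    rw [← hcardΩ, ← Nat.card_eq_fintype_card]
    apply Nat.card_le_card_of_injective
      (fun f : L →ₐ[K] E => (IsScalarTower.toAlgHom K E Ω).comp f)
    intro f g hfg
    ext a
    have := DFunLike.congr_fun hfg a
    exact (algebraMap E Ω).injective this
  let perm : (E ≃ₐ[K] E) →* Equiv.Perm (L →ₐ[K] E) :=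
    { toFun := fun g =>
        { toFun := fun f => (g : E →ₐ[K] E).comp f
          invFun := fun f => ((g⁻¹ : E ≃ₐ[K] E) : E →ₐ[K] E).comp f
          left_inv := fun f => by
            ext a
            change (g⁻¹ * g) (f a) = f a
            rw [inv_mul_cancel]; rfl
          right_inv := fun f => by
            ext a
            change (g * g⁻¹) (f a) = f a
            rw [mul_inv_cancel]; rfl }
      map_one' := by
        ext f a; rfl
      map_mul' := fun g h => by
        ext f a; rfl }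
  have hperm : Function.Injective perm := by
    rw [injective_iff_map_eq_one]
    intro g hg
    ext y
    have h1 : y ∈ RingHom.eqLocusField ((g : E →ₐ[K] E) : E →+* E) (RingHom.id E) := by
      apply hgen
      intro f a
      have h2 := Equiv.congr_fun hg f
      exact DFunLike.congr_fun h2 a
    exact h1
  have hdvd : p * finrank L E ∣ p.factorial := by
    rw [hmul, ← hgal]
    refine (Subgroup.card_dvd_of_injective perm hperm).trans ?_
    rw [Nat.card_perm]
    exact Nat.factorial_dvd_factorial hcardE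
  have hfact : p.factorial = p * (p - 1).factorial := by
    rw [Nat.mul_factorial_pred hp1.ne_zero]
  have hdvd' : finrank L E ∣ (p - 1).factorial := by
    rw [hfact] at hdvd
    exact Nat.dvd_of_mul_dvd_mul_left hp1.pos hdvd
  have hcop : Nat.Coprime (finrank L E) p := by
    rw [Nat.coprime_comm, hp1.coprime_iff_not_dvd]
    intro h
    have h1 := (hp1.dvd_factorial).mp (h.trans hdvd')
    have := hp1.pos
    omega
  refine ⟨hcop, ?_⟩
  -- an automorphism of order `p`
  obtain ⟨σ, hσ⟩ := exists_prime_orderOf_dvd_card' (G := E ≃ₐ[K] E) p (by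
    rw [hgal, ← hmul]; exact Dvd.intro _ rfl)
  have hnofix : ∀ τ : E ≃ₐ[K] E, orderOf τ = p → ¬ (∀ l, τ (algebraMap L E l) = algebraMap L E l) := by
    intro τ hτ hfix
    let τ' : E ≃ₐ[L] E := AlgEquiv.ofRingEquiv (f := (τ : E ≃+* E)) hfix
    have h1 : orderOf τ' = p := by
      have hpow : ∀ n : ℕ, ∀ y, (τ' ^ n) y = (τ ^ n) y := by
        intro n
        induction n with
        | zero => intro y; rfl
        | succ n ih => intro y; rw [pow_succ, pow_succ]; exact ih _
      have h2 : ∀ n : ℕ, τ' ^ n = 1 ↔ τ ^ n = 1 := by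
        intro n
        constructor
        · intro h
          ext y
          rw [← hpow, h]; rfl
        · intro h
          ext y
          rw [hpow, h]; rfl
      rw [← hτ]
      apply Nat.dvd_antisymm
      · rw [orderOf_dvd_iff_pow_eq_one, h2, pow_orderOf_eq_one]
      · rw [orderOf_dvd_iff_pow_eq_one, ← h2, pow_orderOf_eq_one]
    have h3 : p ∣ finrank L E := by
      rw [← IsGalois.card_aut_eq_finrank L E, ← h1]
      exact orderOf_dvd_natCard τ'
    exact (hp1.coprime_iff_not_dvd.mp (Nat.coprime_comm.mp hcop)) h3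
  -- the norm as a product
  have hnorm : ∏ i ∈ Finset.range (orderOf σ), (σ ^ i) (algebraMap L E x) = 1 := by
    rw [hσ]
    apply (algebraMap E Ω).injective
    let F : Fin p → (L →ₐ[K] Ω) := fun i =>
      (IsScalarTower.toAlgHom K E Ω).comp (((σ ^ (i : ℕ) : E ≃ₐ[K] E) : E →ₐ[K] E).comp f0)
    have hF : ∀ i l, F i l = algebraMap E Ω ((σ ^ (i : ℕ)) (algebraMap L E l)) := fun i l => rfl
    have hFlt : ∀ i j : Fin p, i < j → F i ≠ F j := by
      intro i j hij h
      have h1 : ∀ l, (σ ^ (j - i : ℕ)) (algebraMap L E l) = algebraMap L E l := by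
        intro l
        have h2 := DFunLike.congr_fun h l
        rw [hF, hF] at h2
        have h3 := (algebraMap E Ω).injective h2
        have h4 : (σ ^ (j : ℕ)) = σ ^ (i : ℕ) * σ ^ (j - i : ℕ) := by
          rw [← pow_add]; congr 1
          have : (i : ℕ) < j := hij
          omega
        rw [h4] at h3
        exact ((σ ^ (i : ℕ)).injective h3).symm
      refine hnofix _ ?_ h1
      rw [Nat.Coprime.orderOf_pow, hσ]
      rw [hσ, hp1.coprime_iff_not_dvd]
      intro hd
      have h5 : (i : ℕ) < j := hij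
      have h6 := Nat.le_of_dvd (by omega) hd
      have := j.2
      omega
    have hFinj : Function.Injective F := by
      intro i j h
      rcases lt_trichotomy i j with hij | hij | hij
      · exact absurd h (hFlt i j hij)
      · exact hij
      · exact absurd h.symm (hFlt j i hij)
    have hFbij : Function.Bijective F := by
      rw [Fintype.bijective_iff_injective_and_card]
      exact ⟨hFinj, by rw [hcardΩ, Fintype.card_fin]⟩
    rw [map_one, map_prod, Finset.prod_range]
    have h1 := Algebra.norm_eq_prod_embeddings K Ω x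
    rw [hnx, map_one] at h1
    rw [h1]
    exact Fintype.prod_bijective F hFbij _ _ (fun i => (hF i x).symm)
  obtain ⟨b, hb0, hb⟩ := SF.h90 σ (by rw [hσ]; exact hp1.pos) _ hnorm
  exact ⟨(σ : E →ₐ[K] E), b, hb0, hb⟩

/-- The Galois theoretic input. -/
theorem galois_pure {K L : Type} [Field K] [Field L] [CharZero K] [Algebra K L]
    [FiniteDimensional K L]
    (p : ℕ) [hp : Fact p.Prime] (hdeg : finrank K L = p)
    (x : L) (hnx : Algebra.norm K x = 1) :
    ∃ (E : Type) (_ : Field E) (_ : Algebra K E) (_ : Algebra L E) (_ : IsScalarTower K L E)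
      (_ : FiniteDimensional L E) (σ : E →ₐ[K] E) (b : E),
      Nat.Coprime (finrank L E) p ∧ b ≠ 0 ∧ σ b = algebraMap L E x * b := by
  classical
  let Ω := AlgebraicClosure L
  let E := normalClosure K L Ω
  have : FiniteDimensional K E := normalClosure.is_finiteDimensional K L Ω
  have : FiniteDimensional L E := FiniteDimensional.right K L E
  have hnc : IsNormalClosure K L E :=
    Algebra.IsAlgebraic.isNormalClosure_normalClosure fun x => IsAlgClosed.splits _
  have : Normal K E := hnc.normal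
  have : IsGalois K E := IsGalois.mk
  have hgen : ∀ T : Subfield E, (∀ (f : L →ₐ[K] E) (a : L), f a ∈ T) → ∀ y, y ∈ T := by
    intro T hT y
    let T' : IntermediateField K Ω :=
      { T.map (E.val : E →+* Ω) with
        algebraMap_mem' := fun k => by
          refine ⟨algebraMap K E k, ?_, rfl⟩
          rw [IsScalarTower.algebraMap_apply K L E]
          exact hT (IsScalarTower.toAlgHom K L E) _ }
    have hT' : E ≤ T' := by
      rw [normalClosure_le_iff]
      rintro g _ ⟨a, rfl⟩
      exact ⟨(normalClosure.algHomEquiv K L Ω).symm g a, hT _ _, rfl⟩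
    obtain ⟨z, hz, hzy⟩ := hT' y.2
    have h1 : z = y := Subtype.ext hzy
    rw [← h1]; exact hz
  obtain ⟨h1, σ, b, h2, h3⟩ := galois_pure_abs p hdeg hgen x hnx
  exact ⟨E, inferInstance, inferInstance, inferInstance, inferInstance, inferInstance,
    σ, b, h1, h2, h3⟩

section det

variable {D A : Type} [DivisionRing D] [CommGroup A]

open Classical in
/-- a multiplicative function extended by zero -/
noncomputable def ext0 (F : D → A) (hmul : ∀ a b : D, a ≠ 0 → b ≠ 0 → F (a * b) = F a * F b) :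
    D →*₀ WithZero A where
  toFun a := if a = 0 then 0 else (F a : WithZero A)
  map_zero' := by simp
  map_one' := by
    rw [if_neg one_ne_zero]
    have h := hmul 1 1 one_ne_zero one_ne_zero
    rw [mul_one] at h
    have h1 : F 1 = 1 := mul_eq_left.mp h.symm
    rw [h1]; rfl
  map_mul' a b := by
    by_cases ha : a = 0
    · simp [ha]
    · by_cases hb : b = 0
      · simp [hb]
      · rw [if_neg (mul_ne_zero ha hb), if_neg ha, if_neg hb, hmul a b ha hb, WithZero.coe_mul]

theorem ext0_apply (F : D → A) (hmul : ∀ a b : D, a ≠ 0 → b ≠ 0 → F (a * b) = F a * F b)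
    {a : D} (ha : a ≠ 0) : ext0 F hmul a = (F a : WithZero A) := if_neg ha

theorem mdet_ne_zero {φ : D →*₀ WithZero A} (hneg : φ (-1) = 1) {n : ℕ}
    {M : Matrix (Fin n) (Fin n) D} (hM : IsUnit M) : mdet φ M ≠ 0 := by
  obtain ⟨U, rfl⟩ := hM
  have h1 := mdet_mul hneg U.isUnit (↑U⁻¹ : Matrix (Fin n) (Fin n) D)
  rw [Units.mul_inv, mdet_one hneg] at h1
  exact left_ne_zero_of_mul_eq_one h1.symm

theorem mdet_conj {φ : D →*₀ WithZero A} (hneg : φ (-1) = 1) {n : ℕ}
    {M N P : Matrix (Fin n) (Fin n) D} (hM : IsUnit M) (hP : IsUnit P) (h : M * P = P * N) :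
    mdet φ M = mdet φ N := by
  have h1 := congrArg (mdet φ) h
  rw [mdet_mul hneg hM, mdet_mul hneg hP, mul_comm] at h1
  exact mul_left_cancel₀ (mdet_ne_zero hneg hP) h1

theorem mdet_scalar {φ : D →*₀ WithZero A} (hneg : φ (-1) = 1) (n : ℕ) (a : D) :
    mdet φ (Matrix.diagonal fun _ : Fin n => a) = φ a ^ n := by
  rw [mdet_diagonal hneg, Finset.prod_const, Finset.card_univ, Fintype.card_fin]

end det

section sk1

variable {p : ℕ} {K D F : Type} [Field K] [CharZero K] [DivisionRing D] [Algebra K D]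
  [FiniteDimensional K D] [Algebra.IsCentral K D] [Field F] [Algebra K F]
  {A : Type} [CommGroup A] (F0 : D → A)
  (hmul : ∀ a b : D, a ≠ 0 → b ≠ 0 → F0 (a * b) = F0 a * F0 b) (hneg : F0 (-1) = 1)

include hmul hneg

theorem F0_one : F0 1 = 1 := by
  have h := hmul 1 1 one_ne_zero one_ne_zero
  rw [mul_one] at h
  exact mul_eq_left.mp h.symm

theorem F0_inv {a : D} (ha : a ≠ 0) : F0 a⁻¹ = (F0 a)⁻¹ := by
  have h := hmul a a⁻¹ ha (inv_ne_zero ha)
  rw [mul_inv_cancel₀ ha, F0_one F0 hmul hneg] at h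
  exact eq_inv_of_mul_eq_one_right h.symm

/-- the power of the class by the dimension is the class of the norm -/
theorem F0_pow_finrank {u : D} (hu : u ≠ 0) :
    F0 u ^ finrank K D = F0 (algebraMap K D (Algebra.norm K u)) := by
  have hφ : ext0 F0 hmul (-1) = 1 := by
    rw [ext0_apply F0 hmul (neg_ne_zero.mpr one_ne_zero), hneg]; rfl
  let b := finBasis K D
  have hU : IsUnit (Matrix.diagonal fun _ : Fin (finrank K D) => u) :=
    ⟨⟨Matrix.diagonal fun _ => u, Matrix.diagonal fun _ => u⁻¹, by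
      rw [Matrix.diagonal_mul_diagonal, ← Matrix.diagonal_one]
      congr 1; funext i; exact mul_inv_cancel₀ hu, by
      rw [Matrix.diagonal_mul_diagonal, ← Matrix.diagonal_one]
      congr 1; funext i; exact inv_mul_cancel₀ hu⟩, rfl⟩
  have h1 := mdet_conj hφ hU (SF.PPK_isUnit b) (SF.PPK_rho b u)
  have hdet : (Algebra.leftMulMatrix b u).det ≠ 0 := by
    rw [← Algebra.norm_eq_matrix_det b]
    exact Algebra.norm_ne_zero_iff.mpr hu
  have h2 : mdet (ext0 F0 hmul) (SF.rhoK b u) =
      ext0 F0 hmul (algebraMap K D (Algebra.leftMulMatrix b u).det) := mdet_map hφ _ _ hdet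
  have hn : algebraMap K D (Algebra.norm K u) ≠ 0 := by
    rw [Ne, map_eq_zero]
    exact Algebra.norm_ne_zero_iff.mpr hu
  rw [mdet_scalar hφ, h2, ← Algebra.norm_eq_matrix_det b, ext0_apply F0 hmul hu,
    ext0_apply F0 hmul hn] at h1
  exact_mod_cast h1

end sk1

end Vale.Agent.P011S

end

section
/-!
Division algebras of prime degree: triviality on elements of reduced norm one.
-/

set_option linter.unusedSectionVars false
set_option linter.unusedSimpArgs false

open Module Matrix

namespace Vale.Agent.P011S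

variable {p : ℕ} {K D F : Type} [Field K] [CharZero K] [DivisionRing D] [Algebra K D]
  [FiniteDimensional K D] [Algebra.IsCentral K D] [Field F] [Algebra K F]
  {A : Type} [CommGroup A] (F0 : D → A)
  (hmul : ∀ a b : D, a ≠ 0 → b ≠ 0 → F0 (a * b) = F0 a * F0 b) (hneg : F0 (-1) = 1)

theorem exists_noncentral (hp : p.Prime) (hD : finrank K D = p ^ 2) :
    ∃ a : D, a ∉ Set.range (algebraMap K D) := by
  by_contra hcon
  push Not at hcon
  have h1 : finrank K D = 1 := by
    rw [finrank_eq_one_iff_of_nonzero' (1 : D) one_ne_zero]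
    intro a
    obtain ⟨k, hk⟩ := hcon a
    exact ⟨k, by rw [← hk, Algebra.smul_def, mul_one]⟩
  rw [h1] at hD
  have := Nat.one_lt_pow (n := 2) (by norm_num) hp.one_lt
  omega

/-- every element lies in a maximal subfield with a generator -/
theorem exists_subfield (hp : p.Prime) (hD : finrank K D = p ^ 2) (u : D) :
    ∃ (L : Type) (_ : Field L) (_ : Algebra K L) (_ : FiniteDimensional K L) (j : L →ₐ[K] D)
      (w x : L), finrank K L = p ∧ Algebra.adjoin K {w} = ⊤ ∧ j x = u ∧
      (∀ a : D, (∀ l, j l * a = a * j l) → ∃ l, j l = a) ∧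
      (u ∉ Set.range (algebraMap K D) → x = w) := by
  have : Fact p.Prime := ⟨hp⟩
  obtain ⟨w, hwc, hwu, hwx⟩ : ∃ w : D, w ∉ Set.range (algebraMap K D) ∧ w * u = u * w ∧
      (u ∉ Set.range (algebraMap K D) → w = u) := by
    by_cases hu : u ∈ Set.range (algebraMap K D)
    · obtain ⟨a, ha⟩ := exists_noncentral (K := K) (D := D) hp hD
      obtain ⟨k, rfl⟩ := hu
      exact ⟨a, ha, (Algebra.commutes k a).symm, fun h => absurd ⟨k, rfl⟩ h⟩
    · exact ⟨u, hu, rfl, fun _ => rfl⟩
  have hint : IsIntegral K w := IsIntegral.of_finite K w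
  set f := minpoly K w with hf
  have hirr : Fact (Irreducible f) := ⟨minpoly.irreducible hint⟩
  have hf0 : f ≠ 0 := minpoly.ne_zero hint
  let j : AdjoinRoot f →ₐ[K] D := Ideal.Quotient.liftₐ (Ideal.span {f}) (Polynomial.aeval w) (by
    intro a ha
    rw [Ideal.mem_span_singleton] at ha
    obtain ⟨b, rfl⟩ := ha
    rw [map_mul, hf, minpoly.aeval, zero_mul])
  have hj : j (AdjoinRoot.root f) = w := by
    change Polynomial.aeval w Polynomial.X = w
    exact Polynomial.aeval_X w
  have : FiniteDimensional K (AdjoinRoot f) := (AdjoinRoot.powerBasis hf0).finite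
  have hdeg := SF.finrank_sub hD hwc j _ hj
  have hC := SF.centralizer_sub hD hwc j _ hj hdeg
  obtain ⟨x, hx⟩ := hC u hwu
  refine ⟨AdjoinRoot f, inferInstance, inferInstance, inferInstance, j, AdjoinRoot.root f, x,
    hdeg, AdjoinRoot.adjoinRoot_eq_top, hx, fun a ha => hC a (by rw [← hj]; exact ha _), ?_⟩
  intro hu
  apply j.toRingHom.injective
  change j x = j (AdjoinRoot.root f)
  rw [hx, hj, hwx hu]

include hmul hneg

theorem F0_pow_coprime (hp : p.Prime) (hD : finrank K D = p ^ 2)
    (f : D →ₐ[K] Matrix (Fin p) (Fin p) F) {u : D} (hu : (f u).det = 1) :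
    ∃ e : ℕ, Nat.Coprime e p ∧ F0 u ^ e = 1 := by
  have : Fact p.Prime := ⟨hp⟩
  have hu0 : u ≠ 0 := by
    rintro rfl
    have : Nonempty (Fin p) := ⟨⟨0, hp.pos⟩⟩
    rw [map_zero, Matrix.det_zero] at hu
    exact zero_ne_one hu
  obtain ⟨L, _, _, _, j, w, x, hdeg, hadj, hjx, hC, -⟩ := exists_subfield (K := K) hp hD u
  have hnx : Algebra.norm K x = 1 := by
    have h1 := SF.norm_of_split hp f hdeg j x
    rw [hjx, hu] at h1
    apply (algebraMap K F).injective
    rw [← h1, map_one]
  obtain ⟨E, _, _, _, _, _, σ, b, hcop, hb0, hb⟩ := galois_pure p hdeg x hnx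
  refine ⟨finrank L E, hcop, ?_⟩
  have : CharZero L := charZero_of_injective_algebraMap (algebraMap K L).injective
  have : CharZero E := charZero_of_injective_algebraMap (algebraMap K E).injective
  obtain ⟨w', h0, hw'⟩ := SF.exists_intertwiner j σ w
    (IsIntegral.of_finite K w) hadj
  have hφ : ext0 F0 hmul (-1) = 1 := by
    rw [ext0_apply F0 hmul (neg_ne_zero.mpr one_ne_zero), hneg]; rfl
  have hPu : IsUnit (SF.PP (j : L →+* D) (σ : E →+* E) w') := by
    apply SF.isUnit_of_left_inj (K := K)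
    intro X hX
    ext i k
    have h1 : SF.PP (j : L →+* D) (σ : E →+* E) w' *ᵥ (fun i => X i k) = 0 := by
      ext i
      have := congrFun (congrFun hX i) k
      simpa only [mulVec, dotProduct, Pi.zero_apply, Matrix.mul_apply, Matrix.zero_apply] using this
    exact congrFun (SF.PP_inj (j : L →+* D) hC (σ : E →+* E) w' hw' h0 _ h1) i
  have hσb : σ b ≠ 0 := by
    intro h
    exact hb0 ((map_eq_zero σ).mp h)
  have h1 := SF.PP_mul_RR (j : L →+* D) (σ : E →+* E) w' hw' b
  have h2 := mdet_conj hφ (SF.RR_isUnit (j : L →+* D) hσb) hPu h1.symm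
  have h3 : SF.RR (j : L →+* D) (σ b) =
      (Matrix.diagonal fun _ => u) * SF.RR (j : L →+* D) b := by
    rw [hb, map_mul, SF.RR_algebraMap]
    congr 2
    funext i
    exact hjx
  have hU : IsUnit (Matrix.diagonal fun _ : Fin (finrank L E) => u) :=
    ⟨⟨Matrix.diagonal fun _ => u, Matrix.diagonal fun _ => u⁻¹, by
      rw [Matrix.diagonal_mul_diagonal, ← Matrix.diagonal_one]
      congr 1; funext i; exact mul_inv_cancel₀ hu0, by
      rw [Matrix.diagonal_mul_diagonal, ← Matrix.diagonal_one]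
      congr 1; funext i; exact inv_mul_cancel₀ hu0⟩, rfl⟩
  have h4 : mdet (ext0 F0 hmul) (SF.RR (j : L →+* D) (σ b)) =
      mdet (ext0 F0 hmul) (SF.RR (j : L →+* D) b) := h2
  rw [h3, mdet_mul hφ hU, mdet_scalar hφ] at h4
  have h5 : ext0 F0 hmul u ^ finrank L E = 1 := by
    apply mul_right_cancel₀ (mdet_ne_zero hφ (SF.RR_isUnit (j : L →+* D) hb0))
    rw [one_mul]
    exact h4
  rw [ext0_apply F0 hmul hu0] at h5
  exact_mod_cast h5

/-- **Triviality of `SK₁` in prime degree.** -/
theorem sk1_prime (hp : p.Prime) (hD : finrank K D = p ^ 2)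
    (f : D →ₐ[K] Matrix (Fin p) (Fin p) F) {u : D} (hu : (f u).det = 1) : F0 u = 1 := by
  have hu0 : u ≠ 0 := by
    rintro rfl
    have : Nonempty (Fin p) := ⟨⟨0, hp.pos⟩⟩
    rw [map_zero, Matrix.det_zero] at hu
    exact zero_ne_one hu
  obtain ⟨e, he, h1⟩ := F0_pow_coprime F0 hmul hneg hp hD f hu
  have h2 := F0_pow_finrank (K := K) F0 hmul hneg hu0
  have h3 : Algebra.norm K u = 1 := by
    have h4 := SF.norm_eq_det_pow hp.pos hD f u
    rw [hu, one_pow] at h4
    apply (algebraMap K F).injective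
    rw [h4, map_one]
  rw [h3, map_one, F0_one F0 hmul hneg, hD] at h2
  have hcop : Nat.Coprime e (p ^ 2) := Nat.Coprime.pow_right 2 he
  have h5 : orderOf (F0 u) ∣ 1 := by
    rw [← hcop.gcd_eq_one]
    exact Nat.dvd_gcd (orderOf_dvd_of_pow_eq_one h1) (orderOf_dvd_of_pow_eq_one h2)
  exact orderOf_eq_one_iff.mp (Nat.dvd_one.mp h5)

end Vale.Agent.P011S

end

section
/-!
The transfer homomorphism and the determinant as a homomorphism on invertible matrices.
-/

set_option linter.unusedSectionVars false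
set_option linter.unusedSimpArgs false

open Matrix Module TensorProduct

namespace Vale.Agent.P011S

section mdU

variable {D A : Type} [DivisionRing D] [CommGroup A] (F0 : D → A)
  (hmul : ∀ a b : D, a ≠ 0 → b ≠ 0 → F0 (a * b) = F0 a * F0 b) (hneg : F0 (-1) = 1) (r : ℕ)

include hneg in
theorem ext0_neg : ext0 F0 hmul (-1) = 1 := by
  rw [ext0_apply F0 hmul (neg_ne_zero.mpr one_ne_zero), hneg]; rfl

/-- the determinant on invertible matrices -/
noncomputable def mdU : (Matrix (Fin r) (Fin r) D)ˣ →* A where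
  toFun g := WithZero.unzero (mdet_ne_zero (ext0_neg F0 hmul hneg) g.isUnit)
  map_one' := by
    apply WithZero.coe_injective
    rw [WithZero.coe_unzero, Units.val_one, mdet_one (ext0_neg F0 hmul hneg)]
    rfl
  map_mul' g h := by
    apply WithZero.coe_injective
    rw [WithZero.coe_unzero, WithZero.coe_mul, WithZero.coe_unzero, WithZero.coe_unzero,
      Units.val_mul, mdet_mul (ext0_neg F0 hmul hneg) g.isUnit]

theorem coe_mdU (g : (Matrix (Fin r) (Fin r) D)ˣ) :
    (mdU F0 hmul hneg r g : WithZero A) = mdet (ext0 F0 hmul) (g : Matrix (Fin r) (Fin r) D) :=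
  WithZero.coe_unzero _

theorem mdU_diagonal (c : Fin r → D) (hc : ∀ i, c i ≠ 0) (g : (Matrix (Fin r) (Fin r) D)ˣ)
    (hg : (g : Matrix (Fin r) (Fin r) D) = Matrix.diagonal c) :
    mdU F0 hmul hneg r g = ∏ i, F0 (c i) := by
  apply WithZero.coe_injective
  rw [coe_mdU, hg, mdet_diagonal (ext0_neg F0 hmul hneg),
    Finset.prod_congr rfl fun i _ => ext0_apply F0 hmul (hc i)]
  exact (map_prod (WithZero.coeMonoidHom (α := A)) _ _).symm

end mdU

section transfer

variable {K D E : Type} [Field K] [DivisionRing D] [Algebra K D] [Field E] [Algebra K E]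
  {r : ℕ} (b : Basis (Fin r) K E)

/-- the regular representation of the base change -/
noncomputable def trf : E ⊗[K] D →ₐ[K] Matrix (Fin r) (Fin r) D :=
  Algebra.TensorProduct.lift ((Algebra.ofId K D).mapMatrix.comp (Algebra.leftMulMatrix b))
    (Matrix.scalarAlgHom (Fin r) K) (fun e d => by
      change _ * _ = _ * _
      ext i j
      rw [Matrix.scalarAlgHom_apply, Matrix.scalar_apply, Matrix.mul_diagonal,
        Matrix.diagonal_mul]
      change algebraMap K D _ * d = d * algebraMap K D _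
      exact Algebra.commutes _ _)

theorem trf_tmul (e : E) (d : D) (i j : Fin r) :
    trf b (e ⊗ₜ d) i j = algebraMap K D (Algebra.leftMulMatrix b e i j) * d := by
  rw [trf, Algebra.TensorProduct.lift_tmul, Matrix.scalarAlgHom_apply, Matrix.scalar_apply,
    Matrix.mul_diagonal]
  rfl

theorem trf_one_tmul (d : D) : trf b (1 ⊗ₜ d) = Matrix.diagonal fun _ => d := by
  ext i j
  rw [trf_tmul, map_one, Matrix.one_apply, Matrix.diagonal_apply]
  split_ifs <;> simp

end transfer

end Vale.Agent.P011S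

end

section
/-!
Hermitian matrices are killed by homomorphisms that kill symmetric elements; symmetric elements of
the base change.
-/

set_option linter.unusedSectionVars false
set_option linter.unusedSimpArgs false

open Matrix Module TensorProduct

namespace Vale.Agent.P011S

section herm

variable {D : Type} [DivisionRing D] [StarRing D] {n : Type} [Fintype n] [DecidableEq n]
  {C : Type} [CommGroup C]

theorem mul_tvU_apply (i j : n) (h : i ≠ j) (c : D) (g : (Matrix n n D)ˣ) (k l : n) :
    ((g * tvU i j h c : (Matrix n n D)ˣ) : Matrix n n D) k l =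
      (g : Matrix n n D) k l + if l = j then (g : Matrix n n D) k i * c else 0 := by
  rw [Units.val_mul]
  change ((g : Matrix n n D) * (1 + Matrix.single i j c)) k l = _
  rw [mul_add, mul_one, Matrix.add_apply]
  congr 1
  by_cases hl : l = j
  · subst hl
    rw [if_pos rfl, Matrix.mul_single_apply_same]
  · rw [if_neg hl, Matrix.mul_single_apply_of_ne _ _ _ _ _ hl]

/-- the congruence with a transvection -/
def cgS (i j : n) (h : i ≠ j) (c : D) (g : (Matrix n n D)ˣ) : (Matrix n n D)ˣ :=
  tvU i j h c * (g * tvU j i h.symm (star c))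

theorem cgS_apply (i j : n) (h : i ≠ j) (c : D) (g : (Matrix n n D)ˣ) (k l : n) :
    (cgS i j h c g : Matrix n n D) k l = (g : Matrix n n D) k l +
      (if l = i then (g : Matrix n n D) k j * star c else 0) +
      if k = i then c * ((g : Matrix n n D) j l +
        (if l = i then (g : Matrix n n D) j j * star c else 0)) else 0 := by
  rw [cgS, tvU_mul_apply, mul_tvU_apply, mul_tvU_apply]

theorem cgS_herm (i j : n) (h : i ≠ j) (c : D) (g : (Matrix n n D)ˣ)
    (hg : ∀ k l, star ((g : Matrix n n D) k l) = (g : Matrix n n D) l k) (k l : n) :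
    star ((cgS i j h c g : Matrix n n D) k l) = (cgS i j h c g : Matrix n n D) l k := by
  rw [cgS_apply, cgS_apply, star_add, star_add, hg]
  by_cases hl : l = i <;> by_cases hk : k = i <;>
    simp only [hl, hk, if_true, if_false, star_zero, star_mul, star_add, star_star, hg, add_zero,
      mul_add, add_mul, mul_assoc, h, h.symm] <;> abel

theorem cgS_chi (χ : (Matrix n n D)ˣ →* C)
    (hχ : ∀ (i j : n) (h : i ≠ j) (c : D), χ (tvU i j h c) = 1) (i j : n) (h : i ≠ j) (c : D)
    (g : (Matrix n n D)ˣ) : χ (cgS i j h c g) = χ g := by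
  rw [cgS, map_mul, map_mul, hχ, hχ, one_mul, mul_one]

/-- the columns in `S` are diagonal -/
def DiagC (S : Finset n) (g : (Matrix n n D)ˣ) : Prop :=
  ∀ s ∈ S, ∀ k, k ≠ s → (g : Matrix n n D) k s = 0

theorem DiagC.cg {S : Finset n} {g : (Matrix n n D)ˣ} (hg : DiagC S g) {i j : n} (h : i ≠ j)
    (hi : i ∉ S) (hj : j ∉ S) (c : D) : DiagC S (cgS i j h c g) := by
  intro s hs k hk
  have h1 : s ≠ i := fun e => hi (e ▸ hs)
  have h2 : j ≠ s := fun e => hj (e ▸ hs)
  rw [cgS_apply, hg s hs k hk, if_neg h1, if_neg h1, hg s hs j h2]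
  simp

theorem DiagC.exists_ne {g : (Matrix n n D)ˣ} (j : n) : ∃ i, (g : Matrix n n D) i j ≠ 0 := by
  by_contra hcon
  push Not at hcon
  have h1 : (g : Matrix n n D) *ᵥ Pi.single j 1 = 0 := by
    funext k
    rw [Matrix.mulVec_single_one]
    exact hcon k
  have h2 := congrArg (fun v => ((g⁻¹ : (Matrix n n D)ˣ) : Matrix n n D) *ᵥ v) h1
  simp only [Matrix.mulVec_mulVec, Units.inv_mul, Matrix.one_mulVec, Matrix.mulVec_zero] at h2
  have h3 := congrFun h2 j
  rw [Pi.single_eq_same] at h3
  exact one_ne_zero h3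

theorem DiagC.insert (h2 : (2 : D) ≠ 0) {S : Finset n} {g : (Matrix n n D)ˣ} (hg : DiagC S g)
    (hh : ∀ k l, star ((g : Matrix n n D) k l) = (g : Matrix n n D) l k) {j : n}
    (hj : j ∉ S) (χ : (Matrix n n D)ˣ →* C)
    (hχ : ∀ (i j : n) (h : i ≠ j) (c : D), χ (tvU i j h c) = 1) :
    ∃ g' : (Matrix n n D)ˣ, χ g' = χ g ∧ DiagC (insert j S) g' ∧
      ∀ k l, star ((g' : Matrix n n D) k l) = (g' : Matrix n n D) l k := by
  -- a nonzero diagonal entry
  obtain ⟨g1, e1, e2, e3, e4⟩ : ∃ g1 : (Matrix n n D)ˣ, χ g1 = χ g ∧ DiagC S g1 ∧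
      (∀ k l, star ((g1 : Matrix n n D) k l) = (g1 : Matrix n n D) l k) ∧
      (g1 : Matrix n n D) j j ≠ 0 := by
    by_cases h0 : (g : Matrix n n D) j j = 0
    · obtain ⟨i, hi⟩ := DiagC.exists_ne (g := g) j
      have hij : j ≠ i := by rintro rfl; exact hi h0
      have hiS : i ∉ S := by
        intro hiS
        apply hi
        rw [← hh, hg i hiS j hij, star_zero]
      obtain ⟨a, ha⟩ : ∃ a, a = (g : Matrix n n D) i j := ⟨_, rfl⟩
      rw [← ha] at hi
      have key : ∀ c : D, (cgS j i hij c g : Matrix n n D) j j =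
          star a * star c + c * a + c * (g : Matrix n n D) i i * star c := by
        intro c
        rw [cgS_apply, h0, if_pos rfl, if_pos rfl, if_pos rfl, ← hh i j, ← ha]
        rw [mul_add, zero_add, mul_assoc, add_assoc]
      have hsa : star a ≠ 0 := star_ne_zero.mpr hi
      by_cases h1 : (cgS j i hij a⁻¹ g : Matrix n n D) j j = 0
      · refine ⟨cgS j i hij (-a⁻¹) g, cgS_chi χ hχ _ _ _ _ _, hg.cg hij hj hiS _,
          cgS_herm _ _ _ _ _ hh, ?_⟩
        intro h3
        rw [key] at h1 h3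
        rw [star_inv₀, mul_inv_cancel₀ hsa, inv_mul_cancel₀ hi] at h1
        rw [star_neg, star_inv₀, mul_neg, mul_inv_cancel₀ hsa, neg_mul, inv_mul_cancel₀ hi,
          neg_mul, neg_mul_neg] at h3
        have h4 : (2 : D) * 2 = 0 := by
          have h5 : (1 + 1 + a⁻¹ * (g : Matrix n n D) i i * (star a)⁻¹) -
              (-1 + -1 + a⁻¹ * (g : Matrix n n D) i i * (star a)⁻¹) = 0 := by
            rw [h1, h3, sub_zero]
          rw [← h5]
          norm_num
        exact mul_ne_zero h2 h2 h4
      · exact ⟨cgS j i hij a⁻¹ g, cgS_chi χ hχ _ _ _ _ _, hg.cg hij hj hiS _,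
          cgS_herm _ _ _ _ _ hh, h1⟩
    · exact ⟨g, rfl, hg, hh, h0⟩
  -- clear the column
  have key : ∀ T : Finset n, j ∉ T → ∃ g' : (Matrix n n D)ˣ, χ g' = χ g1 ∧ DiagC S g' ∧
      (∀ k l, star ((g' : Matrix n n D) k l) = (g' : Matrix n n D) l k) ∧
      (g' : Matrix n n D) j j = (g1 : Matrix n n D) j j ∧
      ∀ k ∈ T, (g' : Matrix n n D) k j = 0 := by
    intro T
    induction T using Finset.induction_on with
    | empty => intro _; exact ⟨g1, rfl, e2, e3, rfl, fun k hk => by simp at hk⟩
    | insert a T haT ih =>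
      intro hjT
      have hja : a ≠ j := fun e => hjT (by simp [e])
      obtain ⟨g', h1, h2, h3, h4, h5⟩ := ih (fun h => hjT (by simp [h]))
      by_cases haS : a ∈ S
      · refine ⟨g', h1, h2, h3, h4, ?_⟩
        intro k hk
        by_cases hka : k = a
        · subst hka
          rw [← h3, h2 k haS j hja.symm, star_zero]
        · exact h5 k ((Finset.mem_insert.mp hk).resolve_left hka)
      · refine ⟨cgS a j hja (-((g' : Matrix n n D) a j * ((g' : Matrix n n D) j j)⁻¹)) g',
          by rw [cgS_chi χ hχ, h1], h2.cg hja haS hj _, cgS_herm _ _ _ _ _ h3, ?_, ?_⟩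
        · rw [cgS_apply, if_neg hja.symm, if_neg hja.symm, add_zero, add_zero, h4]
        · intro k hk
          rw [cgS_apply, if_neg hja.symm, if_neg hja.symm, add_zero, add_zero]
          by_cases hka : k = a
          · subst hka
            rw [if_pos rfl, neg_mul, inv_mul_cancel_right₀ (by rw [h4]; exact e4), add_neg_cancel]
          · rw [if_neg hka, add_zero]
            exact h5 k ((Finset.mem_insert.mp hk).resolve_left hka)
  obtain ⟨g2, h1, h2, h3, h4, h5⟩ := key (Finset.univ.erase j) (by simp only [Finset.mem_erase, ne_eq, not_true_eq_false, Finset.mem_univ, and_true, not_false_eq_true])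
  refine ⟨g2, h1.trans e1, ?_, h3⟩
  intro s hs k hk
  rcases Finset.mem_insert.mp hs with rfl | hs
  · exact h5 k (by simp only [Finset.mem_erase, ne_eq, hk, not_false_eq_true, Finset.mem_univ, and_self])
  · exact h2 s hs k hk

/-- homomorphisms killing the diagonal matrices with symmetric entries kill the hermitian
matrices -/
theorem chi_herm (h2 : (2 : D) ≠ 0) (χ : (Matrix n n D)ˣ →* C)
    (hd : ∀ (c : n → D) (g : (Matrix n n D)ˣ), (g : Matrix n n D) = Matrix.diagonal c →
      (∀ i, star (c i) = c i) → χ g = 1) (g : (Matrix n n D)ˣ)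
    (hg : ((g : Matrix n n D))ᴴ = g) : χ g = 1 := by
  have hχ := chi_tvU h2 χ
  have hh : ∀ k l, star ((g : Matrix n n D) k l) = (g : Matrix n n D) l k := by
    intro k l
    conv_rhs => rw [← hg]
    rfl
  have key : ∀ S : Finset n, ∃ g' : (Matrix n n D)ˣ, χ g' = χ g ∧ DiagC S g' ∧
      ∀ k l, star ((g' : Matrix n n D) k l) = (g' : Matrix n n D) l k := by
    intro S
    induction S using Finset.induction_on with
    | empty => exact ⟨g, rfl, fun s hs => by simp at hs, hh⟩
    | insert a S haS ih =>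
      obtain ⟨g', h1, h3, h4⟩ := ih
      obtain ⟨g'', h5, h6, h7⟩ := h3.insert h2 h4 haS χ hχ
      exact ⟨g'', h5.trans h1, h6, h7⟩
  obtain ⟨g', h1, h3, h4⟩ := key Finset.univ
  rw [← h1]
  refine hd (fun i => (g' : Matrix n n D) i i) g' ?_ fun i => h4 i i
  ext i j
  rw [Matrix.diagonal_apply]
  split_ifs with hij
  · subst hij; rfl
  · exact h3 j (Finset.mem_univ j) i hij

end herm

section symm

variable {K D E : Type} [Field K] [CharZero K] [StarRing K] [DivisionRing D] [StarRing D]
  [Algebra K D] [StarModule K D] [Field E] [StarRing E] [Algebra K E] [StarModule K E]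
  {r : ℕ} (b : Basis (Fin r) K E) (hb : ∀ i, star (b i) = b i)

include hb

theorem repr_star (x : E) (i : Fin r) : b.repr (star x) i = star (b.repr x i) := by
  have h1 : star x = ∑ i, star (b.repr x i) • b i := by
    conv_lhs => rw [← b.sum_repr x, star_sum]
    exact Finset.sum_congr rfl fun i _ => by rw [star_smul, hb]
  rw [h1, b.repr_sum_self]

theorem lmm_star (x : E) (i j : Fin r) :
    Algebra.leftMulMatrix b (star x) i j = star (Algebra.leftMulMatrix b x i j) := by
  rw [Algebra.leftMulMatrix_eq_repr_mul, Algebra.leftMulMatrix_eq_repr_mul, ← repr_star b hb,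
    star_mul, hb, mul_comm]

theorem trace_star' (x : E) : Algebra.trace K E (star x) = star (Algebra.trace K E x) := by
  rw [Algebra.trace_eq_matrix_trace b, Algebra.trace_eq_matrix_trace b, Matrix.trace,
    Matrix.trace, star_sum]
  exact Finset.sum_congr rfl fun i _ => lmm_star b hb x i i

theorem traceMatrix_star (i j : Fin r) :
    star (Algebra.traceMatrix K b i j) = Algebra.traceMatrix K b i j := by
  rw [Algebra.traceMatrix_apply, Algebra.traceForm_apply, ← trace_star' b hb, star_mul, hb, hb,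
    mul_comm]

omit hb [CharZero K] [StarRing K] [StarRing E] [StarModule K E] in
theorem traceMatrix_lmm (x : E) : Algebra.traceMatrix K b * Algebra.leftMulMatrix b x =
    (Algebra.leftMulMatrix b x)ᵀ * Algebra.traceMatrix K b := by
  have key : ∀ i j, (Algebra.traceMatrix K b * Algebra.leftMulMatrix b x) i j =
      Algebra.trace K E (b i * (x * b j)) := by
    intro i j
    rw [Matrix.mul_apply]
    have h1 : x * b j = ∑ k, Algebra.leftMulMatrix b x k j • b k := by
      rw [← b.sum_repr (x * b j)]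
      exact Finset.sum_congr rfl fun k _ => by rw [Algebra.leftMulMatrix_eq_repr_mul]
    rw [h1, Finset.mul_sum, map_sum]
    refine Finset.sum_congr rfl fun k _ => ?_
    rw [Algebra.traceMatrix_apply, Algebra.traceForm_apply, mul_smul_comm, map_smul, smul_eq_mul,
      mul_comm]
  have hT : (Algebra.traceMatrix K b)ᵀ = Algebra.traceMatrix K b := by
    ext i j
    rw [Matrix.transpose_apply, Algebra.traceMatrix_apply, Algebra.traceMatrix_apply,
      Algebra.traceForm_apply, Algebra.traceForm_apply, mul_comm]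
  ext i j
  have h2 : (Algebra.leftMulMatrix b x)ᵀ * Algebra.traceMatrix K b =
      (Algebra.traceMatrix K b * Algebra.leftMulMatrix b x)ᵀ := by
    rw [Matrix.transpose_mul, hT]
  rw [h2, Matrix.transpose_apply, key, key]
  congr 1
  ring

theorem trf_star (x : E ⊗[K] D) :
    (Algebra.traceMatrix K b).map (algebraMap K D) * trf b (star x) =
      (trf b x)ᴴ * (Algebra.traceMatrix K b).map (algebraMap K D) := by
  induction x using TensorProduct.induction_on with
  | zero => simp
  | add x y hx hy => rw [star_add, map_add, map_add, mul_add, Matrix.conjTranspose_add, add_mul,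
      hx, hy]
  | tmul e d =>
    ext i j
    rw [TensorProduct.star_tmul, Matrix.mul_apply, Matrix.mul_apply]
    have h1 : ∀ k, (Algebra.traceMatrix K b).map (algebraMap K D) i k *
        trf b (star e ⊗ₜ star d) k j = algebraMap K D (Algebra.traceMatrix K b i k *
          Algebra.leftMulMatrix b (star e) k j) * star d := by
      intro k
      rw [trf_tmul, Matrix.map_apply, map_mul, mul_assoc]
    have h2 : ∀ k, (trf b (e ⊗ₜ d))ᴴ i k * (Algebra.traceMatrix K b).map (algebraMap K D) k j =
        algebraMap K D ((Algebra.leftMulMatrix b (star e))ᵀ i k *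
          Algebra.traceMatrix K b k j) * star d := by
      intro k
      rw [Matrix.conjTranspose_apply, trf_tmul, Matrix.map_apply, map_mul, star_mul,
        ← algebraMap_star_comm, ← lmm_star b hb, Matrix.transpose_apply, mul_assoc, ← map_mul]
      exact (Algebra.commutes _ _).symm
    rw [Finset.sum_congr rfl fun k _ => h1 k, Finset.sum_congr rfl fun k _ => h2 k,
      ← Finset.sum_mul, ← Finset.sum_mul, ← map_sum, ← map_sum, ← Matrix.mul_apply,
      ← Matrix.mul_apply, traceMatrix_lmm]

variable {A : Type} [CommGroup A] (F0 : D → A)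
  (hmul : ∀ a b : D, a ≠ 0 → b ≠ 0 → F0 (a * b) = F0 a * F0 b)
  (hsym : ∀ s : D, s ≠ 0 → star s = s → F0 s = 1) (hneg : F0 (-1) = 1)

include hsym

/-- symmetric units of the base change are killed -/
theorem trf_sym (x : (E ⊗[K] D)ˣ) (hx : star (x : E ⊗[K] D) = x) :
    mdU F0 hmul hneg r (Units.map ((trf b : E ⊗[K] D →ₐ[K] _) : E ⊗[K] D →* _) x) = 1 := by
  have hfin : FiniteDimensional K E := b.finiteDimensional_of_finite
  have hdet : (Algebra.traceMatrix K b).det ≠ 0 := by
    rw [Algebra.traceMatrix_of_basis]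
    exact det_traceForm_ne_zero b
  have h2 : (2 : D) ≠ 0 := by
    have : CharZero D := charZero_of_injective_algebraMap (algebraMap K D).injective
    exact two_ne_zero
  have hherm : ∀ g : (Matrix (Fin r) (Fin r) D)ˣ, ((g : Matrix (Fin r) (Fin r) D))ᴴ = g →
      mdU F0 hmul hneg r g = 1 := by
    refine chi_herm h2 _ ?_
    intro c g hg hc
    have hc0 : ∀ i, c i ≠ 0 := by
      intro i h0
      obtain ⟨k, hk⟩ := DiagC.exists_ne (g := g) i
      apply hk
      rw [hg, Matrix.diagonal_apply]
      split_ifs with h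
      · rw [h, h0]
      · rfl
    rw [mdU_diagonal F0 hmul hneg r c hc0 g hg]
    exact Finset.prod_eq_one fun i _ => hsym _ (hc0 i) (hc i)
  have hu : IsUnit ((Algebra.traceMatrix K b).map (algebraMap K D)) := by
    have := (Matrix.isUnit_iff_isUnit_det _).mpr (isUnit_iff_ne_zero.mpr hdet)
    exact this.map ((algebraMap K D).mapMatrix)
  obtain ⟨B, hB⟩ := hu
  have h3 : mdU F0 hmul hneg r B = 1 := by
    apply WithZero.coe_injective
    rw [coe_mdU, hB, mdet_map (ext0_neg F0 hmul hneg) _ _ hdet, ext0_apply F0 hmul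
      (by rwa [Ne, map_eq_zero]), hsym _ (by rwa [Ne, map_eq_zero])]
    rw [← algebraMap_star_comm]
    congr 1
    have h4 := RingHom.map_det (starRingEnd K) (Algebra.traceMatrix K b)
    rw [starRingEnd_apply] at h4
    rw [h4]
    congr 1
    ext i j
    exact traceMatrix_star b hb i j
  have h4 : mdU F0 hmul hneg r
      (B * Units.map ((trf b : E ⊗[K] D →ₐ[K] _) : E ⊗[K] D →* _) x) = 1 := by
    apply hherm
    rw [Units.val_mul, hB]
    change ((Algebra.traceMatrix K b).map (algebraMap K D) * trf b (x : E ⊗[K] D))ᴴ =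
      (Algebra.traceMatrix K b).map (algebraMap K D) * trf b (x : E ⊗[K] D)
    conv_rhs => rw [← hx, trf_star b hb]
    rw [Matrix.conjTranspose_mul]
    congr 1
    ext i j
    rw [Matrix.conjTranspose_apply, Matrix.map_apply, Matrix.map_apply, ← algebraMap_star_comm,
      traceMatrix_star b hb, Algebra.traceMatrix_apply, Algebra.traceMatrix_apply,
      Algebra.traceForm_apply, Algebra.traceForm_apply, mul_comm]
  rwa [map_mul, h3, one_mul] at h4

end symm

end Vale.Agent.P011S

end

section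
/-!
The base change of a central division algebra as a matrix algebra over a division algebra.
-/

set_option linter.unusedSectionVars false
set_option linter.unusedSimpArgs false

open Matrix Module TensorProduct

namespace Vale.Agent.P011S

variable {K D E : Type} [Field K] [DivisionRing D] [Algebra K D] [FiniteDimensional K D]
  [Algebra.IsCentral K D] [Field E] [Algebra K E]

/-- extension of a splitting to the base change -/
noncomputable def bcf {Ω : Type} [Field Ω] [Algebra K Ω] [Algebra E Ω] [IsScalarTower K E Ω]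
    {d : ℕ} (g : D →ₐ[K] Matrix (Fin d) (Fin d) Ω) :
    E ⊗[K] D →ₐ[E] Matrix (Fin d) (Fin d) Ω :=
  AlgHom.liftEquiv K E D _ g

theorem bcf_one_tmul {Ω : Type} [Field Ω] [Algebra K Ω] [Algebra E Ω] [IsScalarTower K E Ω]
    {d : ℕ} (g : D →ₐ[K] Matrix (Fin d) (Fin d) Ω) (x : D) :
    bcf (E := E) g (1 ⊗ₜ x) = g x := by
  rw [bcf, AlgHom.liftEquiv_tmul, one_smul]

theorem exists_wed {d : ℕ} (hD : finrank K D = d ^ 2) :
    ∃ (n : ℕ) (_ : NeZero n) (Δ : Type) (_ : DivisionRing Δ) (_ : Algebra E Δ)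
      (_ : FiniteDimensional E Δ) (_ : Algebra.IsCentral E Δ)
      (_ : E ⊗[K] D ≃ₐ[E] Matrix (Fin n) (Fin n) Δ), n ^ 2 * finrank E Δ = d ^ 2 := by
  have : IsSimpleRing (E ⊗[K] D) := simple_tensor
  have : IsArtinianRing (E ⊗[K] D) := IsArtinianRing.of_finite E _
  obtain ⟨n, hn, Δ, i1, i2, i3, ⟨ψ⟩⟩ :=
    IsSimpleRing.exists_algEquiv_matrix_divisionRing_finite E (E ⊗[K] D)
  have hcen : Algebra.IsCentral E Δ := by
    refine ⟨fun c hc => ?_⟩
    rw [Subalgebra.mem_center_iff] at hc
    obtain ⟨e, he⟩ := center_tensor (K := K) (D := D) (E := E)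
      (x := ψ.symm (Matrix.scalar (Fin n) c)) (by
        intro d
        apply ψ.injective
        rw [map_mul, map_mul, ψ.apply_symm_apply]
        ext i j
        rw [Matrix.scalar_apply, Matrix.mul_diagonal, Matrix.diagonal_mul]
        exact hc _)
    have h1 : Matrix.scalar (Fin n) c = algebraMap E (Matrix (Fin n) (Fin n) Δ) e := by
      rw [← ψ.apply_symm_apply (Matrix.scalar (Fin n) c), he]
      exact ψ.commutes e
    rw [Algebra.mem_bot]
    refine ⟨e, ?_⟩
    have h2 := congrFun (congrFun h1 0) 0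
    rw [Matrix.scalar_apply, Matrix.diagonal_apply_eq, Matrix.algebraMap_matrix_apply,
      if_pos rfl] at h2
    exact h2.symm
  refine ⟨n, hn, Δ, i1, i2, i3, hcen, ψ, ?_⟩
  have h1 := ψ.toLinearEquiv.finrank_eq
  rw [Module.finrank_baseChange, hD, Module.finrank_matrix, Fintype.card_fin] at h1
  rw [h1, pow_two]

end Vale.Agent.P011S

end

section
/-!
Splittings over finite Galois extensions.
-/

set_option linter.unusedSectionVars false
set_option linter.unusedSimpArgs false

open Matrix Module TensorProduct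

namespace Vale.Agent.P011S

variable {K D : Type} [Field K] [DivisionRing D] [Algebra K D] [FiniteDimensional K D]
  [Algebra.IsCentral K D]

theorem exists_split {d : ℕ} (hD : finrank K D = d ^ 2) (Ω : Type) [Field Ω] [IsAlgClosed Ω]
    [Algebra K Ω] : Nonempty (D →ₐ[K] Matrix (Fin d) (Fin d) Ω) := by
  have : IsSimpleRing (Ω ⊗[K] D) := simple_tensor
  obtain ⟨n, hn, ⟨ψ⟩⟩ := IsSimpleRing.exists_algEquiv_matrix_of_isAlgClosed Ω (Ω ⊗[K] D)
  have h1 := ψ.toLinearEquiv.finrank_eq
  rw [Module.finrank_baseChange, hD, Module.finrank_matrix, Fintype.card_fin,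
    Module.finrank_self, mul_one, ← pow_two] at h1
  have h2 : d = n := Nat.pow_left_injective (n := 2) (by norm_num) h1
  subst h2
  exact ⟨((ψ : Ω ⊗[K] D →ₐ[Ω] _).restrictScalars K).comp Algebra.TensorProduct.includeRight⟩

/-- a central division algebra splits over a finite Galois extension -/
theorem exists_galois_split {k : Type} [Field k] [CharZero k] [Algebra k K]
    [FiniteDimensional k K] {d : ℕ} (hD : finrank K D = d ^ 2) :
    ∃ (N : Type) (_ : Field N) (_ : Algebra k N) (_ : Algebra K N) (_ : IsScalarTower k K N)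
      (_ : FiniteDimensional k N) (_ : IsGalois k N),
      Nonempty (D →ₐ[K] Matrix (Fin d) (Fin d) N) := by
  let Ω := AlgebraicClosure K
  obtain ⟨g0⟩ := exists_split (K := K) (D := D) hD Ω
  have halg : Algebra.IsAlgebraic k Ω := Algebra.IsAlgebraic.trans k K Ω
  have : IsAlgClosure k Ω := ⟨inferInstance, halg⟩
  let β := finBasis K D
  let γ := finBasis k K
  let S : Set Ω := Set.range (fun t : Fin (finrank K D) × Fin d × Fin d => g0 (β t.1) t.2.1 t.2.2) ∪
    Set.range (fun i => algebraMap K Ω (γ i))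
  have hSfin : S.Finite := (Set.finite_range _).union (Set.finite_range _)
  have : Finite S := hSfin
  have hfd0 : FiniteDimensional k (IntermediateField.adjoin k S) :=
    IntermediateField.finiteDimensional_adjoin
      fun x _ => (Algebra.IsAlgebraic.isAlgebraic (R := k) x).isIntegral
  let N := IntermediateField.normalClosure k (IntermediateField.adjoin k S) Ω
  have hS : ∀ x ∈ S, x ∈ N := fun x hx =>
    IntermediateField.le_normalClosure _ (IntermediateField.subset_adjoin k S hx)
  have hK : ∀ x : K, algebraMap K Ω x ∈ N := by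
    intro x
    rw [← γ.sum_repr x, map_sum]
    refine sum_mem fun i _ => ?_
    rw [Algebra.smul_def, map_mul, ← IsScalarTower.algebraMap_apply]
    exact mul_mem (N.algebraMap_mem _) (hS _ (Or.inr ⟨i, rfl⟩))
  let algK : Algebra K N := ((algebraMap K Ω).codRestrict N hK).toAlgebra
  have hKN : ∀ x : K, ((algebraMap K N x : N) : Ω) = algebraMap K Ω x := fun x => rfl
  have htow : IsScalarTower k K N := IsScalarTower.of_algebraMap_eq fun x => by
    apply Subtype.ext
    rw [hKN, ← IsScalarTower.algebraMap_apply]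
    rfl
  have hnormal : Normal k N := inferInstance
  have hgal : IsGalois k N := ⟨⟩
  have hg : ∀ x i j, g0 x i j ∈ N := by
    intro x i j
    rw [← β.sum_repr x, map_sum, Matrix.sum_apply]
    refine sum_mem fun t _ => ?_
    rw [map_smul, Matrix.smul_apply, Algebra.smul_def]
    exact mul_mem (hK _) (hS _ (Or.inl ⟨(t, i, j), rfl⟩))
  refine ⟨N, inferInstance, inferInstance, algK, htow, inferInstance, hgal, ⟨?_⟩⟩
  refine
    { toFun := fun x => Matrix.of fun i j => ⟨g0 x i j, hg x i j⟩
      map_one' := ?_, map_mul' := ?_, map_zero' := ?_, map_add' := ?_, commutes' := ?_ }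
  · ext i j
    rw [Matrix.of_apply]
    change g0 1 i j = _
    rw [map_one, Matrix.one_apply, Matrix.one_apply]
    split_ifs <;> rfl
  · intro x y
    ext i j
    rw [Matrix.of_apply, Matrix.mul_apply]
    change g0 (x * y) i j = _
    rw [map_mul, Matrix.mul_apply]
    rw [AddSubmonoidClass.coe_finsetSum]
    rfl
  · ext i j
    rw [Matrix.of_apply]
    change g0 0 i j = _
    rw [map_zero]; rfl
  · intro x y
    ext i j
    change g0 (x + y) i j = g0 x i j + g0 y i j
    rw [map_add]; rfl
  · intro c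
    ext i j
    change g0 (algebraMap K D c) i j = _
    rw [AlgHom.commutes, Matrix.algebraMap_matrix_apply, Matrix.algebraMap_matrix_apply]
    split_ifs
    · rw [hKN]
    · rfl

/-- the fixed field of a Sylow subgroup -/
theorem exists_sylow_field {k N : Type} [Field k] [Field N] [Algebra k N]
    [FiniteDimensional k N] [IsGalois k N] (p : ℕ) [hp : Fact p.Prime] :
    ∃ E : IntermediateField k N, Nat.Coprime (finrank k E) p ∧ ∃ a : ℕ, finrank E N = p ^ a := by
  obtain ⟨P⟩ : Nonempty (Sylow p (N ≃ₐ[k] N)) := inferInstance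
  have h1 : finrank (IntermediateField.fixedField (P : Subgroup (N ≃ₐ[k] N))) N =
      Nat.card (P : Subgroup (N ≃ₐ[k] N)) := IntermediateField.finrank_fixedField_eq_card _
  obtain ⟨a, ha⟩ := (IsPGroup.iff_card.mp P.isPGroup')
  refine ⟨IntermediateField.fixedField (P : Subgroup (N ≃ₐ[k] N)), ?_, a, by rw [h1, ha]⟩
  have h2 := finrank_mul_finrank k (IntermediateField.fixedField (P : Subgroup (N ≃ₐ[k] N))) N
  have h3 := Subgroup.card_mul_index (P : Subgroup (N ≃ₐ[k] N))
  rw [IsGalois.card_aut_eq_finrank, ← h2, h1, mul_comm] at h3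
  have hpos : 0 < Nat.card (P : Subgroup (N ≃ₐ[k] N)) := by rw [ha]; exact pow_pos hp.out.pos a
  have h4 := Nat.eq_of_mul_eq_mul_right hpos h3
  rw [← h4, Nat.coprime_comm, hp.out.coprime_iff_not_dvd]
  exact P.not_dvd_index

end Vale.Agent.P011S

end

section
/-!
Elements of reduced norm one in square-free degree: the part at an odd prime.
-/

set_option linter.unusedSectionVars false
set_option linter.unusedSimpArgs false

open Matrix Module TensorProduct

namespace Vale.Agent.P011S

/-- the corner of a splitting -/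
theorem exists_corner {E Δ Ω : Type} [Field E] [DivisionRing Δ] [Algebra E Δ] [Field Ω]
    [CharZero Ω] [Algebra E Ω] {n d q : ℕ} [NeZero n]
    (G : Matrix (Fin n) (Fin n) Δ →ₐ[E] Matrix (Fin d) (Fin d) Ω) (hq : n * q = d) :
    ∃ f2 : Δ →ₐ[E] Matrix (Fin q) (Fin q) Ω,
      ∀ δ : Δˣ, (G (dgU 0 δ : (Matrix (Fin n) (Fin n) Δ)ˣ)).det = (f2 (δ : Δ)).det := by
  have h1 := corner_dim G
  have h2 : finrank Ω (cW G) = q :=
    Nat.eq_of_mul_eq_mul_left (Nat.pos_of_ne_zero (NeZero.ne n)) (h1.trans hq.symm)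
  subst h2
  exact ⟨cF G, corner_det G⟩

section

variable {K D : Type} [Field K] [CharZero K] [DivisionRing D] [Algebra K D]
  [FiniteDimensional K D] [Algebra.IsCentral K D]

theorem exists_data {E N : Type} [Field E] [Algebra K E] [Field N] [Algebra K N]
    [Algebra E N] [IsScalarTower K E N] [FiniteDimensional E N] {p a d : ℕ} (hp : p.Prime)
    (hN : finrank E N = p ^ a) (g : D →ₐ[K] Matrix (Fin d) (Fin d) N) (hsq : Squarefree d)
    (hD : finrank K D = d ^ 2) :
    ∃ (n : ℕ) (_ : NeZero n) (Δ : Type) (_ : DivisionRing Δ) (_ : Algebra E Δ)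
      (_ : FiniteDimensional E Δ) (_ : Algebra.IsCentral E Δ)
      (_ : E ⊗[K] D ≃ₐ[E] Matrix (Fin n) (Fin n) Δ) (q : ℕ),
      n * q = d ∧ finrank E Δ = q ^ 2 ∧ (q = 1 ∨ q = p) := by
  obtain ⟨n, hn, Δ, i1, i2, i3, i4, ψ, h1⟩ := exists_wed (E := E) hD
  have hd : 0 < d := Nat.pos_of_ne_zero hsq.ne_zero
  have : CharZero N := charZero_of_injective_algebraMap (algebraMap K N).injective
  let G : Matrix (Fin n) (Fin n) Δ →ₐ[E] Matrix (Fin d) (Fin d) N :=
    (bcf g).comp (ψ.symm : Matrix (Fin n) (Fin n) Δ →ₐ[E] E ⊗[K] D)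
  have h2 := corner_dim G
  obtain ⟨q, hq⟩ : ∃ q, q = finrank N (cW G) := ⟨_, rfl⟩
  rw [← hq] at h2
  have hnpos : 0 < n := Nat.pos_of_ne_zero (NeZero.ne n)
  have h3 : finrank E Δ = q ^ 2 := by
    rw [← h2, mul_pow] at h1
    exact Nat.eq_of_mul_eq_mul_left (pow_pos hnpos 2) h1
  have hq0 : 0 < q := by
    rcases Nat.eq_zero_or_pos q with h | h
    · rw [h, mul_zero] at h2; omega
    · exact h
  refine ⟨n, hn, Δ, i1, i2, i3, i4, ψ, q, h2, h3, ?_⟩
  obtain ⟨f2, -⟩ := exists_corner G h2
  have h4 := corner_dvd h3 hq0 f2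
  rw [hN] at h4
  obtain ⟨j, hj, rfl⟩ := (Nat.dvd_prime_pow hp).mp h4
  have h5 : Squarefree (p ^ j) := hsq.squarefree_of_dvd ⟨n, by rw [← h2, mul_comm]⟩
  rcases Nat.lt_or_ge j 2 with hj2 | hj2
  · interval_cases j
    · left; simp
    · right; simp
  · exfalso
    have h6 := h5 p ⟨p ^ (j - 2), by rw [← pow_two, ← pow_add]; congr 1; omega⟩
    exact hp.one_lt.ne' (Nat.isUnit_iff.mp h6)

theorem exists_galois_split' {d : ℕ} (hD : finrank K D = d ^ 2) :
    ∃ (N : Type) (_ : Field N) (_ : Algebra K N) (_ : FiniteDimensional K N) (_ : IsGalois K N),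
      Nonempty (D →ₐ[K] Matrix (Fin d) (Fin d) N) := by
  obtain ⟨N, i1, i2, i3, i4, i5, i6, g⟩ := exists_galois_split (k := K) hD
  have h : i2 = i3 := by
    apply Algebra.algebra_ext
    intro r
    exact (@IsScalarTower.algebraMap_apply K K N _ _ _ _ i3 i2 i4 r)
  subst h
  exact ⟨N, i1, i2, i5, i6, g⟩

end

section

variable {K D F : Type} [Field K] [CharZero K] [DivisionRing D] [Algebra K D]
  [FiniteDimensional K D] [Algebra.IsCentral K D] [Field F] [Algebra K F]
  {A : Type} [CommGroup A] (F0 : D → A)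
  (hmul : ∀ a b : D, a ≠ 0 → b ≠ 0 → F0 (a * b) = F0 a * F0 b) (hneg : F0 (-1) = 1)

include hmul hneg

/-- homomorphisms on the division algebra of the base change -/
theorem sk1_scalar {E Δ Ω : Type} [Field E] [DivisionRing Δ] [Algebra E Δ]
    [FiniteDimensional E Δ] [Field Ω] [Algebra E Ω] (h1 : finrank E Δ = 1)
    (f2 : Δ →ₐ[E] Matrix (Fin 1) (Fin 1) Ω) {δ : Δ} (hδ : (f2 δ).det = 1) : δ = 1 := by
  obtain ⟨e, rfl⟩ : δ ∈ Set.range (algebraMap E Δ) := by
    have h2 := finrank_eq_one_iff_of_nonzero' (1 : Δ) one_ne_zero |>.mp h1 δ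
    obtain ⟨c, hc⟩ := h2
    exact ⟨c, by rw [← hc, Algebra.smul_def, mul_one]⟩
  rw [AlgHom.commutes, Matrix.det_fin_one, Matrix.algebraMap_matrix_apply, if_pos rfl] at hδ
  have h3 : e = 1 := (algebraMap E Ω).injective (by rw [hδ, map_one])
  rw [h3, map_one]

theorem sk1_part {p d : ℕ} (hp : p.Prime) (hp2 : p ≠ 2) (hsq : Squarefree d)
    (hD : finrank K D = d ^ 2) (f : D →ₐ[K] Matrix (Fin d) (Fin d) F) {u : D}
    (hu : (f u).det = 1) : ∃ e, Nat.Coprime e p ∧ F0 u ^ e = 1 := by
  classical
  have : Fact p.Prime := ⟨hp⟩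
  have hd : 0 < d := Nat.pos_of_ne_zero hsq.ne_zero
  have hu0 : u ≠ 0 := by
    rintro rfl
    have : Nonempty (Fin d) := ⟨⟨0, hd⟩⟩
    rw [map_zero, Matrix.det_zero] at hu
    exact zero_ne_one hu
  obtain ⟨N, _, _, _, _, ⟨g⟩⟩ := exists_galois_split' (K := K) (D := D) hD
  obtain ⟨E, hcop, a, ha⟩ := exists_sylow_field (k := K) (N := N) p
  obtain ⟨n, hn, Δ, i1, i2, i3, i4, ψ, q, hnq, hΔ, hq⟩ := exists_data hp ha g hsq hD
  have hcE : CharZero E := charZero_of_injective_algebraMap (algebraMap K E).injective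
  have hcΔ : CharZero Δ := charZero_of_injective_algebraMap (algebraMap E Δ).injective
  -- a common extension
  let F' := AlgebraicClosure F
  let lift : E →ₐ[K] F' := IsAlgClosed.lift
  let algE : Algebra E F' := lift.toRingHom.toAlgebra
  have htow : IsScalarTower K E F' := IsScalarTower.of_algebraMap_eq fun x => (lift.commutes x).symm
  have hcF : CharZero F' := charZero_of_injective_algebraMap (algebraMap K F').injective
  let f' : D →ₐ[K] Matrix (Fin d) (Fin d) F' :=
    ((Algebra.ofId F F').restrictScalars K).mapMatrix.comp f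
  have hf' : (f' u).det = 1 := by
    have h1 : f' u = (f u).map (algebraMap F F') := rfl
    have h2 := RingHom.map_det (algebraMap F F') (f u)
    rw [hu, map_one] at h2
    rw [h1]
    exact h2.symm
  let G : Matrix (Fin n) (Fin n) Δ →ₐ[E] Matrix (Fin d) (Fin d) F' :=
    (bcf f').comp (ψ.symm : Matrix (Fin n) (Fin n) Δ →ₐ[E] E ⊗[K] D)
  obtain ⟨f2, hf2⟩ := exists_corner G hnq
  let b := finBasis K E
  let θ : (Matrix (Fin n) (Fin n) Δ)ˣ →* A := (mdU F0 hmul hneg (finrank K E)).comp
    (Units.map (((trf b : E ⊗[K] D →ₐ[K] _) : E ⊗[K] D →* _).comp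
      (ψ.symm : Matrix (Fin n) (Fin n) Δ →* E ⊗[K] D)))
  let χ : (Matrix (Fin n) (Fin n) Δ)ˣ →* A × F'ˣ :=
    θ.prod (Units.map (Matrix.detMonoidHom.comp (G : _ →* Matrix (Fin d) (Fin d) F')))
  have h2Δ : (2 : Δ) ≠ 0 := two_ne_zero
  let U : (Matrix (Fin n) (Fin n) Δ)ˣ := Units.map
    ((ψ : E ⊗[K] D →* _).comp (Algebra.TensorProduct.includeRight : D →ₐ[K] E ⊗[K] D))
    (Units.mk0 u hu0)
  obtain ⟨δ, hδ⟩ := exists_dgU χ (chi_tvU h2Δ χ) 0 U
  have hδ1 : θ U = θ (dgU 0 δ) := congrArg Prod.fst hδ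
  have hδ2 : (G (U : Matrix (Fin n) (Fin n) Δ)).det =
      (G (dgU 0 δ : (Matrix (Fin n) (Fin n) Δ)ˣ)).det :=
    congrArg Units.val (congrArg Prod.snd hδ)
  have hU : ψ.symm (U : Matrix (Fin n) (Fin n) Δ) = 1 ⊗ₜ u := ψ.symm_apply_apply _
  have hθU : θ U = F0 u ^ finrank K E := by
    change mdU F0 hmul hneg (finrank K E) _ = _
    rw [mdU_diagonal F0 hmul hneg _ (fun _ => u) (fun _ => hu0), Finset.prod_const,
      Finset.card_univ, Fintype.card_fin]
    change trf b (ψ.symm (U : Matrix (Fin n) (Fin n) Δ)) = _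
    rw [hU, trf_one_tmul]
  have hδ3 : (f2 (δ : Δ)).det = 1 := by
    rw [← hf2, ← hδ2]
    change (bcf f' (ψ.symm (U : Matrix (Fin n) (Fin n) Δ))).det = 1
    rw [hU, bcf_one_tmul, hf']
  rcases hq with rfl | rfl
  · refine ⟨finrank K E, hcop, ?_⟩
    have h1 : (δ : Δ) = 1 := sk1_scalar F0 hmul hneg (by rw [hΔ, one_pow]) f2 hδ3
    have h2 : δ = 1 := Units.ext h1
    rw [← hθU, hδ1, h2]
    have h3 : (dgU 0 1 : (Matrix (Fin n) (Fin n) Δ)ˣ) = 1 := by
      have h4 := dgU_mul (0 : Fin n) (1 : Δˣ) 1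
      rw [mul_one] at h4
      exact mul_eq_left.mp h4.symm
    rw [h3, map_one]
  · refine ⟨finrank K E * 2, ?_, ?_⟩
    · exact Nat.Coprime.mul_left hcop ((Nat.coprime_primes Nat.prime_two hp).mpr (Ne.symm hp2))
    · let F1 : Δ → A := fun x => if h : x = 0 then 1 else θ (dgU 0 (Units.mk0 x h)) ^ 2
      have hF1 : ∀ (x : Δ) (h : x ≠ 0), F1 x = θ (dgU 0 (Units.mk0 x h)) ^ 2 :=
        fun x h => dif_neg h
      have h1 : F1 (δ : Δ) = 1 := by
        refine sk1_prime F1 ?_ ?_ hp hΔ f2 hδ3
        · intro x y hx hy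
          rw [hF1 _ hx, hF1 _ hy, hF1 _ (mul_ne_zero hx hy), ← mul_pow, ← map_mul, ← dgU_mul]
          congr 3
          exact Units.ext rfl
        · have hm : (-1 : Δ) ≠ 0 := neg_ne_zero.mpr one_ne_zero
          rw [hF1 _ hm, ← map_pow, pow_two, ← dgU_mul]
          have h4 : Units.mk0 (-1 : Δ) hm * Units.mk0 (-1 : Δ) hm = 1 := by
            apply Units.ext
            simp
          rw [h4]
          have h3 : (dgU 0 1 : (Matrix (Fin n) (Fin n) Δ)ˣ) = 1 := by
            have h4 := dgU_mul (0 : Fin n) (1 : Δˣ) 1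
            rw [mul_one] at h4
            exact mul_eq_left.mp h4.symm
          rw [h3, map_one]
      rw [pow_mul, ← hθU, hδ1]
      rw [hF1 _ δ.ne_zero] at h1
      convert h1 using 4
      exact Units.ext rfl

end

end Vale.Agent.P011S

end

section
/-!
Odd degree extensions of fields with involution.
-/

set_option linter.unusedSectionVars false
set_option linter.unusedSimpArgs false

open Matrix Module TensorProduct

namespace Vale.Agent.P011S

section

variable (K : Type) [Field K] [CharZero K] [StarRing K]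

/-- the fixed field of the involution -/
def fixK : Subfield K where
  carrier := {x | star x = x}
  mul_mem' := by
    intro a b (ha : star a = a) (hb : star b = b)
    change star (a * b) = a * b
    rw [star_mul, ha, hb, mul_comm]
  one_mem' := star_one K
  add_mem' := by
    intro a b (ha : star a = a) (hb : star b = b)
    change star (a + b) = a + b
    rw [star_add, ha, hb]
  zero_mem' := star_zero K
  neg_mem' := by
    intro a (ha : star a = a)
    change star (-a) = -a
    rw [star_neg, ha]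
  inv_mem' := by
    intro a (ha : star a = a)
    change star (a⁻¹) = a⁻¹
    rw [star_inv₀, ha]

/-- the fixed field as a type -/
def FK : Type := fixK K

noncomputable instance : Field (FK K) := inferInstanceAs (Field (fixK K))

noncomputable instance : Algebra (FK K) K := inferInstanceAs (Algebra (fixK K) K)

instance : CharZero (FK K) := inferInstanceAs (CharZero (fixK K))

variable {K} {θ : K} (hθ0 : θ ≠ 0) (hθ : star θ = -θ)

theorem star_fixK (a : FK K) : star (algebraMap (FK K) K a) = algebraMap (FK K) K a := a.2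

/-- the symmetric part -/
noncomputable def al (x : K) : FK K := (⟨(x + star x) / 2, by
  change star ((x + star x) / 2) = (x + star x) / 2
  rw [star_div₀, star_add, star_star, star_ofNat, add_comm]⟩ : fixK K)

/-- the antisymmetric part -/
noncomputable def be (x : K) : FK K := (⟨(x - star x) / (2 * θ), by
  change star ((x - star x) / (2 * θ)) = (x - star x) / (2 * θ)
  rw [star_div₀, star_sub, star_star, star_mul, star_ofNat, hθ, neg_mul, div_neg, ← neg_div,
    neg_sub, mul_comm θ]⟩ : fixK K)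

theorem coe_al (x : K) : algebraMap (FK K) K (al x) = (x + star x) / 2 := rfl

theorem coe_be (x : K) : algebraMap (FK K) K (be hθ x) = (x - star x) / (2 * θ) := rfl

include hθ0 hθ

theorem al_be (x : K) : algebraMap (FK K) K (al x) + algebraMap (FK K) K (be hθ x) * θ = x := by
  rw [coe_al, coe_be]
  field_simp
  ring

theorem al_mk (a b : FK K) :
    al (algebraMap (FK K) K a + algebraMap (FK K) K b * θ) = a := by
  apply (algebraMap (FK K) K).injective
  rw [coe_al, star_add, star_mul, star_fixK, star_fixK, hθ]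
  ring

theorem be_mk (a b : FK K) :
    be hθ (algebraMap (FK K) K a + algebraMap (FK K) K b * θ) = b := by
  apply (algebraMap (FK K) K).injective
  rw [coe_be, star_add, star_mul, star_fixK, star_fixK, hθ]
  field_simp
  ring

theorem al_be_ext {x : K} {a b : FK K}
    (h : x = algebraMap (FK K) K a + algebraMap (FK K) K b * θ) : al x = a ∧ be hθ x = b := by
  subst h
  exact ⟨al_mk hθ0 hθ a b, be_mk hθ0 hθ a b⟩

/-- the square of the generator -/
noncomputable def sqK : FK K := (⟨θ * θ, by
  change star (θ * θ) = θ * θ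
  rw [star_mul, hθ]; ring⟩ : fixK K)

omit hθ0 in
theorem coe_sqK : algebraMap (FK K) K (sqK hθ) = θ * θ := rfl

theorem al_mul (x y : K) : al (x * y) = al x * al y + sqK hθ * be hθ x * be hθ y := by
  refine (al_be_ext (b := al x * be hθ y + be hθ x * al y) hθ0 hθ ?_).1
  conv_lhs => rw [← al_be hθ0 hθ x, ← al_be hθ0 hθ y]
  simp only [map_add, map_mul, coe_sqK]
  ring

theorem be_mul (x y : K) : be hθ (x * y) = al x * be hθ y + be hθ x * al y := by
  refine (al_be_ext (a := al x * al y + sqK hθ * be hθ x * be hθ y) hθ0 hθ ?_).2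
  conv_lhs => rw [← al_be hθ0 hθ x, ← al_be hθ0 hθ y]
  simp only [map_add, map_mul, coe_sqK]
  ring

theorem al_add (x y : K) : al (x + y) = al x + al y := by
  refine (al_be_ext (b := be hθ x + be hθ y) hθ0 hθ ?_).1
  conv_lhs => rw [← al_be hθ0 hθ x, ← al_be hθ0 hθ y]
  simp only [map_add]
  ring

theorem be_add (x y : K) : be hθ (x + y) = be hθ x + be hθ y := by
  refine (al_be_ext (a := al x + al y) hθ0 hθ ?_).2
  conv_lhs => rw [← al_be hθ0 hθ x, ← al_be hθ0 hθ y]
  simp only [map_add]
  ring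

theorem al_coe (a : FK K) : al (algebraMap (FK K) K a) = a :=
  (al_be_ext (b := 0) hθ0 hθ (by rw [map_zero]; ring)).1

theorem be_coe (a : FK K) : be hθ (algebraMap (FK K) K a) = 0 :=
  (al_be_ext (a := a) hθ0 hθ (by rw [map_zero]; ring)).2

theorem al_star (x : K) : al (star x) = al x := by
  refine (al_be_ext (b := - be hθ x) hθ0 hθ ?_).1
  conv_lhs => rw [← al_be hθ0 hθ x, star_add, star_mul, star_fixK, star_fixK, hθ]
  rw [map_neg]
  ring

theorem be_star (x : K) : be hθ (star x) = - be hθ x := by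
  refine (al_be_ext (a := al x) hθ0 hθ ?_).2
  conv_lhs => rw [← al_be hθ0 hθ x, star_add, star_mul, star_fixK, star_fixK, hθ]
  rw [map_neg]
  ring

/-- coordinates over the fixed field -/
noncomputable def eqK : K ≃ₗ[FK K] (FK K × FK K) where
  toFun x := (al x, be hθ x)
  map_add' x y := by rw [al_add hθ0 hθ, be_add hθ0 hθ]; rfl
  map_smul' a x := by
    rw [Algebra.smul_def, al_mul hθ0 hθ, be_mul hθ0 hθ, al_coe hθ0 hθ, be_coe hθ0 hθ, mul_zero,
      zero_mul, zero_mul, add_zero, add_zero]
    rfl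
  invFun v := algebraMap (FK K) K v.1 + algebraMap (FK K) K v.2 * θ
  left_inv x := al_be hθ0 hθ x
  right_inv v := Prod.ext (al_mk hθ0 hθ v.1 v.2) (be_mk hθ0 hθ v.1 v.2)

theorem finite_fixK : FiniteDimensional (FK K) K :=
  Module.Finite.equiv (eqK hθ0 hθ).symm

theorem finrank_fixK : finrank (FK K) K = 2 := by
  rw [(eqK hθ0 hθ).finrank_eq, Module.finrank_prod, Module.finrank_self]

end

theorem not_odd_of_hom {k K E : Type} [Field k] [Field K] [Field E] [Algebra k K] [Algebra k E]
    (φ : K →ₐ[k] E) (h2 : finrank k K = 2) : ¬ Odd (finrank k E) := by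
  let _ : Algebra K E := φ.toRingHom.toAlgebra
  have : IsScalarTower k K E := IsScalarTower.of_algebraMap_eq fun x => (φ.commutes x).symm
  rw [← finrank_mul_finrank k K E, h2]
  exact Nat.not_odd_iff_even.mpr ⟨_, two_mul _⟩

section ext

variable {K : Type} [Field K] [CharZero K] [StarRing K] {θ : K} (hθ0 : θ ≠ 0)
  (hθ : star θ = -θ)

/-- homomorphisms on the field with involution -/
noncomputable def liftK {R : Type} [CommRing R] [Algebra (FK K) R] (ρ : R)
    (hρ : ρ * ρ = algebraMap (FK K) R (sqK hθ)) : K →ₐ[FK K] R where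
  toFun x := algebraMap (FK K) R (al x) + algebraMap (FK K) R (be hθ x) * ρ
  map_one' := by
    rw [← map_one (algebraMap (FK K) K), al_coe hθ0 hθ, be_coe hθ0 hθ, map_one, map_zero,
      zero_mul, add_zero]
  map_zero' := by
    rw [← map_zero (algebraMap (FK K) K), al_coe hθ0 hθ, be_coe hθ0 hθ, map_zero, zero_mul,
      add_zero]
  map_add' x y := by
    rw [al_add hθ0 hθ, be_add hθ0 hθ, map_add, map_add]
    ring
  map_mul' x y := by
    rw [al_mul hθ0 hθ, be_mul hθ0 hθ, map_add, map_add, map_mul, map_mul, map_mul, map_mul,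
      map_mul, ← hρ]
    ring
  commutes' a := by
    rw [al_coe hθ0 hθ, be_coe hθ0 hθ, map_zero, zero_mul, add_zero]

theorem liftK_apply {R : Type} [CommRing R] [Algebra (FK K) R] (ρ : R)
    (hρ : ρ * ρ = algebraMap (FK K) R (sqK hθ)) (x : K) :
    liftK hθ0 hθ ρ hρ x =
      algebraMap (FK K) R (al x) + algebraMap (FK K) R (be hθ x) * ρ := rfl

variable (E0 : Type) [Field E0] [Algebra (FK K) E0]

include hθ0 in
theorem no_root (hodd : Odd (finrank (FK K) E0)) (r : E0) :
    r ^ 2 ≠ algebraMap (FK K) E0 (sqK hθ) + 0 * r := by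
  intro h
  rw [zero_mul, add_zero, pow_two] at h
  exact not_odd_of_hom (liftK hθ0 hθ r h) (finrank_fixK hθ0 hθ) hodd

/-- the quadratic extension -/
abbrev QE : Type := QuadraticAlgebra E0 (algebraMap (FK K) E0 (sqK hθ)) 0

theorem omega_sq : (QuadraticAlgebra.omega : QE hθ E0) * QuadraticAlgebra.omega =
    algebraMap (FK K) (QE hθ E0) (sqK hθ) := by
  rw [QuadraticAlgebra.omega_mul_omega_eq_mk]
  rfl

/-- the embedding in the quadratic extension -/
noncomputable def toQE : K →ₐ[FK K] QE hθ E0 :=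
  liftK hθ0 hθ QuadraticAlgebra.omega (omega_sq hθ E0)

theorem toQE_re (x : K) : (toQE hθ0 hθ E0 x).re = algebraMap (FK K) E0 (al x) := by
  rw [toQE, liftK_apply, QuadraticAlgebra.re_add, QuadraticAlgebra.re_mul]
  have h1 : (algebraMap (FK K) (QE hθ E0) (al x)).re = algebraMap (FK K) E0 (al x) := rfl
  have h2 : (algebraMap (FK K) (QE hθ E0) (be hθ x)).im = 0 := rfl
  rw [h1, h2, QuadraticAlgebra.omega_re, mul_zero, mul_zero, zero_mul, add_zero, add_zero]

theorem toQE_im (x : K) : (toQE hθ0 hθ E0 x).im = algebraMap (FK K) E0 (be hθ x) := by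
  rw [toQE, liftK_apply, QuadraticAlgebra.im_add, QuadraticAlgebra.im_mul]
  have h1 : (algebraMap (FK K) (QE hθ E0) (be hθ x)).re = algebraMap (FK K) E0 (be hθ x) := rfl
  have h2 : (algebraMap (FK K) (QE hθ E0) (be hθ x)).im = 0 := rfl
  have h3 : (algebraMap (FK K) (QE hθ E0) (al x)).im = 0 := rfl
  rw [h1, h2, h3, QuadraticAlgebra.omega_im]
  ring

theorem star_toQE (x : K) : star (toQE hθ0 hθ E0 x) = toQE hθ0 hθ E0 (star x) := by
  apply QuadraticAlgebra.ext
  · rw [QuadraticAlgebra.re_star, toQE_re, toQE_re, al_star hθ0 hθ, zero_mul, add_zero]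
  · rw [QuadraticAlgebra.im_star, toQE_im, toQE_im, be_star hθ0 hθ, map_neg]

/-- coordinates of the quadratic extension -/
noncomputable def eqE {r : ℕ} (b0 : Basis (Fin r) (FK K) E0)
    [Algebra K (QE hθ E0)] (halg : ∀ x : K, algebraMap K (QE hθ E0) x = toQE hθ0 hθ E0 x) :
    QE hθ E0 ≃ₗ[K] (Fin r → K) where
  toFun e i := algebraMap (FK K) K (b0.repr e.re i) + algebraMap (FK K) K (b0.repr e.im i) * θ
  map_add' x y := by
    funext i
    rw [QuadraticAlgebra.re_add, QuadraticAlgebra.im_add, map_add, map_add, Pi.add_apply,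
      Finsupp.add_apply, Finsupp.add_apply, map_add, map_add]
    ring
  map_smul' c x := by
    funext i
    have h : c • x = toQE hθ0 hθ E0 c * x := by rw [Algebra.smul_def, halg]
    have h1 : (toQE hθ0 hθ E0 c * x).re = al c • x.re + (sqK hθ * be hθ c) • x.im := by
      rw [QuadraticAlgebra.re_mul, toQE_re, toQE_im, Algebra.smul_def, Algebra.smul_def, map_mul]
    have h2 : (toQE hθ0 hθ E0 c * x).im = al c • x.im + be hθ c • x.re := by
      rw [QuadraticAlgebra.im_mul, toQE_re, toQE_im, Algebra.smul_def, Algebra.smul_def]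
      ring
    rw [h, h1, h2, map_add, map_add, map_smul, map_smul, map_smul, map_smul, Finsupp.add_apply,
      Finsupp.add_apply, Finsupp.smul_apply, Finsupp.smul_apply, Finsupp.smul_apply,
      Finsupp.smul_apply, RingHom.id_apply, Pi.smul_apply, smul_eq_mul, smul_eq_mul, smul_eq_mul,
      smul_eq_mul, smul_eq_mul]
    conv_rhs => rw [← al_be hθ0 hθ c]
    simp only [map_add, map_mul, coe_sqK]
    ring
  invFun v := ⟨∑ i, al (v i) • b0 i, ∑ i, be hθ (v i) • b0 i⟩
  left_inv e := by
    apply QuadraticAlgebra.ext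
    · change ∑ i, al _ • b0 i = e.re
      conv_rhs => rw [← b0.sum_repr e.re]
      exact Finset.sum_congr rfl fun i _ => by rw [al_mk hθ0 hθ]
    · change ∑ i, be hθ _ • b0 i = e.im
      conv_rhs => rw [← b0.sum_repr e.im]
      exact Finset.sum_congr rfl fun i _ => by rw [be_mk hθ0 hθ]
  right_inv v := by
    funext i
    change algebraMap (FK K) K (b0.repr (∑ i, al (v i) • b0 i) i) +
      algebraMap (FK K) K (b0.repr (∑ i, be hθ (v i) • b0 i) i) * θ = v i
    rw [b0.repr_sum_self, b0.repr_sum_self, al_be hθ0 hθ]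

theorem eqE_symm_im {r : ℕ} (b0 : Basis (Fin r) (FK K) E0)
    [Algebra K (QE hθ E0)] (halg : ∀ x : K, algebraMap K (QE hθ E0) x = toQE hθ0 hθ E0 x)
    (i : Fin r) : ((eqE hθ0 hθ E0 b0 halg).symm (Pi.single i 1)).im = 0 := by
  change ∑ j, be hθ ((Pi.single i 1 : Fin r → K) j) • b0 j = 0
  refine Finset.sum_eq_zero fun j _ => ?_
  have h : ∃ c : FK K, (Pi.single i 1 : Fin r → K) j = algebraMap (FK K) K c := by
    by_cases hj : j = i
    · subst hj
      exact ⟨1, by rw [Pi.single_eq_same, map_one]⟩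
    · exact ⟨0, by rw [Pi.single_eq_of_ne hj, map_zero]⟩
  obtain ⟨c, hc⟩ := h
  rw [hc, be_coe hθ0 hθ, zero_smul]

end ext

/-- an extension of odd degree with involution, over which the index is a power of two -/
theorem exists_star_ext {K D : Type} [Field K] [CharZero K] [StarRing K] [DivisionRing D]
    [Algebra K D] [FiniteDimensional K D] [Algebra.IsCentral K D] (hne : ∃ k : K, star k ≠ k)
    {d : ℕ} (hD : finrank K D = d ^ 2) :
    ∃ (E : Type) (_ : Field E) (_ : StarRing E) (_ : Algebra K E) (_ : StarModule K E) (r : ℕ)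
      (b : Basis (Fin r) K E) (N : Type) (_ : Field N) (_ : Algebra K N) (_ : Algebra E N)
      (_ : IsScalarTower K E N) (_ : FiniteDimensional E N) (a : ℕ), Odd r ∧
      (∀ i, star (b i) = b i) ∧ finrank E N = 2 ^ a ∧
      Nonempty (D →ₐ[K] Matrix (Fin d) (Fin d) N) := by
  obtain ⟨k, hk⟩ := hne
  obtain ⟨θ, hθ'⟩ : ∃ θ : K, θ = k - star k := ⟨_, rfl⟩
  have hθ0 : θ ≠ 0 := by rw [hθ']; exact sub_ne_zero.mpr (Ne.symm hk)
  have hθ : star θ = -θ := by rw [hθ', star_sub, star_star, neg_sub]
  have := finite_fixK hθ0 hθ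
  obtain ⟨N, i1, i2, i3, i4, i5, i6, g⟩ := exists_galois_split (k := FK K) (K := K) (D := D) hD
  obtain ⟨E0, hcop, a, ha⟩ := exists_sylow_field (k := FK K) (N := N) 2
  have hodd : Odd (finrank (FK K) E0) := Nat.coprime_two_right.mp hcop
  have : Fact (∀ r : E0, r ^ 2 ≠ algebraMap (FK K) E0 (sqK hθ) + 0 * r) :=
    ⟨no_root hθ0 hθ E0 hodd⟩
  let algK : Algebra K (QE hθ E0) := (toQE hθ0 hθ E0).toRingHom.toAlgebra
  have halg : ∀ x : K, algebraMap K (QE hθ E0) x = toQE hθ0 hθ E0 x := fun x => rfl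
  have hsm : StarModule K (QE hθ E0) := ⟨fun c e => by
    rw [Algebra.smul_def, Algebra.smul_def, star_mul, halg, halg, star_toQE, mul_comm]⟩
  have hNsq : algebraMap K N θ * algebraMap K N θ =
      (algebraMap (FK K) E0 (sqK hθ)) • (1 : N) + (0 : E0) • algebraMap K N θ := by
    rw [zero_smul, add_zero, Algebra.smul_def, mul_one, ← IsScalarTower.algebraMap_apply,
      ← map_mul, ← coe_sqK hθ]
    exact (IsScalarTower.algebraMap_apply (FK K) K N (sqK hθ)).symm
  let ν : QE hθ E0 →ₐ[E0] N := QuadraticAlgebra.lift ⟨algebraMap K N θ, hNsq⟩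
  have hν : ∀ z, ν z = z.re • 1 + z.im • algebraMap K N θ := fun z => rfl
  let algN : Algebra (QE hθ E0) N := ν.toRingHom.toAlgebra
  have htow : IsScalarTower K (QE hθ E0) N := IsScalarTower.of_algebraMap_eq fun x => by
    change _ = ν (toQE hθ0 hθ E0 x)
    rw [hν, toQE_re, toQE_im, Algebra.smul_def, mul_one, Algebra.smul_def,
      ← IsScalarTower.algebraMap_apply, ← IsScalarTower.algebraMap_apply,
      IsScalarTower.algebraMap_apply (FK K) K N (al x),
      IsScalarTower.algebraMap_apply (FK K) K N (be hθ x), ← map_mul, ← map_add,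
      al_be hθ0 hθ x]
  have htow2 : IsScalarTower E0 (QE hθ E0) N := IsScalarTower.of_algebraMap_eq fun x =>
    (ν.commutes x).symm
  have hfin : FiniteDimensional (QE hθ E0) N := Module.Finite.of_restrictScalars_finite E0 _ _
  have h1 := finrank_mul_finrank E0 (QE hθ E0) N
  obtain ⟨a', -, ha'⟩ := (Nat.dvd_prime_pow Nat.prime_two).mp
    (show finrank (QE hθ E0) N ∣ 2 ^ a by rw [← ha, ← h1]; exact Dvd.intro_left _ rfl)
  let b0 := finBasis (FK K) E0
  refine ⟨QE hθ E0, inferInstance, inferInstance, algK, hsm, finrank (FK K) E0,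
    Basis.ofEquivFun (eqE hθ0 hθ E0 b0 halg), N, i1, i3, algN, htow, hfin, a', hodd, ?_, ha', g⟩
  intro i
  rw [Basis.coe_ofEquivFun]
  apply QuadraticAlgebra.ext
  · rw [QuadraticAlgebra.re_star, zero_mul, add_zero]
  · rw [QuadraticAlgebra.im_star, eqE_symm_im, neg_zero]

end Vale.Agent.P011S

end
end

section

section
/-!
Every class of the unitary group of an anisotropic form with room is a value of the global
homomorphism, and the reduced norm of these values.
-/

set_option linter.unusedSectionVars false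
set_option linter.unusedSimpArgs false

open Matrix Module

namespace Vale.Agent.P011S

section
variable {D : Type} [DivisionRing D] [StarRing D] [FormPos D] [CharZero D]
  [FiniteDimensional ℚ D]
variable {μ : Type} [Fintype μ] [DecidableEq μ]

theorem acc_one : Acc (1 : D) :=
  ⟨by simpa only [star_one] using (sos D).add_mem sos_one sos_one, by rw [star_one]; norm_num⟩

/-- the global homomorphism from the multiplicative group of `D` -/
structure GlobF {H : Matrix μ μ D} (hH : An H) where
  F : D → Ab H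
  mul : ∀ a b : D, a ≠ 0 → b ≠ 0 → F (a * b) = F a * F b
  sym : ∀ s : D, s ≠ 0 → star s = s → F s = 1
  cls' : ∀ z : D, z ≠ 0 → z + star z ≠ 0 → Rp H (z + star z) → fd hH z = fd hH 1 * F z
  unit : ∀ v : D, star v * v = 1 → F v * ph hH v ^ 2 = 1
  skew : ∀ θ : D, θ ≠ 0 → (∀ x, x * θ = θ * x) → star θ = -θ → F θ = fd hH 1
  rot : ∀ g : D, g ≠ 0 → ∃ v : D, star v * v = 1 ∧ Acc (star v * g)

variable {H : Matrix μ μ D} (hH : An H) {R : ℕ} (hR : Room H R)

theorem Room.rp (hR : Room H R) (h1 : 1 ≤ R) {a : D} (ha : a ∈ sos D) : Rp H a := by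
  obtain ⟨x, hx⟩ := hR.exists_frame (ν := Fin 1) (G := dg a) (by simpa only [Fintype.card_unique] using h1) (psd_dg ha)
  exact ⟨x, hx⟩

/-- construction of the global homomorphism -/
theorem exists_globF {N : ℕ} (ρ : RealRep D N) (hH : An H) (hR : Room H R)
    (h2 : 2 ≤ R) {c c' : D} (hc : Good c c') {θ : D} (hθ : ∀ x, x * θ = θ * x)
    (hθs : star θ = -θ) (hθ0 : θ ≠ 0) : Nonempty (GlobF hH) := by
  have hR1 := rot_one ρ hθ hθs hθ0
  have hR2 := rot_chain ρ hθ hθs hθ0
  have hmul : ∀ g h : D, g ≠ 0 → h ≠ 0 → FF hH (g * h) = FF hH g * FF hH h := by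
    intro a b ha hb
    exact FF_mul hH hR h2 hc hR1 hR2 ha hb
  refine ⟨⟨FF hH, hmul, ?_, ?_, ?_, ?_, hR1⟩⟩
  · intro s hs0 hs
    obtain ⟨v, hv, hvs, ha⟩ := rot_comm ρ hθ hθs hθ0 s hs0 hs
    exact FF_symm hH hR h2 hc hs hv hvs ha
  · intro z hz ha0 hx
    exact fd_eq_FF hH hR h2 hc hmul ρ hθs hθ0 hθ hz ha0 hx
  · intro v hv
    have h := FF_unit_mul hH hR h2 hc hR1 (g := (1 : D)) one_ne_zero hv
    rw [mul_one, FF_one hH hR h2 hc hmul, mul_one] at h
    rw [h, inv_mul_cancel]
  · intro η hη0 hη hηs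
    rw [FF_theta hH hR h2 hc hR1 hη0 hηs (fun d => (hη d).symm), fd_one hH hR h2 hc]

theorem GlobF.one {hH : An H} (G : GlobF hH) : G.F 1 = 1 :=
  G.sym 1 one_ne_zero (star_one _)

theorem GlobF.inv {hH : An H} (G : GlobF hH) {g : D} (hg : g ≠ 0) : G.F g⁻¹ = (G.F g)⁻¹ := by
  have := G.mul g g⁻¹ hg (inv_ne_zero hg)
  rw [mul_inv_cancel₀ hg, G.one] at this
  exact eq_inv_of_mul_eq_one_right this.symm

/-- the class of a quasi-reflection -/
theorem cls_qr_eq (hH : An H) (G : GlobF hH) {θ : D} (hθ : ∀ x, x * θ = θ * x)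
    (hθs : star θ = -θ) (hθ0 : θ ≠ 0) (v : Matrix μ Unit D) (Z : (Matrix Unit Unit D)ˣ)
    (h : vᴴ * H * v = (Z : Matrix Unit Unit D) + (Z : Matrix Unit Unit D)ᴴ) :
    ∃ z : D, z ≠ 0 ∧ cls (qr H hH.herm v Z h) = G.F z := by
  by_cases hv : v = 0
  · refine ⟨1, one_ne_zero, ?_⟩
    rw [G.one]
    have : qr H hH.herm v Z h = 1 := by
      apply mat_injective
      rw [mat_qr, mat_one, hv]
      simp only [tm, Matrix.zero_mul, conjTranspose_zero, Matrix.mul_zero, zero_mul, sub_zero]
    rw [this, cls_one]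
  · set z : D := (Z : Matrix Unit Unit D) () () with hz
    set zi : D := (↑Z⁻¹ : Matrix Unit Unit D) () () with hzi
    have hzzi : z * zi = 1 := by
      have := congrFun (congrFun (Units.mul_inv Z) ()) ()
      simpa only [Matrix.mul_apply, Finset.univ_unique, PUnit.default_eq_unit, Finset.sum_singleton,     one_apply_eq] using this
    have hz0 : z ≠ 0 := left_ne_zero_of_mul_eq_one hzzi
    have hzi' : zi = z⁻¹ := eq_inv_of_mul_eq_one_right hzzi
    have hgram : (vᴴ * H * v) () () = z + star z := by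
      rw [h]; simp only [Matrix.add_apply, conjTranspose_apply, hz]
    have hne : z + star z ≠ 0 := by
      intro h0
      apply hv
      apply hH.aniso
      ext i j
      rw [show i = () from rfl, show j = () from rfl, hgram, h0]
      rfl
    -- pass to `Fin 1`
    let x : Matrix μ (Fin 1) D := v.submatrix id (fun _ => ())
    have hx : xᴴ * H * x = dg z + (dg z)ᴴ := by
      rw [dg_star, dg_add]
      ext i j
      have : (xᴴ * H * x) i j = (vᴴ * H * v) () () := by
        simp only [conjTranspose_submatrix, Matrix.mul_apply, submatrix_apply, id_eq, conjTranspose_apply, x]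
      rw [this, hgram, Subsingleton.elim j i]
      simp only [diagonal_apply_eq]
    have z1 : dg z * dg z⁻¹ = 1 := by rw [dg_mul, mul_inv_cancel₀ hz0, dg_one]
    have z2 : dg z⁻¹ * dg z = 1 := by rw [dg_mul, inv_mul_cancel₀ hz0, dg_one]
    have e1 : cls (qr H hH.herm v Z h) = fz hH (dg z) := by
      rw [fz_eq hH z1 z2 x hx]
      congr 1
      apply mat_injective
      rw [mat_qr, mat_tw]
      unfold tm
      congr 2
      ext i j
      simp only [Matrix.mul_apply, Finset.univ_unique, PUnit.default_eq_unit, Finset.sum_singleton, conjTranspose_apply, ← hzi', hzi, conjTranspose_submatrix, Fin.default_eq_zero, Fin.isValue, submatrix_apply, id_eq, diagonal_apply_eq, x]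
    have hx' : Rp H (z + star z) := ⟨x, by rw [hx, dg_star, dg_add]⟩
    have e2 := G.cls' z hz0 hne hx'
    refine ⟨θ * z, mul_ne_zero hθ0 hz0, ?_⟩
    rw [G.mul θ z hθ0 hz0, G.skew θ hθ0 hθ hθs, ← e2, e1]
    rfl

/-- every class is a value of the global homomorphism -/
theorem exists_F_eq (hH : An H) (G : GlobF hH) {θ : D} (hθ : ∀ x, x * θ = θ * x)
    (hθs : star θ = -θ) (hθ0 : θ ≠ 0) (g : UH H) : ∃ z : D, z ≠ 0 ∧ cls g = G.F z := by
  have hg : g ∈ Subgroup.closure (qrSet H hH.herm) := by
    rw [closure_qrSet hH]; trivial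
  induction hg using Subgroup.closure_induction with
  | mem g hg =>
    obtain ⟨v, Z, h, rfl⟩ := hg
    exact cls_qr_eq hH G hθ hθs hθ0 v Z h
  | one => exact ⟨1, one_ne_zero, by rw [cls_one, G.one]⟩
  | mul a b _ _ iha ihb =>
    obtain ⟨u, hu, hua⟩ := iha
    obtain ⟨v, hv, hvb⟩ := ihb
    refine ⟨u * v, mul_ne_zero hu hv, ?_⟩
    rw [cls_mul, hua, hvb, G.mul u v hu hv]
  | inv a _ iha =>
    obtain ⟨u, hu, hua⟩ := iha
    refine ⟨u⁻¹, inv_ne_zero hu, ?_⟩
    have h1 : cls a⁻¹ = (cls a)⁻¹ := map_inv Abelianization.of a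
    rw [h1, hua, G.inv hu]

end

section

variable {K D F : Type} [Field K] [DivisionRing D] [Algebra K D] [Field F] [Algebra K F] {p : ℕ}
  (f : D →ₐ[K] Matrix (Fin p) (Fin p) F) [StarRing D] [FormPos D] [CharZero D]
  [FiniteDimensional ℚ D]
variable {μ : Type} [Fintype μ] [DecidableEq μ]

/-- an element with the class of `u` has the reduced norm of `u`. -/
theorem redNorm_eq {H : Matrix μ μ D} (hH : An H) {R : ℕ} (hR : Room H R) (h1 : 1 ≤ R)
    {g : UH H} {u : D} (hu : star u * u = 1) (e : cls g = cg hH 1 (dg u)) :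
    redNorm f μ (mat g) = (f u).det := by
  obtain ⟨x, hx⟩ := hR.exists_frame (ν := Fin 1) (by simpa only [Fintype.card_unique] using h1)
    (PSD.one (D := D) (ν := Fin 1))
  have hadm : Adm (1 : Matrix (Fin 1) (Fin 1) D) ((1 - dg u) * Ring.inverse 1) := by
    rw [Ring.inverse_one]
    exact (isU_dg hu).adm (by simp) (by simp) (by simp)
  have e2 : cg hH 1 (dg u) = cls (tw H hH.herm x ((1 - dg u) * Ring.inverse 1)
      (by rwa [hx])) := by
    unfold cg
    exact cl_eq' hH x _ hx hadm
  rw [e2] at e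
  have h2 := rn_eq_of_cls f e
  rw [← rn_val, h2, rn_val, mat_tw]
  unfold tm
  rw [Ring.inverse_one, Matrix.mul_one, Matrix.mul_assoc x, Matrix.mul_assoc x,
    redNorm_one_sub_mul_comm, ← redNorm_dg]
  congr 1
  rw [Matrix.mul_assoc, Matrix.mul_assoc, ← Matrix.mul_assoc xᴴ, hx, Matrix.mul_one,
    sub_sub_cancel]

theorem rnA_ph {H : Matrix μ μ D} (hH : An H) {R : ℕ} (hR : Room H R) (h1 : 1 ≤ R)
    {u : D} (hu : star u * u = 1) : ((rnA f H (ph hH u) : Fˣ) : F) = (f u).det := by
  obtain ⟨g, hg⟩ := cls_surj (ph hH u)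
  rw [← hg, rnA_cls, rn_val]
  exact redNorm_eq f hH hR h1 hu hg

theorem rnA_fd {H : Matrix μ μ D} (hH : An H) {z : D} (hx : Rp H (z + star z)) (hz0 : z ≠ 0) :
    ((rnA f H (fd hH z) : Fˣ) : F) * (f z).det = (f (-star z)).det := by
  obtain ⟨x, hx⟩ := hx
  rw [← dg_add, ← dg_star] at hx
  unfold fd
  rw [fz_eq hH (dg_mul_inv hz0) (dg_inv_mul hz0) x hx, rnA_cls, rn_val, mat_tw]
  unfold tm
  rw [Matrix.mul_assoc x, Matrix.mul_assoc x, redNorm_one_sub_mul_comm]
  have e : (1 : Matrix (Fin 1) (Fin 1) D) - dg z⁻¹ * xᴴ * H * x = dg (-(z⁻¹ * star z)) := by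
    rw [Matrix.mul_assoc, Matrix.mul_assoc, ← Matrix.mul_assoc xᴴ, hx, dg_star, dg_add, dg_mul,
      ← dg_one, dg_sub]
    congr 2
    rw [mul_add, inv_mul_cancel₀ hz0]
    abel
  rw [e, redNorm_dg, mul_comm, ← Matrix.det_mul, ← map_mul]
  congr 2
  rw [mul_neg, ← mul_assoc, mul_inv_cancel₀ hz0, one_mul]

/-- reduced norm of the values of the global homomorphism -/
theorem rnA_F {H : Matrix μ μ D} (hH : An H) {R : ℕ} (hR : Room H R) (h1 : 1 ≤ R)
    (G : GlobF hH) {Z : D} (hZ : Z ≠ 0) :
    ((rnA f H (G.F Z) : Fˣ) : F) * (f Z).det = (f (star Z)).det := by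
  have hmul : ∀ a b : D, a ≠ 0 → b ≠ 0 →
      ((rnA f H (G.F a) : Fˣ) : F) * (f a).det = (f (star a)).det →
      ((rnA f H (G.F b) : Fˣ) : F) * (f b).det = (f (star b)).det →
      ((rnA f H (G.F (a * b)) : Fˣ) : F) * (f (a * b)).det = (f (star (a * b))).det := by
    intro a b ha hb ea eb
    rw [G.mul a b ha hb, map_mul, Units.val_mul, map_mul, Matrix.det_mul, star_mul, map_mul,
      Matrix.det_mul, ← ea, ← eb]
    ring
  have hacc : ∀ z : D, Acc z → z ≠ 0 →
      ((rnA f H (G.F z) : Fˣ) : F) * (f z).det = (f (star z)).det := by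
    intro z hz hz0
    have hr := hR.rp h1 hz.1
    have e1 := rnA_fd f hH hr hz0
    have e2 := rnA_fd f hH (hR.rp h1 (acc_one (D := D)).1) one_ne_zero
    rw [G.cls' z hz0 hz.2 hr, map_mul, Units.val_mul] at e1
    rw [map_one, Matrix.det_one, mul_one, star_one] at e2
    rw [e2] at e1
    have e3 : (f (-star z)).det = (f (-1)).det * (f (star z)).det := by
      rw [← Matrix.det_mul, ← map_mul, neg_one_mul]
    rw [e3, mul_assoc] at e1
    have h0 := det_f_ne f (x := (-1 : D)) (neg_ne_zero.mpr one_ne_zero)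
    exact mul_left_cancel₀ h0 e1
  obtain ⟨v, hv, hvz⟩ := G.rot Z hZ
  have hvv : v * star v = 1 := star_unit hv
  have hv0 : v ≠ 0 := left_ne_zero_of_mul_eq_one hvv
  have hsv0 : star v ≠ 0 := star_ne_zero.mpr hv0
  have hZe : Z = v * (star v * Z) := by rw [← mul_assoc, hvv, one_mul]
  rw [hZe]
  refine hmul v _ hv0 (mul_ne_zero hsv0 hZ) ?_ (hacc _ hvz (mul_ne_zero hsv0 hZ))
  have e1 := G.unit v hv
  have e2 := congrArg (fun a => ((rnA f H a : Fˣ) : F)) e1
  simp only [map_mul, map_pow, Units.val_mul, Units.val_pow_eq_pow_val, map_one, Units.val_one] at e2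
  rw [rnA_ph f hH hR h1 hv] at e2
  have h0 := det_f_ne f hv0
  have e3 : (f v).det * (f (star v)).det = 1 := by
    rw [← Matrix.det_mul, ← map_mul, hvv, map_one, Matrix.det_one]
  apply mul_left_cancel₀ h0
  rw [e3, ← e2]
  ring

/-- every class of the special unitary group is a value of the global homomorphism at an
element with reduced norm fixed by the involution -/
theorem exists_F_eq_SU {H : Matrix μ μ D} (hH : An H) {R : ℕ} (hR : Room H R)
    (h1 : 1 ≤ R) (G : GlobF hH) {θ : D} (hθ0 : θ ≠ 0)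
    (hθ : ∀ x, x * θ = θ * x) (hθs : star θ = -θ) (g : SU f H) :
    ∃ Z : D, Z ≠ 0 ∧ (f (star Z)).det = (f Z).det ∧ G.F Z = cls (inc f H g) := by
  obtain ⟨z, hz, hgz⟩ := exists_F_eq hH G hθ hθs hθ0 (inc f H g)
  refine ⟨z, hz, ?_, hgz.symm⟩
  have h3 := rnA_F f hH hR h1 G hz
  rw [← hgz, rnA_cls, rn_inc, Units.val_one, one_mul] at h3
  exact h3.symm

end

end Vale.Agent.P011S

end

section
set_option linter.unusedSectionVars false
set_option linter.unusedSimpArgs false

open Matrix

namespace Vale.Agent.P011S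

section field
variable {K : Type} [Field K] [StarRing K] [CharZero K]

omit [CharZero K] in
theorem sosK_mul {a b : K} (ha : a ∈ sos K) (hb : b ∈ sos K) : a * b ∈ sos K := by
  induction ha using AddSubmonoid.closure_induction with
  | mem x hx =>
    obtain ⟨y, rfl⟩ := hx
    have := sos_conj hb y
    convert this using 1
    ring
  | zero => simp
  | add x y _ _ hx hy =>
    rw [add_mul]
    exact add_mem hx hy

variable (K) in
/-- there is a skew element whose square lies between `-1` and `-δ`. -/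
def SS (δ : ℚ) : Prop :=
  ∃ θ : K, star θ = -θ ∧ (-(θ * θ) - (δ : K)) ∈ sos K ∧ (1 + θ * θ) ∈ sos K

theorem SS.mono {δ δ' : ℚ} (hd : δ' ≤ δ) (h : SS K δ) : SS K δ' := by
  obtain ⟨θ, hs, hl, hu⟩ := h
  refine ⟨θ, hs, ?_, hu⟩
  have : -(θ * θ) - (δ' : K) = (-(θ * θ) - (δ : K)) + ((δ - δ' : ℚ) : K) := by
    push_cast; ring
  rw [this]
  exact add_mem hl (sos_ratCast (sub_nonneg.mpr hd))

theorem SS.step {δ : ℚ} (h0 : 0 ≤ δ) (h1 : δ ≤ 1 / 5) (h : SS K δ) : SS K (3 / 2 * δ) := by
  obtain ⟨θ, hs, hl, hu⟩ := h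
  refine ⟨θ * (3 + θ * θ) / 2, ?_, ?_, ?_⟩
  · rw [star_div₀, star_mul', star_add, star_mul', hs, star_ofNat, star_ofNat]
    ring
  · have e : -(θ * (3 + θ * θ) / 2 * (θ * (3 + θ * θ) / 2)) - ((3 / 2 * δ : ℚ) : K)
        = (-(θ * θ) - (δ : K)) * ((((1 - δ) * (4 - δ) : ℚ) : K)
            + (((4 - δ : ℚ)) : K) * (1 + θ * θ) + (1 + θ * θ) * (1 + θ * θ)) * ((1 / 4 : ℚ) : K)
          + ((δ * ((3 - δ) ^ 2 / 4 - 3 / 2) : ℚ) : K) := by
      push_cast
      ring
    rw [e]
    refine add_mem (sosK_mul (sosK_mul hl (add_mem (add_mem (sos_ratCast ?_)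
      (sosK_mul (sos_ratCast ?_) hu)) (sosK_mul hu hu))) (sos_ratCast (by norm_num)))
      (sos_ratCast ?_)
    · exact mul_nonneg (by linarith only [h1]) (by linarith only [h1])
    · linarith only [h1]
    · apply mul_nonneg h0
      nlinarith only [h1]
  · have e : 1 + θ * (3 + θ * θ) / 2 * (θ * (3 + θ * θ) / 2)
        = (1 + θ * θ) * (1 + θ * θ) * (((3 : ℚ) : K) + (1 + θ * θ)) * ((1 / 4 : ℚ) : K) := by
      push_cast
      ring
    rw [e]
    exact sosK_mul (sosK_mul (sosK_mul hu hu) (add_mem (sos_ratCast (by norm_num)) hu))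
      (sos_ratCast (by norm_num))

theorem SS.iter {δ : ℚ} (h0 : 0 < δ) (h : SS K δ) (n : ℕ) :
    SS K (min (1 / 5) ((3 / 2) ^ n * δ)) := by
  induction n with
  | zero => exact h.mono (by simp only [one_div, pow_zero, one_mul, inf_le_right])
  | succ n ih =>
    have hpos : 0 ≤ min (1 / 5 : ℚ) ((3 / 2) ^ n * δ) := le_min (by norm_num) (by positivity)
    refine (ih.step hpos (min_le_left _ _)).mono ?_
    rcases le_total (1 / 5 : ℚ) ((3 / 2) ^ n * δ) with h | h
    · rw [min_eq_left h]
      exact (min_le_left _ _).trans (by norm_num)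
    · rw [min_eq_right h]
      refine (min_le_right _ _).trans (le_of_eq ?_)
      ring

theorem SS.fifth {δ : ℚ} (h0 : 0 < δ) (h : SS K δ) : SS K (1 / 5) := by
  obtain ⟨n, hn⟩ := pow_unbounded_of_one_lt (1 / 5 / δ) (by norm_num : (1 : ℚ) < 3 / 2)
  have := h.iter h0 n
  rwa [min_eq_left] at this
  rw [div_lt_iff₀ h0] at hn
  exact hn.le

theorem SS.of_skew (ha : IsArch K) {θ : K} (hs : star θ = -θ) (h0 : θ ≠ 0) : SS K (1 / 5) := by
  have hsos : -(θ * θ) ∈ sos K := by
    have := sos_mul_star θ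
    rw [hs] at this
    simpa only [mul_neg] using this
  obtain ⟨q, hq, h1⟩ := ha (-(θ * θ)) (by simp [hs]) 1 sos_one one_ne_zero
  obtain ⟨r, hr, h2⟩ := ha 1 (by simp) (-(θ * θ)) hsos (by simpa using h0)
  obtain ⟨n, hn⟩ := exists_nat_gt q
  have hn0 : (0 : ℚ) < n := hq.trans hn
  have hn1 : (1 : ℚ) ≤ n := by
    have : 0 < n := by exact_mod_cast hn0
    exact_mod_cast this
  have hnK : (n : K) ≠ 0 := by
    have : (n : ℚ) ≠ 0 := hn0.ne'
    exact_mod_cast this
  have hrK : (r : K) ≠ 0 := by exact_mod_cast hr.ne'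
  refine SS.fifth (δ := 1 / (r * n ^ 2)) (by (clear * - hr hn0; positivity)) ⟨θ / n, ?_, ?_, ?_⟩
  · rw [star_div₀, hs, star_natCast, neg_div]
  · have e : -(θ / n * (θ / n)) - ((1 / (r * n ^ 2) : ℚ) : K)
        = ((r : K) * -(θ * θ) - 1) * ((1 / (r * n ^ 2) : ℚ) : K) := by
      push_cast
      field_simp
    rw [e]
    exact sosK_mul h2 (sos_ratCast (by (clear * - hr hn0; positivity)))
  · have e : 1 + θ / n * (θ / n)
        = ((q : K) * 1 - -(θ * θ)) * ((1 / n ^ 2 : ℚ) : K) + (((n ^ 2 - q) / n ^ 2 : ℚ) : K) := by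
      push_cast
      field_simp
      try ring
    rw [e]
    refine add_mem (sosK_mul h1 (sos_ratCast (by positivity))) (sos_ratCast ?_)
    apply div_nonneg _ (by (clear * - hn0; positivity))
    nlinarith only [hn, hn1]

end field

theorem sos_zero_of_neg {D : Type} [DivisionRing D] [StarRing D] [CharZero D] [FormPos D] {a : D}
    (h : a ∈ sos D) (h' : -a ∈ sos D) : a = 0 := by
  have h1 := psd_of_sos h
  have h2 := psd_of_sos h'
  have h3 : (Matrix.of fun _ _ => -a : Matrix Unit Unit D) = -(Matrix.of fun _ _ => a) := by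
    ext i j; simp
  rw [h3] at h2
  exact congrFun (congrFun (h1.eq_zero_of_neg h2) ()) ()

/-- the pair of good elements in `K` -/
theorem exists_good_field {K : Type} [Field K] [StarRing K] [CharZero K] [FormPos K]
    (ha : IsArch K) {θ : K} (hs : star θ = -θ) (h0 : θ ≠ 0) :
    ∃ c c' : K, c ≠ 0 ∧ star c = -c ∧ star c' = -c' ∧ (1 + c * c) ∈ sos K ∧
      (1 + c' * c') ∈ sos K ∧ (1 + c') * (2 * c) = (1 + c) * (1 + c) := by
  obtain ⟨c, hc, hl, hu⟩ := SS.of_skew ha hs h0
  by_cases hc0 : c = 0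
  · exfalso
    subst hc0
    have h1 : ((1 / 5 : ℚ) : K) = 0 := by
      apply sos_zero_of_neg (sos_ratCast (by norm_num))
      simpa only [one_div, Rat.cast_inv, Rat.cast_ofNat, mul_zero, neg_zero, zero_sub] using hl
    have h2 : (1 / 5 : ℚ) = 0 := by exact_mod_cast h1
    norm_num at h2
  · have hx : (-(c * c))⁻¹ ∈ sos K := by
      apply sos_inv
      have := sos_mul_star c
      rw [hc] at this
      simpa only [mul_neg] using this
    refine ⟨c, (c * c + 1) / (2 * c), hc0, hc, ?_, hu, ?_, ?_⟩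
    · rw [star_div₀, star_add, star_mul', star_mul', hc, star_ofNat, star_one]
      field_simp
    · have e : 1 + (c * c + 1) / (2 * c) * ((c * c + 1) / (2 * c))
          = ((-(c * c) - ((1 / 5 : ℚ) : K)) * (1 + c * c)
            + ((24 / 5 : ℚ) : K) * ((-(c * c) - ((1 / 5 : ℚ) : K)) + ((1 / 30 : ℚ) : K)))
            * ((1 / 4 : ℚ) : K) * (-(c * c))⁻¹ := by
        push_cast
        field_simp
        ring
      rw [e]
      exact sosK_mul (sosK_mul (add_mem (sosK_mul hl hu) (sosK_mul (sos_ratCast (by norm_num))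
        (add_mem hl (sos_ratCast (by norm_num))))) (sos_ratCast (by norm_num))) hx
    · field_simp
      ring

theorem sos_algebraMap {K D : Type} [Field K] [StarRing K] [DivisionRing D] [StarRing D]
    [Algebra K D] [StarModule K D] {a : K} (h : a ∈ sos K) : algebraMap K D a ∈ sos D := by
  induction h using AddSubmonoid.closure_induction with
  | mem x hx =>
    obtain ⟨y, rfl⟩ := hx
    rw [map_mul, algebraMap_star_comm]
    exact sos_mul_star _
  | zero => simp
  | add x y _ _ hx hy =>
    rw [map_add]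
    exact add_mem hx hy

theorem FormPos.of_algebra (K D : Type) [Field K] [StarRing K] [DivisionRing D] [StarRing D]
    [FormPos D] [Algebra K D] [StarModule K D] : FormPos K where
  eq_zero n x h := by
    have h1 : ∑ i, star (algebraMap K D (x i)) * algebraMap K D (x i) = 0 := by
      rw [← map_zero (algebraMap K D), ← h, map_sum]
      refine Finset.sum_congr rfl fun i _ => ?_
      rw [map_mul, algebraMap_star_comm]
    have h2 := FormPos.eq_zero n (fun i => algebraMap K D (x i)) h1
    ext i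
    have h3 := congrFun h2 i
    exact (algebraMap K D).injective (by simpa using h3)

/-- existence of good elements -/
theorem exists_good {K D : Type} [Field K] [StarRing K] [CharZero K] [FiniteDimensional ℚ K]
    [DivisionRing D] [StarRing D]
    [FormPos D] [Algebra K D] [StarModule K D] (h : ∃ k : K, star k ≠ k) :
    ∃ c c' : D, Good c c' := by
  have : FormPos K := FormPos.of_algebra K D
  obtain ⟨k, hk⟩ := h
  obtain ⟨c, c', h0, h1, h2, h3, h4, h5⟩ := exists_good_field (K := K) isArch (θ := k - star k)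
    (by rw [star_sub, star_star]; abel) (sub_ne_zero.mpr (Ne.symm hk))
  refine ⟨algebraMap K D c, algebraMap K D c', ?_, ?_, ?_, ?_, ?_, ?_, ?_, ?_⟩
  · simpa using h0
  · exact fun d => Algebra.commutes c d
  · exact fun d => Algebra.commutes c' d
  · rw [← algebraMap_star_comm, h1, map_neg]
  · rw [← algebraMap_star_comm, h2, map_neg]
  · have := sos_algebraMap (D := D) h3
    rw [map_add, map_one, map_mul] at this
    exact HSq_of_sos this
  · have := sos_algebraMap (D := D) h4
    rw [map_add, map_one, map_mul] at this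
    exact HSq_of_sos this
  · have := congrArg (algebraMap K D) h5
    have h2 : algebraMap K D 2 = 2 := map_ofNat _ 2
    simpa only [map_mul, map_add, map_one, h2] using this

end Vale.Agent.P011S

end

section
/-!
The quotient by a normal subgroup containing all commutators is a quotient of the reduced
unitary Whitehead group.
-/

set_option linter.unusedSectionVars false
set_option linter.unusedSimpArgs false

open Matrix Module
open scoped commutatorElement

namespace Vale.Agent.P011S

section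

variable {K D F : Type} [Field K] [DivisionRing D] [Algebra K D] [Field F] [Algebra K F] {p : ℕ}
  (f : D →ₐ[K] Matrix (Fin p) (Fin p) F) [StarRing D] [FormPos D] [CharZero D]
  [FiniteDimensional ℚ D]
variable {μ : Type} [Fintype μ] [DecidableEq μ]

theorem quot_of_globF {H : Matrix μ μ D} (hH : An H) {R : ℕ} (hR : Room H R)
    (h1 : 1 ≤ R) (G : GlobF hH) {θ : D} (hθ0 : θ ≠ 0)
    (hθ : ∀ x, x * θ = θ * x) (hθs : star θ = -θ) (N : Subgroup (SU f H)) [N.Normal]
    (hN : commutator (UH H) ≤ N.map (inc f H)) :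
    ∃ π : SigmaP f →* (SU f H ⧸ N), Function.Surjective π ∧
      ∀ s : SigmaP f, star ((s : Dˣ) : D) = ((s : Dˣ) : D) → π s = 1 := by
  have hex : ∀ Z : SigmaP f, ∃ g : SU f H, cls (inc f H g) = G.F ((Z : Dˣ) : D) := by
    intro Z
    obtain ⟨g, hg⟩ := cls_surj (G.F ((Z : Dˣ) : D))
    have h1 := rnA_F f hH hR h1 G (Units.ne_zero (Z : Dˣ))
    have h3 : (f (star ((Z : Dˣ) : D))).det = (f ((Z : Dˣ) : D)).det := Z.2
    rw [h3] at h1
    have h4 : ((rnA f H (G.F ((Z : Dˣ) : D)) : Fˣ) : F) = 1 :=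
      mul_right_cancel₀ (det_f_ne f (Units.ne_zero (Z : Dˣ))) (by rw [h1, one_mul])
    rw [← hg, rnA_cls] at h4
    have h5 : rn f H g = 1 := Units.ext h4
    obtain ⟨g', hg'⟩ := exists_inc f h5
    exact ⟨g', by rw [hg', hg]⟩
  choose τ hτ using hex
  have hker : ∀ a b : SU f H, cls (inc f H a) = cls (inc f H b) →
      (QuotientGroup.mk a : SU f H ⧸ N) = QuotientGroup.mk b := by
    intro a b hab
    rw [QuotientGroup.eq]
    have h1 : cls (inc f H (a⁻¹ * b)) = 1 := by
      rw [map_mul, map_inv, cls_mul]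
      have h6 : cls (inc f H a)⁻¹ = (cls (inc f H a))⁻¹ := map_inv Abelianization.of _
      rw [h6, hab, inv_mul_cancel]
    obtain ⟨n, hn, hn'⟩ := hN ((cls_eq_one_iff _).mp h1)
    rwa [← inc_injective f H hn']
  refine ⟨MonoidHom.mk' (fun Z => (QuotientGroup.mk (τ Z) : SU f H ⧸ N)) ?_, ?_, ?_⟩
  · intro a b
    rw [← QuotientGroup.mk_mul]
    apply hker
    rw [hτ, map_mul, cls_mul, hτ, hτ]
    exact G.mul _ _ (Units.ne_zero (a : Dˣ)) (Units.ne_zero (b : Dˣ))
  · intro q
    obtain ⟨g, rfl⟩ := QuotientGroup.mk_surjective q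
    obtain ⟨Z, hZ0, hZ, hZg⟩ := exists_F_eq_SU f hH hR h1 G hθ0 hθ hθs g
    refine ⟨⟨Units.mk0 Z hZ0, hZ⟩, ?_⟩
    change (QuotientGroup.mk (τ _) : SU f H ⧸ N) = _
    apply hker
    rw [hτ, ← hZg]
    rfl
  · intro s hs
    change (QuotientGroup.mk (τ s) : SU f H ⧸ N) = _
    rw [← QuotientGroup.mk_one]
    apply hker
    rw [hτ, map_one, cls_one]
    exact G.sym _ (Units.ne_zero (s : Dˣ)) hs

/-- A normal subgroup of the special unitary group is central or contains the commutator
subgroup of the whole unitary group; deduced from the same statement for subgroups of the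
unitary group normalized by its commutator subgroup. -/
theorem commutator_le_or_central_of {H : Matrix μ μ D} (hR : Room H 2)
    (hpart : ∀ N : Subgroup (UH H), (∀ e ∈ commutator (UH H), ∀ g ∈ N, e * g * e⁻¹ ∈ N) →
      ∀ σ ∈ N, (∃ x : Matrix μ Unit D, ∀ c : Matrix Unit Unit D, mat σ * x ≠ x * c) →
      commutator (UH H) ≤ N)
    (N : Subgroup (SU f H)) (hN : N.Normal) :
    N ≤ Subgroup.center (SU f H) ∨ commutator (UH H) ≤ N.map (inc f H) := by
  by_cases hc : ∃ σ ∈ N, ∃ x : Matrix μ Unit D, ∀ c : Matrix Unit Unit D,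
      mat (inc f H σ) * x ≠ x * c
  · right
    obtain ⟨σ, hσ, x, hx⟩ := hc
    refine hpart (N.map (inc f H)) ?_ (inc f H σ)
      (Subgroup.mem_map_of_mem _ hσ) ⟨x, hx⟩
    rintro e he g ⟨g', hg', rfl⟩
    obtain ⟨e', rfl⟩ := exists_inc f (rn_commutator f he)
    rw [← map_inv, ← map_mul, ← map_mul]
    exact Subgroup.mem_map_of_mem _ (hN.conj_mem g' hg' e')
  · left
    push Not at hc
    intro σ hσ
    obtain ⟨i0, j0, hij⟩ := exists_ne_of_room hR
    obtain ⟨c, hcc, hcs⟩ := scalar_of_lines hij (hc σ hσ)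
    rw [Subgroup.mem_center_iff]
    intro g
    apply inc_injective f H
    apply mat_injective
    rw [map_mul, map_mul, mat_mul, mat_mul, hcs]
    ext i j
    rw [Matrix.mul_diagonal, Matrix.diagonal_mul, hcc]

end

theorem room_of_explicit {D : Type} [DivisionRing D] [StarRing D] {m : ℕ}
    {H : Matrix (Fin m) (Fin m) D} {R : ℕ}
    (h : ∀ i j n : ℕ, i + j ≤ R → ∀ (y : Matrix (Fin m) (Fin i) D) (s : Matrix (Fin n) (Fin j) D),
      ∃ x : Matrix (Fin m) (Fin j) D, xᴴ * H * x = sᴴ * s ∧ yᴴ * H * x = 0) : Room H R := by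
  intro κ ν _ _ _ _ hcard y s hs
  obtain ⟨n, t, rfl⟩ := hs
  let eκ := Fintype.equivFin κ
  let eν := Fintype.equivFin ν
  obtain ⟨x, hx1, hx2⟩ := h (Fintype.card κ) (Fintype.card ν) n hcard (y.submatrix id eκ.symm)
    (t.submatrix id eν.symm)
  refine ⟨x.submatrix id eν, ?_, ?_⟩
  · ext a b
    have := congrFun (congrFun hx1 (eν a)) (eν b)
    simpa only [conjTranspose_submatrix, Matrix.mul_apply, submatrix_apply, id_eq, conjTranspose_apply,     Equiv.symm_apply_apply] using this
  · ext a b
    have := congrFun (congrFun hx2 (eκ a)) (eν b)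
    simpa only [Matrix.mul_apply, conjTranspose_apply, submatrix_apply, id_eq, Matrix.zero_apply,     conjTranspose_submatrix, Equiv.symm_apply_apply] using this

theorem IsAnisotropicForm.an {D : Type} [DivisionRing D] [StarRing D] {m : ℕ}
    {H : Matrix (Fin m) (Fin m) D} (h : IsAnisotropicForm H) : An H := by
  refine ⟨h.1, fun x hx => ?_⟩
  have h1 := h.2 (fun i => x i ()) (by
    have h2 := congrFun (congrFun hx ()) ()
    rw [Matrix.mul_assoc, Matrix.mul_apply] at h2
    simpa only [dotProduct, Pi.star_apply, mulVec, conjTranspose_apply, Matrix.mul_apply, Matrix.zero_apply] using     h2)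
  ext i j
  exact congrFun h1 i

section final

variable {p : ℕ} {K D F : Type} [Field K] [NumberField K] [StarRing K]
  [DivisionRing D] [StarRing D] [CharZero D] [Algebra K D] [StarModule K D]
  [FiniteDimensional K D] [Field F] [Algebra K F]

/-- Normal subgroups of the special unitary group of an anisotropic form in any degree, deduced
from real representations and from the statement about commutators. -/
theorem normal_any_of (hK : ∃ k : K, star k ≠ k) [FormPos D] [FiniteDimensional ℚ D]
    {N0 : ℕ} (ρ : RealRep D N0)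
    (f : D →ₐ[K] Matrix (Fin p) (Fin p) F) {m : ℕ} (H : Matrix (Fin m) (Fin m) D)
    (hH : IsAnisotropicForm H) (hR : Room H 2)
    (hpart : ∀ N : Subgroup (UH H), (∀ e ∈ commutator (UH H), ∀ g ∈ N, e * g * e⁻¹ ∈ N) →
      ∀ σ ∈ N, (∃ x : Matrix (Fin m) Unit D, ∀ c : Matrix Unit Unit D, mat σ * x ≠ x * c) →
      commutator (UH H) ≤ N)
    (N : Subgroup (SU f H)) [hN : N.Normal] :
    N ≤ Subgroup.center (SU f H) ∨
      (ContainsCommutators f H N ∧ IsQuotientOfSUK f (SU f H ⧸ N)) := by
  have hA : An H := hH.an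
  obtain ⟨c, c', hc⟩ := exists_good (K := K) (D := D) hK
  obtain ⟨k, hk⟩ := hK
  obtain ⟨θ, hθd⟩ : ∃ θ : D, θ = algebraMap K D (k - star k) := ⟨_, rfl⟩
  have hθ0 : θ ≠ 0 := by
    rw [hθd, Ne, map_eq_zero]
    exact sub_ne_zero.mpr (Ne.symm hk)
  have hθ : ∀ x, x * θ = θ * x := by
    intro x
    rw [hθd]
    exact (Algebra.commutes _ x).symm
  have hθs : star θ = -θ := by
    rw [hθd, ← algebraMap_star_comm, star_sub, star_star, ← map_neg, neg_sub]
  rcases commutator_le_or_central_of f hR hpart N hN with h | h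
  · exact Or.inl h
  · right
    obtain ⟨G⟩ := exists_globF ρ hA hR (by norm_num) hc hθ hθs hθ0
    refine ⟨?_, isQuotientOfSUK_of f _
      (quot_of_globF f hA hR (by norm_num) G hθ0 hθ hθs N h)⟩
    intro a ha b hb
    have h1 : ⁅(⟨a, ha⟩ : UH H), ⟨b, hb⟩⁆ ∈ commutator (UH H) :=
      Subgroup.commutator_mem_commutator (Subgroup.mem_top _) (Subgroup.mem_top _)
    obtain ⟨n, hn, hn'⟩ := h h1
    refine ⟨n, hn, ?_⟩
    have := congrArg (fun x : UH H => (x : (Matrix (Fin m) (Fin m) D)ˣ)) hn'
    exact this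

end final

end Vale.Agent.P011S

end

section
/-!
Room from universality orthogonally to two vectors.
-/

set_option linter.unusedSectionVars false

open Matrix Module

namespace Vale.Agent.P011S

variable {D : Type} [DivisionRing D] [StarRing D] {m : ℕ}

theorem gram_entry (H : Matrix (Fin m) (Fin m) D) {κ ν : Type} (x : Matrix (Fin m) κ D)
    (y : Matrix (Fin m) ν D) (i : κ) (j : ν) :
    (xᴴ * H * y) i j = star (fun a => x a i) ⬝ᵥ (H *ᵥ fun a => y a j) := by
  rw [Matrix.mul_assoc, Matrix.mul_apply]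
  simp only [conjTranspose_apply, Matrix.mul_apply, dotProduct, Pi.star_apply, mulVec]

theorem two_flip {H : Matrix (Fin m) (Fin m) D} (hH : Hᴴ = H) (x y : Fin m → D) :
    star y ⬝ᵥ (H *ᵥ x) = star (star x ⬝ᵥ (H *ᵥ y)) := by
  rw [Matrix.star_dotProduct, Matrix.star_mulVec, hH, ← Matrix.dotProduct_mulVec]

variable [FormPos D] [CharZero D]

theorem IsTwoUniversal.explicit {H : Matrix (Fin m) (Fin m) D} (hH : Hᴴ = H)
    (hU : IsTwoUniversal H) (i j n : ℕ) (hij : i + j ≤ 2) (y : Matrix (Fin m) (Fin i) D)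
    (s : Matrix (Fin n) (Fin j) D) :
    ∃ x : Matrix (Fin m) (Fin j) D, xᴴ * H * x = sᴴ * s ∧ yᴴ * H * x = 0 := by
  obtain h | h | h : j = 0 ∨ j = 1 ∨ j = 2 := by omega
  · subst h
    refine ⟨0, ?_, ?_⟩
    · ext a; exact a.elim0
    · ext a b; exact b.elim0
  · subst h
    obtain ⟨y', hy'⟩ : ∃ y' : Fin m → D, ∀ k : Fin i, (fun a => y a k) = y' := by
      obtain h | h : i = 0 ∨ i = 1 := by omega
      · subst h; exact ⟨0, fun k => k.elim0⟩
      · subst h; exact ⟨fun a => y a 0, fun k => by rw [Subsingleton.elim k 0]⟩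
    obtain ⟨x, hx1, hx2, -⟩ := hU y' y' n (fun a => s a 0)
    refine ⟨Matrix.of fun a _ => x a, ?_, ?_⟩
    · ext a b
      rw [gram_entry, Subsingleton.elim a 0, Subsingleton.elim b 0, Matrix.mul_apply]
      exact hx1
    · ext a b
      rw [gram_entry, hy' a]
      exact hx2
  · subst h
    have hi : i = 0 := by omega
    subst hi
    set a := ∑ k, star (s k 0) * s k 0 with ha
    set b := ∑ k, star (s k 0) * s k 1 with hb
    have hbs : star b = ∑ k, star (s k 1) * s k 0 := by
      rw [hb, star_sum]; simp only [Fin.isValue, star_mul, star_star]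
    have has : star a = a := by rw [ha, star_sum]; simp only [Fin.isValue, star_mul, star_star]
    obtain ⟨x1, h11, -, -⟩ := hU 0 0 n (fun k => s k 0)
    -- the second vector
    obtain ⟨x2, h12, h22⟩ : ∃ x2 : Fin m → D, star x1 ⬝ᵥ (H *ᵥ x2) = b ∧
        star x2 ⬝ᵥ (H *ᵥ x2) = ∑ k, star (s k 1) * s k 1 := by
      by_cases ha0 : a = 0
      · have hs0 := FormPos.eq_zero n (fun k => s k 0) (ha ▸ ha0)
        have hb0 : b = 0 := by
          rw [hb]
          apply Finset.sum_eq_zero
          intro k _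
          have := congrFun hs0 k
          simp only [Pi.zero_apply] at this
          rw [this]; simp only [star_zero, Fin.isValue, zero_mul]
        obtain ⟨x2, h1, h2, -⟩ := hU x1 x1 n (fun k => s k 1)
        exact ⟨x2, by rw [h2, hb0], h1⟩
      · obtain ⟨w, h1, h2, -⟩ := hU x1 x1 n (fun k => s k 1 - s k 0 * (a⁻¹ * b))
        have h3 : star w ⬝ᵥ (H *ᵥ x1) = 0 := by rw [two_flip hH, h2, star_zero]
        have hsm : ∀ (u v : Fin m → D) (c : D), star u ⬝ᵥ (H *ᵥ fun t => v t * c) =
            (star u ⬝ᵥ (H *ᵥ v)) * c := by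
          intro u v c
          have e1 : (H *ᵥ fun t => v t * c) = fun t => (H *ᵥ v) t * c := by
            funext t
            simp only [Matrix.mulVec, dotProduct, Finset.sum_mul, mul_assoc]
          rw [e1]
          simp only [dotProduct, Finset.sum_mul, mul_assoc]
        have hadd : ∀ u v v' : Fin m → D, star u ⬝ᵥ (H *ᵥ (v + v')) =
            star u ⬝ᵥ (H *ᵥ v) + star u ⬝ᵥ (H *ᵥ v') := by
          intro u v v'
          rw [Matrix.mulVec_add, dotProduct_add]
        have hx12 : star x1 ⬝ᵥ (H *ᵥ ((fun t => x1 t * (a⁻¹ * b)) + w)) = b := by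
          rw [hadd, hsm, h2, add_zero, h11, ← ha, mul_inv_cancel_left₀ ha0]
        refine ⟨(fun t => x1 t * (a⁻¹ * b)) + w, hx12, ?_⟩
        have hx21 : star ((fun t => x1 t * (a⁻¹ * b)) + w) ⬝ᵥ (H *ᵥ x1) = star b := by
          rw [two_flip hH, hx12]
        have hxw : star ((fun t => x1 t * (a⁻¹ * b)) + w) ⬝ᵥ (H *ᵥ w) =
            ∑ k, star (s k 1 - s k 0 * (a⁻¹ * b)) * (s k 1 - s k 0 * (a⁻¹ * b)) := by
          have e1 : star w ⬝ᵥ (H *ᵥ ((fun t => x1 t * (a⁻¹ * b)) + w)) =
              ∑ k, star (s k 1 - s k 0 * (a⁻¹ * b)) * (s k 1 - s k 0 * (a⁻¹ * b)) := by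
            rw [hadd, hsm, h3, zero_mul, zero_add, h1]
          rw [two_flip hH, e1, star_sum]
          simp only [Fin.isValue, star_sub, star_mul, star_inv₀, star_star]
        rw [hadd, hsm, hx21, hxw]
        have e2 : ∑ k, star (s k 1 - s k 0 * (a⁻¹ * b)) * (s k 1 - s k 0 * (a⁻¹ * b)) =
            (∑ k, star (s k 1) * s k 1) - star b * (a⁻¹ * b) := by
          have e3 : ∀ k, star (s k 1 - s k 0 * (a⁻¹ * b)) * (s k 1 - s k 0 * (a⁻¹ * b)) =
              star (s k 1) * s k 1 - (star (s k 1) * s k 0) * (a⁻¹ * b)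
                - star (a⁻¹ * b) * (star (s k 0) * s k 1)
                + star (a⁻¹ * b) * (star (s k 0) * s k 0) * (a⁻¹ * b) := by
            intro k
            rw [star_sub, star_mul]
            noncomm_ring
          simp only [e3]
          rw [Finset.sum_add_distrib, Finset.sum_sub_distrib, Finset.sum_sub_distrib,
            ← Finset.sum_mul, ← Finset.mul_sum, ← Finset.sum_mul, ← Finset.mul_sum, ← hbs, ← hb,
            ← ha]
          have e4 : star (a⁻¹ * b) * a * (a⁻¹ * b) = star (a⁻¹ * b) * b := by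
            rw [mul_assoc, mul_inv_cancel_left₀ ha0]
          rw [e4]
          abel
        rw [e2]
        abel
    refine ⟨Matrix.of fun t k => (![x1, x2] k) t, ?_, ?_⟩
    · have h21 : star x2 ⬝ᵥ (H *ᵥ x1) = star b := by rw [two_flip hH, h12]
      ext k l
      rw [gram_entry, Matrix.mul_apply]
      fin_cases k <;> fin_cases l
      · simpa only [Nat.succ_eq_add_one, Nat.reduceAdd, cons_val', cons_val_fin_one, Fin.zero_eta, Fin.isValue,     of_apply, cons_val_zero, conjTranspose_apply] using h11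
      · simpa only [Nat.succ_eq_add_one, Nat.reduceAdd, cons_val', cons_val_fin_one, Fin.zero_eta, Fin.isValue,     of_apply, cons_val_zero, Fin.mk_one, cons_val_one, conjTranspose_apply] using h12
      · simpa only [Nat.succ_eq_add_one, Nat.reduceAdd, cons_val', cons_val_fin_one, Fin.mk_one, Fin.isValue,     of_apply, cons_val_one, Fin.zero_eta, cons_val_zero, conjTranspose_apply, hbs] using h21
      · simpa only [Nat.succ_eq_add_one, Nat.reduceAdd, cons_val', cons_val_fin_one, Fin.mk_one, Fin.isValue,     of_apply, cons_val_one, conjTranspose_apply] using h22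
    · ext k; exact k.elim0

theorem IsTwoUniversal.room [FiniteDimensional ℚ D] {H : Matrix (Fin m) (Fin m) D} (hH : Hᴴ = H)
    (hU : IsTwoUniversal H) : Room H 2 := room_of_explicit fun i j n hij y s =>
  hU.explicit hH i j n hij y s

end Vale.Agent.P011S

end
end

section

section
/-!
Anisotropic hermitian forms with values in the cone of sums of hermitian squares, their
isometry groups, and quasi-reflections.
-/

namespace Vale.Agent.P011S

open Module

/-- An anisotropic hermitian form on a left vector space. -/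
structure AForm (D V : Type*) [DivisionRing D] [StarRing D] [AddCommGroup V] [Module D V] where
  h : V → V → D
  add_left' : ∀ x y z, h (x + y) z = h x z + h y z
  smul_left' : ∀ (a : D) x y, h (a • x) y = a * h x y
  star_h' : ∀ x y, star (h x y) = h y x
  anis' : ∀ x, h x x = 0 → x = 0

variable {D V : Type*} [DivisionRing D] [StarRing D] [AddCommGroup V] [Module D V]

namespace AForm

variable (H : AForm D V)

theorem add_left (x y z : V) : H.h (x + y) z = H.h x z + H.h y z := H.add_left' x y z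

theorem smul_left (a : D) (x y : V) : H.h (a • x) y = a * H.h x y := H.smul_left' a x y

theorem star_h (x y : V) : star (H.h x y) = H.h y x := H.star_h' x y

theorem anis {x : V} (hx : H.h x x = 0) : x = 0 := H.anis' x hx

theorem add_right (x y z : V) : H.h x (y + z) = H.h x y + H.h x z := by
  rw [← H.star_h, H.add_left, star_add, H.star_h, H.star_h]

theorem smul_right (a : D) (x y : V) : H.h x (a • y) = H.h x y * star a := by
  rw [← H.star_h, H.smul_left, star_mul, H.star_h]

@[simp] theorem zero_left (x : V) : H.h 0 x = 0 := by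
  have := H.smul_left 0 0 x
  simpa using this

@[simp] theorem zero_right (x : V) : H.h x 0 = 0 := by
  rw [← H.star_h, zero_left, star_zero]

theorem neg_left (x y : V) : H.h (-x) y = - H.h x y := by
  have := H.smul_left (-1) x y
  simpa only [neg_smul, one_smul, neg_mul, one_mul] using this

theorem neg_right (x y : V) : H.h x (-y) = - H.h x y := by
  rw [← H.star_h, neg_left, star_neg, H.star_h]

theorem sub_left (x y z : V) : H.h (x - y) z = H.h x z - H.h y z := by
  rw [sub_eq_add_neg, add_left, neg_left, ← sub_eq_add_neg]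

theorem sub_right (x y z : V) : H.h x (y - z) = H.h x y - H.h x z := by
  rw [sub_eq_add_neg, add_right, neg_right, ← sub_eq_add_neg]

theorem self_ne_zero {x : V} (hx : x ≠ 0) : H.h x x ≠ 0 := fun h0 => hx (H.anis h0)

theorem orth_symm {x y : V} (h : H.h x y = 0) : H.h y x = 0 := by
  rw [← H.star_h, h, star_zero]

theorem eq_of_sub_self {x y : V} (h : H.h (x - y) (x - y) = 0) : x = y :=
  sub_eq_zero.mp (H.anis h)

/-- The isometry group. -/
def isom : Subgroup (V ≃ₗ[D] V) where
  carrier := {g | ∀ x y, H.h (g x) (g y) = H.h x y}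
  mul_mem' := by
    intro a b ha hb x y
    rw [LinearEquiv.mul_apply, LinearEquiv.mul_apply, ha, hb]
  one_mem' := by intro x y; simp
  inv_mem' := by
    intro a ha x y
    have h1 := ha (a⁻¹ x) (a⁻¹ y)
    rw [← h1, ← LinearEquiv.mul_apply, ← LinearEquiv.mul_apply, mul_inv_cancel]
    simp

theorem mem_isom {g : V ≃ₗ[D] V} : g ∈ H.isom ↔ ∀ x y, H.h (g x) (g y) = H.h x y := Iff.rfl

theorem isom_apply {g : V ≃ₗ[D] V} (hg : g ∈ H.isom) (x y : V) :
    H.h (g x) (g y) = H.h x y := hg x y

/-- auxiliary computation -/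
theorem qr_aux (y : V) (s t : D) (hst : s = 0 ↔ t = 0) (hs : s + t = H.h y y) (v : V) :
    (v - (H.h v y * s⁻¹) • y) - (H.h (v - (H.h v y * s⁻¹) • y) y * t⁻¹) • y = v := by
  by_cases hs0 : s = 0
  · have ht0 := hst.mp hs0
    simp [hs0, ht0]
  · have ht0 : t ≠ 0 := fun h => hs0 (hst.mpr h)
    rw [sub_left, smul_left, ← hs, sub_sub, ← add_smul]
    have h1 : H.h v y * s⁻¹ + (H.h v y - H.h v y * s⁻¹ * (s + t)) * t⁻¹ = 0 := by
      rw [mul_add, sub_mul, add_mul, mul_assoc (H.h v y) s⁻¹ s, inv_mul_cancel₀ hs0,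
        mul_assoc (H.h v y * s⁻¹) t t⁻¹, mul_inv_cancel₀ ht0]
      simp only [mul_one, sub_add_cancel_left, add_neg_cancel]
    rw [h1, zero_smul, sub_zero]

/-- The quasi-reflection `v ↦ v - h(v,y) s⁻¹ y`, where `s + star s = h(y,y)`. -/
def qr (y : V) (s : D) (hs : s + star s = H.h y y) : V ≃ₗ[D] V where
  toFun v := v - (H.h v y * s⁻¹) • y
  invFun v := v - (H.h v y * (star s)⁻¹) • y
  map_add' v w := by
    rw [add_left, add_mul, add_smul]; abel
  map_smul' c v := by
    simp only [RingHom.id_apply]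
    rw [smul_left, smul_sub, smul_smul, mul_assoc]
  left_inv v := by
    apply qr_aux
    · simp
    · exact hs
  right_inv v := by
    apply qr_aux
    · simp
    · rw [add_comm]; exact hs

theorem qr_apply (y : V) (s : D) (hs : s + star s = H.h y y) (v : V) :
    H.qr y s hs v = v - (H.h v y * s⁻¹) • y := rfl

theorem qr_mem (y : V) (s : D) (hs : s + star s = H.h y y) : H.qr y s hs ∈ H.isom := by
  rw [mem_isom]
  intro v w
  rw [qr_apply, qr_apply]
  by_cases hs0 : s = 0
  · simp [hs0]
  have hs0' : star s ≠ 0 := star_ne_zero.mpr hs0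
  rw [sub_left, sub_right, sub_right, smul_left, smul_left, smul_right, smul_right, ← hs, star_mul,
    star_inv₀, H.star_h w y]
  have h1 : H.h v y * s⁻¹ * ((s + star s) * ((star s)⁻¹ * H.h y w))
      = H.h v y * ((star s)⁻¹ * H.h y w) + H.h v y * s⁻¹ * H.h y w := by
    rw [add_mul, mul_add, mul_inv_cancel_left₀ hs0', mul_assoc (H.h v y), inv_mul_cancel_left₀ hs0]
  rw [h1]
  abel

theorem qr_conj {g : V ≃ₗ[D] V} (hg : g ∈ H.isom) (y : V) (s : D) (hs : s + star s = H.h y y)
    (hs' : s + star s = H.h (g y) (g y)) : g * H.qr y s hs * g⁻¹ = H.qr (g y) s hs' := by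
  ext v
  rw [LinearEquiv.mul_apply, LinearEquiv.mul_apply, qr_apply, qr_apply, map_sub, map_smul]
  have h1 : g (g⁻¹ v) = v := by
    rw [← LinearEquiv.mul_apply, mul_inv_cancel]; rfl
  have h2 : H.h (g⁻¹ v) y = H.h v (g y) := by
    rw [← H.isom_apply hg (g⁻¹ v) y, h1]
  rw [h1, h2]

/-- The quasi-reflection along `x - x'` mapping `x` to `x'`. -/
theorem qr_map_cond {x x' : V} (h : H.h x x = H.h x' x') :
    H.h x (x - x') + star (H.h x (x - x')) = H.h (x - x') (x - x') := by
  rw [H.star_h]
  simp only [sub_left, sub_right]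
  rw [h]
  abel

theorem qr_map {x x' : V} (h : H.h x x = H.h x' x') :
    H.qr (x - x') (H.h x (x - x')) (H.qr_map_cond h) x = x' := by
  rw [qr_apply]
  by_cases h0 : H.h x (x - x') = 0
  · have h1 := H.qr_map_cond h
    rw [h0, star_zero, add_zero] at h1
    have h2 := H.eq_of_sub_self h1.symm
    rw [h2]
    simp
  · rw [mul_inv_cancel₀ h0, one_smul, sub_sub_cancel]

variable [CharZero D]

theorem refl_cond (y : V) : H.h y y / 2 + star (H.h y y / 2) = H.h y y := by
  have h1 : star (H.h y y / 2) = H.h y y / 2 := by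
    have h2 : star (H.h y y) = H.h y y := H.star_h y y
    have hc : Commute (2 : D)⁻¹ (H.h y y) := (Nat.cast_commute 2 (H.h y y)).inv_left₀
    rw [div_eq_mul_inv, star_mul, h2, star_inv₀, star_ofNat]
    exact hc.eq
  rw [h1, add_halves]

/-- The orthogonal reflection in the hyperplane orthogonal to `y`
(the identity if `y = 0`). -/
def refl (y : V) : V ≃ₗ[D] V := H.qr y (H.h y y / 2) (H.refl_cond y)

theorem refl_apply (y v : V) :
    H.refl y v = v - (H.h v y * (H.h y y / 2)⁻¹) • y := rfl

theorem refl_mem (y : V) : H.refl y ∈ H.isom := H.qr_mem _ _ _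

theorem refl_apply_orth {y v : V} (h : H.h v y = 0) : H.refl y v = v := by
  rw [refl_apply, h]; simp

theorem refl_self (y : V) : H.refl y y = -y := by
  rw [refl_apply]
  by_cases hy : y = 0
  · simp [hy]
  · have h1 := H.self_ne_zero hy
    rw [div_eq_mul_inv, mul_inv_rev, inv_inv]
    have hc : Commute (2 : D) (H.h y y)⁻¹ := (Nat.cast_commute 2 _)
    rw [hc.eq, mul_inv_cancel_left₀ h1, two_smul]
    abel

theorem refl_mul_self (y : V) : H.refl y * H.refl y = 1 := by
  ext v
  rw [LinearEquiv.mul_apply]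
  rw [H.refl_apply y v, map_sub, map_smul, refl_self, H.refl_apply y v]
  simp only [inv_div, smul_neg, sub_neg_eq_add, sub_add_cancel, LinearEquiv.coe_one, id_eq]

theorem refl_inv (y : V) : (H.refl y)⁻¹ = H.refl y :=
  inv_eq_of_mul_eq_one_left (H.refl_mul_self y)

theorem refl_conj {g : V ≃ₗ[D] V} (hg : g ∈ H.isom) (y : V) :
    g * H.refl y * g⁻¹ = H.refl (g y) := by
  have h1 : H.h (g y) (g y) = H.h y y := H.isom_apply hg y y
  unfold refl
  rw [H.qr_conj hg y _ _ (by rw [h1]; exact H.refl_cond y)]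
  congr 1
  rw [h1]

omit [StarRing D] [CharZero D] in
theorem half_aux (a b c : D) : a * (b * c) / 2 = a * (b / 2) * c := by
  have hc : Commute (2 : D)⁻¹ c := (Nat.cast_commute 2 c).inv_left₀
  rw [div_eq_mul_inv, div_eq_mul_inv]
  simp only [mul_assoc]
  rw [hc.eq]

theorem refl_smul {c : D} (hc : c ≠ 0) (y : V) : H.refl (c • y) = H.refl y := by
  ext v
  rw [refl_apply, refl_apply, smul_right, smul_left, smul_right]
  congr 1
  rw [smul_smul]
  congr 1
  have hc' : star c ≠ 0 := star_ne_zero.mpr hc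
  rw [half_aux, mul_inv_rev, mul_inv_rev]
  rw [mul_assoc (H.h v y), mul_inv_cancel_left₀ hc', mul_assoc (H.h v y), mul_assoc,
    inv_mul_cancel₀ hc, mul_one]

theorem refl_map {x x' : V} (h : H.h x x = H.h x' x') (hs : H.h x x' = H.h x' x) :
    H.refl (x - x') x = x' := by
  have h1 : H.h (x - x') (x - x') / 2 = H.h x (x - x') := by
    have h2 : star (H.h x (x - x')) = H.h x (x - x') := by
      rw [H.star_h, sub_left, sub_right, hs]
    rw [← H.qr_map_cond h, h2, add_self_div_two]
  rw [refl_apply, h1]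
  have := H.qr_map h
  rwa [qr_apply] at this

end AForm

end Vale.Agent.P011S

end

section
/-!
Normal subgroups of isometry groups of rich anisotropic hermitian spaces.
-/

namespace Vale.Agent.P011S

open Module
open scoped commutatorElement

variable {D V : Type*} [DivisionRing D] [StarRing D] [AddCommGroup V] [Module D V] [CharZero D]

namespace AForm

variable (H : AForm D V)

/-- Orthogonally to any two vectors the form represents all sums of hermitian squares. -/
structure Rich : Prop where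
  univ : ∀ (x y : V) (p : D), p ∈ sos D → ∃ v, H.h v x = 0 ∧ H.h v y = 0 ∧ H.h v v = p

/-- The group generated by quasi-reflections in vectors of norm in the cone. -/
def posQrGp : Subgroup (V ≃ₗ[D] V) :=
  Subgroup.closure {g | ∃ (y : V) (s : D) (hs : s + star s = H.h y y),
    H.h y y ∈ sos D ∧ g = H.qr y s hs}

omit [CharZero D] in
theorem posQrGp_le : H.posQrGp ≤ H.isom := by
  rw [posQrGp, Subgroup.closure_le]
  rintro g ⟨y, s, hs, -, rfl⟩
  exact H.qr_mem y s hs

/-- The group generated by products of two reflections in vectors of equal norm. -/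
def evenGp : Subgroup (V ≃ₗ[D] V) :=
  Subgroup.closure {g | ∃ a b : V, H.h a a = H.h b b ∧ g = H.refl a * H.refl b}

omit [CharZero D] in
theorem comm_le_isom : ⁅H.isom, H.isom⁆ ≤ H.isom := by
  rw [Subgroup.commutator_le]
  intro a ha b hb
  rw [commutatorElement_def]
  exact mul_mem (mul_mem (mul_mem ha hb) (inv_mem ha)) (inv_mem hb)

theorem mul_mem_evenGp {a b : V} (h : H.h a a = H.h b b) : H.refl a * H.refl b ∈ H.evenGp :=
  Subgroup.subset_closure ⟨a, b, h, rfl⟩

theorem evenGp_le_comm : H.evenGp ≤ ⁅H.isom, H.isom⁆ := by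
  rw [evenGp, Subgroup.closure_le]
  rintro g ⟨a, b, h, rfl⟩
  have h1 := H.qr_mem _ _ (H.qr_map_cond h)
  have h2 := Subgroup.commutator_mem_commutator (H.refl_mem a) h1
  rw [commutatorElement_def, H.refl_inv, mul_assoc, mul_assoc, ← mul_assoc _ (H.refl a),
    H.refl_conj h1, H.qr_map h] at h2
  exact h2

variable {H}

omit [CharZero D] in
/-- Witt's theorem for one vector. -/
theorem witt_one {x x' : V} (h : H.h x x = H.h x' x') :
    ∃ g ∈ H.isom, g x = x' ∧ ∀ y, H.h y x = H.h y x' → g y = y := by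
  refine ⟨_, H.qr_mem _ _ (H.qr_map_cond h), H.qr_map h, fun y hy => ?_⟩
  rw [H.qr_apply, H.sub_right, hy, sub_self, zero_mul, zero_smul, sub_zero]

omit [CharZero D] in
/-- Witt's theorem for two vectors. -/
theorem witt_pair {x y x' y' : V} (hx : H.h x x = H.h x' x') (hy : H.h y y = H.h y' y')
    (hxy : H.h y x = H.h y' x') : ∃ g ∈ H.isom, g x = x' ∧ g y = y' := by
  obtain ⟨e1, he1', h1, -⟩ := witt_one hx
  set c := H.h y' x' * (H.h x' x')⁻¹ with hc
  have hc1 : c * H.h x' x' = H.h y' x' := by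
    by_cases h0 : x' = 0
    · simp [h0]
    · rw [hc, inv_mul_cancel_right₀ (H.self_ne_zero h0)]
  have hs : H.h x' x' * star c = H.h x' y' := by
    have := congrArg star hc1
    rw [star_mul, H.star_h, H.star_h] at this
    exact this
  have hey : H.h (e1 y) x' = H.h y' x' := by
    rw [← h1, H.isom_apply he1', hxy, ← h1]
  have hey' : H.h x' (e1 y) = H.h x' y' := by
    rw [← H.star_h, hey, H.star_h]
  have hu : H.h (e1 y - c • x') x' = 0 := by
    rw [H.sub_left, H.smul_left, hc1, hey, sub_self]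
  have hu' : H.h (y' - c • x') x' = 0 := by
    rw [H.sub_left, H.smul_left, hc1, sub_self]
  have huu : H.h (e1 y - c • x') (e1 y - c • x') = H.h (y' - c • x') (y' - c • x') := by
    simp only [H.sub_left, H.sub_right, H.smul_left, H.smul_right]
    rw [hey, hey', H.isom_apply he1', hy]
  obtain ⟨e2, he2, h2, h3⟩ := witt_one huu
  have h3 := h3 x' (by rw [H.orth_symm hu, H.orth_symm hu'])
  refine ⟨e2 * e1, mul_mem he2 he1', ?_, ?_⟩
  · rw [LinearEquiv.mul_apply, h1, h3]
  · rw [LinearEquiv.mul_apply]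
    have h4 : e1 y = (e1 y - c • x') + c • x' := by abel
    rw [h4, map_add, map_smul, h2, h3]
    abel

omit [CharZero D] in
/-- Modulo commutators, every isometry fixes two given vectors. -/
theorem Rich.mod_comm (hR : H.Rich) (x y : V) {g : V ≃ₗ[D] V} (hg : g ∈ H.posQrGp) :
    ∃ s ∈ H.isom, s x = x ∧ s y = y ∧ g * s⁻¹ ∈ ⁅H.isom, H.isom⁆ := by
  induction hg using Subgroup.closure_induction with
  | mem g hg =>
    obtain ⟨z, t, hs, hz, rfl⟩ := hg
    obtain ⟨v, hv1, hv2, hv3⟩ := hR.univ x y _ hz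
    obtain ⟨u, hu, hu1, -⟩ := witt_one (H := H) (x := z) (x' := v) hv3.symm
    have hs' : t + star t = H.h (u z) (u z) := by rw [H.isom_apply hu, hs]
    have e1 := H.qr_conj hu z t hs hs'
    refine ⟨u * H.qr z t hs * u⁻¹, mul_mem (mul_mem hu (H.qr_mem _ _ _)) (inv_mem hu), ?_, ?_, ?_⟩
    · rw [e1, H.qr_apply, hu1, H.orth_symm hv1, zero_mul, zero_smul, sub_zero]
    · rw [e1, H.qr_apply, hu1, H.orth_symm hv2, zero_mul, zero_smul, sub_zero]
    · have h2 := Subgroup.commutator_mem_commutator (H.qr_mem z t hs) hu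
      rw [commutatorElement_def] at h2
      convert h2 using 1
      group
  | one => exact ⟨1, one_mem _, rfl, rfl, by simp⟩
  | mul a b ha hb iha ihb =>
    obtain ⟨s, hs, hsx, hsy, hs'⟩ := iha
    obtain ⟨t, ht, htx, hty, ht'⟩ := ihb
    have ha' := H.posQrGp_le ha
    have hb' := H.posQrGp_le hb
    refine ⟨s * t, mul_mem hs ht, ?_, ?_, ?_⟩
    · rw [LinearEquiv.mul_apply, htx, hsx]
    · rw [LinearEquiv.mul_apply, hty, hsy]
    · have h1 : a * b * (s * t)⁻¹ = ⁅a, b * t⁻¹⁆ * (b * t⁻¹) * (a * s⁻¹) := by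
        rw [commutatorElement_def]; group
      rw [h1]
      exact mul_mem (mul_mem (Subgroup.commutator_mem_commutator ha' (mul_mem hb' (inv_mem ht)))
        ht') hs'
  | inv a ha iha =>
    obtain ⟨s, hs, hsx, hsy, hs'⟩ := iha
    have ha' := H.posQrGp_le ha
    refine ⟨s⁻¹, inv_mem hs, ?_, ?_, ?_⟩
    · nth_rewrite 1 [← hsx]
      rw [← LinearEquiv.mul_apply, inv_mul_cancel]; rfl
    · nth_rewrite 1 [← hsy]
      rw [← LinearEquiv.mul_apply, inv_mul_cancel]; rfl
    · have h1 : a⁻¹ * s⁻¹⁻¹ = ⁅s⁻¹, (a * s⁻¹)⁻¹⁆ * (a * s⁻¹)⁻¹ := by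
        rw [commutatorElement_def]; group
      rw [h1]
      exact mul_mem (Subgroup.commutator_mem_commutator (inv_mem hs)
        (inv_mem (mul_mem ha' (inv_mem hs)))) (inv_mem hs')

omit [CharZero D] in
/-- Transitivity on pairs with the same Gram matrix. -/
theorem Rich.trans_pair (hR : H.Rich) (hgen : H.isom ≤ H.posQrGp) {x y x' y' : V}
    (hx : H.h x x = H.h x' x') (hy : H.h y y = H.h y' y') (hxy : H.h y x = H.h y' x') :
    ∃ e ∈ ⁅H.isom, H.isom⁆, e x = x' ∧ e y = y' := by
  obtain ⟨g, hg, hgx, hgy⟩ := witt_pair hx hy hxy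
  obtain ⟨s, hs, hsx, hsy, h⟩ := hR.mod_comm x y (hgen hg)
  have key : ∀ v, s v = v → (g * s⁻¹) v = g v := by
    intro v hv
    rw [LinearEquiv.mul_apply]
    congr 1
    nth_rewrite 1 [← hv]
    rw [← LinearEquiv.mul_apply, inv_mul_cancel]; rfl
  exact ⟨g * s⁻¹, h, by rw [key x hsx, hgx], by rw [key y hsy, hgy]⟩

/-- Doubling step for rational angles. -/
theorem Rich.double (hR : H.Rich) {A : D} (hA : A ∈ sos D) {R : V → V → Prop}
    (hsymm : ∀ x y, R x y → R y x) (htrans : ∀ x y z, R x y → R y z → R x z)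
    {a : ℚ} (ha : ∀ x y, H.h x x = A → H.h y y = A → H.h x y = (a : D) * A → R x y)
    {b : ℚ} (hb : 0 < 1 + b) (hab : 2 * a ^ 2 ≤ 1 + b) :
    ∀ x y, H.h x x = A → H.h y y = A → H.h x y = (b : D) * A → R x y := by
  intro x y hx hy hxy
  have hyx : H.h y x = (b : D) * A := by
    rw [← H.star_h, hxy, star_mul, star_ratCast, sos_star hA, ← (Rat.cast_commute b A).eq]
  have hη : 0 ≤ 1 - 2 * a ^ 2 / (1 + b) := by
    rw [sub_nonneg, div_le_one hb]; exact hab
  obtain ⟨u, hu1, hu2, hu3⟩ := hR.univ x y (((1 - 2 * a ^ 2 / (1 + b) : ℚ) : D) * A)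
    (sos_rat hA hη)
  set c : ℚ := a / (1 + b) with hc
  set w : V := (c : D) • (x + y) + u with hw
  have hcom : ∀ (q : ℚ) (z : D), z * (q : D) = (q : D) * z := fun q z =>
    (Rat.cast_commute q z).eq.symm
  have hwx : H.h w x = (a : D) * A := by
    rw [hw, H.add_left, H.smul_left, H.add_left, hx, hyx, hu1, add_zero]
    have h1 : A + (b : D) * A = ((1 + b : ℚ) : D) * A := by
      rw [Rat.cast_add, Rat.cast_one, add_mul, one_mul]
    rw [h1, ← mul_assoc, ← Rat.cast_mul, hc, div_mul_cancel₀ _ hb.ne']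
  have hwy : H.h w y = (a : D) * A := by
    rw [hw, H.add_left, H.smul_left, H.add_left, hy, hxy, hu2, add_zero]
    have h1 : (b : D) * A + A = ((1 + b : ℚ) : D) * A := by
      rw [Rat.cast_add, Rat.cast_one, add_mul, one_mul, add_comm]
    rw [h1, ← mul_assoc, ← Rat.cast_mul, hc, div_mul_cancel₀ _ hb.ne']
  have hxw : H.h x w = (a : D) * A := by
    rw [← H.star_h, hwx, star_mul, star_ratCast, sos_star hA, hcom]
  have hyw : H.h y w = (a : D) * A := by
    rw [← H.star_h, hwy, star_mul, star_ratCast, sos_star hA, hcom]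
  have hwu : H.h w u = H.h u u := by
    rw [hw, H.add_left, H.smul_left, H.add_left, H.orth_symm hu1, H.orth_symm hu2]
    simp
  have hww : H.h w w = A := by
    have h2 : H.h w w = (H.h w x + H.h w y) * star (c : D) + H.h w u := by
      conv_lhs => rw [hw]
      rw [← hw, H.add_right, H.smul_right, H.add_right]
    rw [h2, hwx, hwy, hwu, hu3, star_ratCast, hcom, ← add_mul, ← mul_assoc, ← Rat.cast_add,
      ← Rat.cast_mul, ← add_mul, ← Rat.cast_add]
    have h3 : c * (a + a) + (1 - 2 * a ^ 2 / (1 + b)) = 1 := by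
      rw [hc]; field_simp; ring
    rw [h3, Rat.cast_one, one_mul]
  exact htrans _ _ _ (ha x w hx hww hxw) (hsymm _ _ (ha y w hy hww hyw))

/-- An equivalence relation containing all pairs at one small rational angle is total. -/
theorem Rich.total (hR : H.Rich) {A : D} (hA : A ∈ sos D) {R : V → V → Prop}
    (hsymm : ∀ x y, R x y → R y x) (htrans : ∀ x y z, R x y → R y z → R x z)
    {ε : ℚ} (h0 : 0 < ε) (h1 : ε ≤ 1)
    (ha : ∀ x y, H.h x x = A → H.h y y = A → H.h x y = ((1 - ε : ℚ) : D) * A → R x y) :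
    ∀ x y, H.h x x = A → H.h y y = A → R x y := by
  -- first reach orthogonal pairs
  have horth : ∀ (n : ℕ) (ε : ℚ), (1 / 2 : ℚ) ^ (n + 1) ≤ ε → ε ≤ 1 →
      (∀ x y, H.h x x = A → H.h y y = A → H.h x y = ((1 - ε : ℚ) : D) * A → R x y) →
      ∀ x y, H.h x x = A → H.h y y = A → H.h x y = ((0 : ℚ) : D) * A → R x y := by
    intro n
    induction n with
    | zero =>
      intro ε hε hε1 h
      refine hR.double hA hsymm htrans h (by norm_num) ?_
      norm_num at hε
      nlinarith only [hε, hε1]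
    | succ n ih =>
      intro ε hε hε1 h
      by_cases h2 : 1 / 2 ≤ ε
      · refine hR.double hA hsymm htrans h (by norm_num) ?_
        nlinarith only [h2, hε1]
      · push Not at h2
        have hεpos : 0 < ε := lt_of_lt_of_le (by positivity) hε
        refine ih (2 * ε) ?_ (by linarith only [h2]) ?_
        · rw [pow_succ] at hε
          linarith
        · refine hR.double hA hsymm htrans h (by linarith only [h2]) ?_
          nlinarith only [hε1, hεpos]
  have hex : ∃ n : ℕ, (1 / 2 : ℚ) ^ (n + 1) ≤ ε := by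
    obtain ⟨n, hn⟩ := exists_pow_lt_of_lt_one h0 (by norm_num : (1 / 2 : ℚ) < 1)
    refine ⟨n, le_trans ?_ hn.le⟩
    rw [pow_succ]
    have : (0 : ℚ) < (1 / 2) ^ n := by positivity
    linarith only [this]
  obtain ⟨n, hn⟩ := hex
  have horth' := horth n ε hn h1 ha
  intro x y hx hy
  obtain ⟨z, hz1, hz2, hz3⟩ := hR.univ x y A hA
  refine htrans _ z _ (hsymm _ _ (horth' z x hz3 hx (by simp [hz1])))
    (horth' z y hz3 hy (by simp [hz2]))

/-- The normalization hypothesis on subgroups. -/
def CommNormal (H : AForm D V) (N : Subgroup (V ≃ₗ[D] V)) : Prop :=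
  ∀ e ∈ ⁅H.isom, H.isom⁆, ∀ g ∈ N, e * g * e⁻¹ ∈ N

theorem refl_prod_inv (x y : V) : (H.refl x * H.refl y)⁻¹ = H.refl y * H.refl x := by
  rw [mul_inv_rev, H.refl_inv, H.refl_inv]

theorem conj_refl_prod {g : V ≃ₗ[D] V} (hg : g ∈ H.isom) (x y : V) :
    g * (H.refl x * H.refl y) * g⁻¹ = H.refl (g x) * H.refl (g y) := by
  rw [← H.refl_conj hg, ← H.refl_conj hg]; group

theorem rel_symm {N : Subgroup (V ≃ₗ[D] V)} (x y : V) (h : H.refl x * H.refl y ∈ N) :
    H.refl y * H.refl x ∈ N := by
  rw [← refl_prod_inv]; exact inv_mem h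

theorem rel_trans {N : Subgroup (V ≃ₗ[D] V)} (x y z : V) (h : H.refl x * H.refl y ∈ N)
    (h' : H.refl y * H.refl z ∈ N) : H.refl x * H.refl z ∈ N := by
  have := mul_mem h h'
  rwa [mul_assoc, ← mul_assoc (H.refl y), H.refl_mul_self, one_mul] at this

/-- If `τ ∈ N` and `v` is fixed by `τ`, then `refl (τ w) * refl w ∈ N`. -/
theorem refl_move {N : Subgroup (V ≃ₗ[D] V)} (hN : CommNormal H N) {τ : V ≃ₗ[D] V}
    (hτ : τ ∈ N) (hτ' : τ ∈ H.isom) {v w : V} (hvw : H.h w w = H.h v v) (hfix : τ v = v) :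
    H.refl (τ w) * H.refl w ∈ N := by
  have he : H.refl w * H.refl v ∈ ⁅H.isom, H.isom⁆ := H.evenGp_le_comm (H.mul_mem_evenGp hvw)
  have h1 := mul_mem hτ (hN _ he _ (inv_mem hτ))
  have h2 : τ * ((H.refl w * H.refl v) * τ⁻¹ * (H.refl w * H.refl v)⁻¹)
      = H.refl (τ w) * H.refl w := by
    have h3 := conj_refl_prod hτ' w v
    rw [hfix] at h3
    rw [refl_prod_inv]
    calc τ * ((H.refl w * H.refl v) * τ⁻¹ * (H.refl v * H.refl w))
        = (τ * (H.refl w * H.refl v) * τ⁻¹) * (H.refl v * H.refl w) := by group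
      _ = H.refl (τ w) * H.refl w := by
        rw [h3, mul_assoc, ← mul_assoc (H.refl v), H.refl_mul_self, one_mul]
  rwa [h2] at h1

/-- From one nontrivial product of two reflections of the same positive norm to a full norm
class. -/
theorem Rich.angle (hR : H.Rich) (hgen : H.isom ≤ H.posQrGp) (harch : IsArch D)
    {N : Subgroup (V ≃ₗ[D] V)}
    (hN : CommNormal H N) {z z' : V} (hzs : H.h z z ∈ sos D) (hz : H.h z z = H.h z' z')
    (hind : ∀ c : D, z ≠ c • z') (hτ : H.refl z' * H.refl z ∈ N) :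
    ∃ A ∈ sos D, A ≠ 0 ∧ ∀ x y, H.h x x = A → H.h y y = A → H.refl x * H.refl y ∈ N := by
  have hz0 : z ≠ 0 := fun h => hind 0 (by simp only [h, zero_smul])
  set a := H.h z z with ha
  have ha0 : a ≠ 0 := H.self_ne_zero hz0
  have hastar : star a = a := sos_star hzs
  set b := H.h z z' with hb
  have hb' : H.h z' z = star b := (H.star_h z z').symm
  set y0 := z - (b * a⁻¹) • z' with hy0
  have hy00 : y0 ≠ 0 := sub_ne_zero.mpr (hind _)
  have hyz' : H.h y0 z' = 0 := by
    rw [hy0, H.sub_left, H.smul_left, ← hz, ← hb, inv_mul_cancel_right₀ ha0, sub_self]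
  set k := H.h y0 z with hk
  have hkk : H.h y0 y0 = k := by
    conv_lhs => rw [hy0]
    rw [← hy0, H.sub_left, H.smul_left, H.orth_symm hyz', mul_zero, sub_zero, ← H.star_h, ← hk]
    have h1 : star k = k := by
      have h2 : k = a - b * a⁻¹ * star b := by
        rw [hk, hy0, H.sub_left, H.smul_left, hb', ← ha]
      rw [h2, star_sub, star_mul, star_mul, star_inv₀, star_star, hastar, mul_assoc]
    exact h1
  have hk0 : k ≠ 0 := by rw [← hkk]; exact H.self_ne_zero hy00
  set v0 := -z + (a / 2 * k⁻¹) • y0 with hv0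
  have hv0z : H.h v0 z = -(a / 2) := by
    rw [hv0, H.add_left, H.neg_left, H.smul_left, ← hk, inv_mul_cancel_right₀ hk0, ← ha]
    nth_rewrite 1 [← add_halves a]
    abel
  have hv0z' : H.h v0 z' = -b := by
    rw [hv0, H.add_left, H.neg_left, H.smul_left, hyz', mul_zero, add_zero, ← hb]
  have hvs : star (H.h v0 v0) = H.h v0 v0 := H.star_h v0 v0
  obtain ⟨q, hq, hqk⟩ := harch (H.h v0 v0) hvs a hzs ha0
  set q' := max q 1 with hq'
  have hq'1 : 1 ≤ q' := le_max_right _ _
  have hq'0 : 0 < q' := by linarith only [hq'1]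
  have hq'k : (q' : D) * a - H.h v0 v0 ∈ sos D := by
    have h1 : (q' : D) * a - H.h v0 v0 = ((q : D) * a - H.h v0 v0) + ((q' - q : ℚ) : D) * a := by
      rw [Rat.cast_sub, sub_mul]; abel
    rw [h1]
    exact add_mem hqk (sos_rat hzs (by rw [sub_nonneg]; exact le_max_left _ _))
  obtain ⟨w0, hw1, hw2, hw3⟩ := hR.univ z z' _ hq'k
  have hw0v0 : H.h w0 v0 = 0 := by
    rw [hv0, H.add_right, H.neg_right, H.smul_right, hy0, H.sub_right, H.smul_right, hw1, hw2]
    simp only [neg_zero, star_mul, star_inv₀, zero_mul, sub_self, add_zero]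
  set w := v0 + w0 with hw
  set A := (q' : D) * a with hA
  have hAs : A ∈ sos D := sos_rat hzs hq'0.le
  have hA0 : A ≠ 0 := by
    rw [hA]
    exact mul_ne_zero (by exact_mod_cast hq'0.ne') ha0
  have hww : H.h w w = A := by
    rw [hw, H.add_left v0 w0 (v0 + w0), H.add_right v0 v0 w0, H.add_right w0 v0 w0, hw3, hw0v0,
      H.orth_symm hw0v0]
    abel
  have hwz : H.h w z = -(a / 2) := by rw [hw, H.add_left, hw1, add_zero, hv0z]
  have hwz' : H.h w z' = -b := by rw [hw, H.add_left, hw2, add_zero, hv0z']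
  set τ := H.refl z' * H.refl z with hτdef
  have hτ' : τ ∈ H.isom := mul_mem (H.refl_mem _) (H.refl_mem _)
  have ha2 : a / 2 ≠ 0 := div_ne_zero ha0 two_ne_zero
  have hτw : τ w = w + z := by
    have h1 : H.refl z w = w + z := by
      rw [H.refl_apply, hwz, ← ha, neg_mul, mul_inv_cancel₀ ha2, neg_smul, one_smul, sub_neg_eq_add]
    rw [hτdef, LinearEquiv.mul_apply, h1]
    apply H.refl_apply_orth
    rw [H.add_left, hwz', ← hb, neg_add_cancel]
  have hfix : ∀ v, H.h v z = 0 → H.h v z' = 0 → τ v = v := by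
    intro v h1 h2
    rw [hτdef, LinearEquiv.mul_apply, H.refl_apply_orth h1, H.refl_apply_orth h2]
  have hwτ : H.h w (τ w) = ((1 - 1 / (2 * q') : ℚ) : D) * A := by
    rw [hτw, H.add_right, hww, hwz, Rat.cast_sub, sub_mul, Rat.cast_one, one_mul, hA, ← mul_assoc,
      ← Rat.cast_mul]
    have h2 : 1 / (2 * q') * q' = 1 / 2 := by (clear * - hq'1; field_simp)
    rw [h2, ← sub_eq_add_neg]
    congr 1
    have h3 : Commute (2 : D)⁻¹ a := (Nat.cast_commute 2 a).inv_left₀
    rw [div_eq_mul_inv, ← h3.eq]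
    push_cast
    rw [one_div]
  obtain ⟨v, hv1, hv2, hv3⟩ := hR.univ z z' A hAs
  have hmove : H.refl (τ w) * H.refl w ∈ N :=
    refl_move hN hτ hτ' (by rw [hww, hv3]) (hfix v hv1 hv2)
  have hε0 : 0 < 1 / (2 * q') := by (clear * - hq; positivity)
  have hε1 : 1 / (2 * q') ≤ 1 := by
    rw [div_le_one (by (clear * - hq; positivity))]
    linarith only [hq'1]
  refine ⟨A, hAs, hA0, ?_⟩
  refine hR.total hAs (R := fun x y => H.refl x * H.refl y ∈ N)
    (fun x y => rel_symm x y) (fun x y z => rel_trans x y z) (ε := 1 / (2 * q')) hε0 hε1 ?_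
  intro x y hx hy hxy
  obtain ⟨e, he, he1, he2⟩ := hR.trans_pair hgen (x := τ w) (y := w) (x' := y) (y' := x)
    (by rw [H.isom_apply hτ', hww, hy]) (by rw [hww, hx]) (by rw [hwτ, hxy])
  have h1 := hN e he _ hmove
  rw [conj_refl_prod (H.comm_le_isom he), he1, he2] at h1
  exact rel_symm _ _ h1

/-- a moved line gives a moved positive line -/
theorem Rich.exists_pos_moved (hR : H.Rich) (harch : IsArch D) {σ : V ≃ₗ[D] V}
    {x : V} (hx : ∀ c : D, σ x ≠ c • x) :
    ∃ x : V, H.h x x ∈ sos D ∧ ∀ c : D, σ x ≠ c • x := by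
  by_contra hcon
  push Not at hcon
  obtain ⟨q, hq, hqk⟩ := harch (-H.h x x) (by rw [star_neg, H.star_h]) 1 sos_one one_ne_zero
  rw [mul_one, sub_neg_eq_add] at hqk
  obtain ⟨w, hw1, hw2, hw3⟩ := hR.univ x (σ x) (q : D) (sos_ratCast hq.le)
  obtain ⟨c1, hc1⟩ := hcon w (by rw [hw3]; exact sos_ratCast hq.le)
  obtain ⟨c2, hc2⟩ := hcon (x + w) (by
    rw [H.add_left, H.add_right, H.add_right, hw1, H.orth_symm hw1, hw3]
    convert hqk using 1
    abel)
  rw [map_add, hc1] at hc2
  have h1 : σ x = c2 • x + (c2 - c1) • w := by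
    rw [sub_smul]
    rw [smul_add] at hc2
    have : σ x = (σ x + c1 • w) - c1 • w := by abel
    rw [this, hc2]; abel
  have h2 : H.h (σ x) w = 0 := H.orth_symm hw2
  rw [h1, H.add_left, H.smul_left, H.smul_left, H.orth_symm hw1, mul_zero, zero_add, hw3] at h2
  have hq0 : (q : D) ≠ 0 := by exact_mod_cast hq.ne'
  have h3 := (mul_eq_zero.mp h2).resolve_right hq0
  apply hx c2
  rw [h1, h3, zero_smul, add_zero]

/-- The vector whose reflection completes the commutator of `σ` with two reflections. -/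
def wv (H : AForm D V) (σ : V ≃ₗ[D] V) (a : V) : V := H.refl (σ a) (σ (σ a))

theorem wv_norm {σ : V ≃ₗ[D] V} (hσ : σ ∈ H.isom) (a : V) :
    H.h (H.wv σ a) (H.wv σ a) = H.h a a := by
  unfold wv
  rw [H.isom_apply (H.refl_mem _), H.isom_apply hσ, H.isom_apply hσ]

theorem refl_wv_mem {N : Subgroup (V ≃ₗ[D] V)} (hN : CommNormal H N) (hNU : N ≤ H.isom)
    {σ : V ≃ₗ[D] V} (hσ : σ ∈ N) (a : V) : H.refl a * H.refl (H.wv σ a) ∈ N := by
  have hσ' := hNU hσ
  have he : H.refl a * H.refl (σ a) ∈ ⁅H.isom, H.isom⁆ :=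
    H.evenGp_le_comm (H.mul_mem_evenGp (H.isom_apply hσ' a a).symm)
  have h1 := mul_mem (hN _ he _ hσ) (inv_mem hσ)
  have h2 := conj_refl_prod hσ' (σ a) a
  have h3 : H.refl a * H.refl (σ a) * σ * (H.refl a * H.refl (σ a))⁻¹ * σ⁻¹ =
      H.refl a * H.refl (σ a) * (H.refl (σ (σ a)) * H.refl (σ a)) := by
    rw [← h2, refl_prod_inv]
    group
  have h4 : H.refl (σ a) * H.refl (σ (σ a)) * (H.refl (σ a))⁻¹ = H.refl (H.wv σ a) :=
    H.refl_conj (H.refl_mem _) _
  rw [h3] at h1
  rw [H.refl_inv] at h4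
  rw [← h4]
  convert h1 using 1
  simp only [mul_assoc]

/-- the coefficient of `σ` at `a` -/
def cf (H : AForm D V) (σ : V ≃ₗ[D] V) (a : V) : D := H.h (σ a) a * (H.h a a)⁻¹

omit [CharZero D] in
theorem cf_mul (σ : V ≃ₗ[D] V) {a : V} (ha : a ≠ 0) : H.cf σ a * H.h a a = H.h (σ a) a := by
  unfold cf
  rw [inv_mul_cancel_right₀ (H.self_ne_zero ha)]

theorem quad_of {σ : V ≃ₗ[D] V} (hσ : σ ∈ H.isom) {a : V} (h : ∃ c : D, H.wv σ a = c • a) :
    ∃ l : D, σ (σ a) = (2 * H.cf σ a) • σ a + l • a := by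
  obtain ⟨c, hc⟩ := h
  refine ⟨c, ?_⟩
  unfold wv at hc
  rw [H.refl_apply, H.isom_apply hσ, H.isom_apply hσ, sub_eq_iff_eq_add] at hc
  rw [hc, add_comm]
  congr 2
  unfold cf
  rw [div_eq_mul_inv, mul_inv_rev, inv_inv, ← mul_assoc, ← mul_assoc]
  congr 1
  exact (Nat.cast_commute 2 (H.h (σ a) a)).symm.eq

/-- Orthogonal vectors have the same coefficient. -/
theorem cf_orth {σ : V ≃ₗ[D] V} (hσ : σ ∈ H.isom)
    (hq : ∀ x, H.h x x ∈ sos D → ∃ l : D, σ (σ x) = (2 * H.cf σ x) • σ x + l • x)
    {a v : V} (ha : H.h a a ∈ sos D) (hv : H.h v v ∈ sos D) (hmov : ∀ d : D, σ a ≠ d • a)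
    (hva : H.h v a = 0) (hvs : H.h v (σ a) = 0) :
    H.h (σ v) v = H.cf σ a * H.h v v ∧ H.h (σ v) a = 0 ∧ H.h (σ v) (σ a) = 0 := by
  have ha0 : a ≠ 0 := fun h => hmov 0 (by simp only [h, map_zero, smul_zero])
  obtain ⟨l, hl⟩ := hq a ha
  have hl0 : l ≠ 0 := by
    rintro rfl
    rw [zero_smul, add_zero, ← map_smul] at hl
    exact hmov _ (σ.injective hl)
  have e1 : H.h (σ v) (σ a) = 0 := by rw [H.isom_apply hσ, hva]
  have e2 : H.h (σ v) a = 0 := by
    have h1 : l • a = σ (σ a) - (2 * H.cf σ a) • σ a := by rw [hl]; abel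
    have h2 : H.h (σ v) (l • a) = 0 := by
      rw [h1, H.sub_right, H.smul_right, e1, zero_mul, sub_zero, H.isom_apply hσ, hvs]
    rw [H.smul_right] at h2
    exact (mul_eq_zero.mp h2).resolve_right (star_ne_zero.mpr hl0)
  refine ⟨?_, e2, e1⟩
  have e3 : H.h (σ a) v = 0 := H.orth_symm hvs
  have e4 : H.h a v = 0 := H.orth_symm hva
  have e5 : H.h a (σ v) = 0 := H.orth_symm e2
  have e6 : H.h (σ a) (σ v) = 0 := H.orth_symm e1
  have hav : H.h (a + v) (a + v) = H.h a a + H.h v v := by
    rw [H.add_left, H.add_right, H.add_right, e4, hva]; abel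
  have hav0 : a + v ≠ 0 := by
    intro h0
    have : H.h (a + v) a = 0 := by rw [h0]; simp
    rw [H.add_left, hva, add_zero] at this
    exact ha0 (H.anis this)
  obtain ⟨l', hl'⟩ := hq (a + v) (by rw [hav]; exact add_mem ha hv)
  obtain ⟨lv, hlv⟩ := hq v hv
  set c' := H.cf σ (a + v) with hc'
  rw [map_add, map_add, hl, hlv] at hl'
  have h1 : (2 * H.cf σ a - 2 * c') • σ a + (l - l') • a =
      (2 * c' - 2 * H.cf σ v) • σ v + (l' - lv) • v := by
    have h2 : (2 * H.cf σ a) • σ a + l • a + ((2 * H.cf σ v) • σ v + lv • v) -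
        ((2 * c') • σ a + l' • a) - ((2 * H.cf σ v) • σ v + lv • v) =
        (2 * c') • (σ a + σ v) + l' • (a + v) -
        ((2 * c') • σ a + l' • a) - ((2 * H.cf σ v) • σ v + lv • v) := by rw [hl']
    rw [sub_smul, sub_smul, sub_smul, sub_smul]
    rw [smul_add, smul_add] at h2
    calc _ = (2 * H.cf σ a) • σ a + l • a + ((2 * H.cf σ v) • σ v + lv • v) -
        ((2 * c') • σ a + l' • a) - ((2 * H.cf σ v) • σ v + lv • v) := by abel
      _ = _ := by rw [h2]; abel
  have h3 : (2 * H.cf σ a - 2 * c') • σ a + (l - l') • a = 0 := by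
    apply H.anis
    nth_rewrite 2 [h1]
    simp only [H.add_left, H.add_right, H.smul_left, H.smul_right, e3, e4, e5, e6]
    simp only [star_sub, star_mul, star_ofNat, zero_mul, mul_zero, add_zero]
  have h4 : H.cf σ a = c' := by
    by_contra hne
    have h5 : 2 * H.cf σ a - 2 * c' ≠ 0 := by
      rw [← mul_sub]
      exact mul_ne_zero two_ne_zero (sub_ne_zero.mpr hne)
    apply hmov (-((2 * H.cf σ a - 2 * c')⁻¹ * (l - l')))
    have h6 := congrArg (fun u => (2 * H.cf σ a - 2 * c')⁻¹ • u) h3
    simp only [smul_add, smul_smul, inv_mul_cancel₀ h5, one_smul, smul_zero] at h6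
    rw [neg_smul]
    exact eq_neg_of_add_eq_zero_left h6
  have h7 := H.cf_mul σ hav0
  rw [← hc', ← h4, hav, map_add, H.add_left, H.add_right, H.add_right, e3, e2, mul_add,
    H.cf_mul σ ha0] at h7
  have h8 : H.h (σ a) a + H.cf σ a * H.h v v = H.h (σ a) a + H.h (σ v) v := by
    rw [h7]; abel
  exact (add_left_cancel h8).symm

/-- From an element moving a positive line. -/
theorem Rich.start (hR : H.Rich) (harch : IsArch D) {θ : D} (hθ : star θ = -θ) (hθ0 : θ ≠ 0)
    (hθc : ∀ x, x * θ = θ * x) {N : Subgroup (V ≃ₗ[D] V)} (hN : CommNormal H N)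
    (hNU : N ≤ H.isom) {σ : V ≃ₗ[D] V} (hσ : σ ∈ N) {a : V} (has : H.h a a ∈ sos D)
    (ha : ∀ c : D, σ a ≠ c • a) :
    ∃ z z' : V, H.h z z ∈ sos D ∧ H.h z z = H.h z' z' ∧ (∀ c : D, z ≠ c • z') ∧
      H.refl z' * H.refl z ∈ N := by
  by_contra hcon
  push Not at hcon
  have hσ' := hNU hσ
  have hq : ∀ x, H.h x x ∈ sos D → ∃ l : D, σ (σ x) = (2 * H.cf σ x) • σ x + l • x := by
    intro x hx
    apply quad_of hσ'
    by_contra hne
    push Not at hne
    exact hcon (H.wv σ x) x (by rw [H.wv_norm hσ']; exact hx) (H.wv_norm hσ' x) hne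
      (refl_wv_mem hN hNU hσ x)
  have ha0 : a ≠ 0 := fun h => ha 0 (by simp [h])
  obtain ⟨v, hv1, hv2, hv3⟩ := hR.univ a (σ a) 1 sos_one
  have hvs : H.h v v ∈ sos D := by rw [hv3]; exact sos_one
  obtain ⟨c, hc⟩ : ∃ c, c = H.cf σ a := ⟨_, rfl⟩
  obtain ⟨hv4, hv5, hv6⟩ := cf_orth hσ' hq has hvs ha hv1 hv2
  rw [← hc, hv3, mul_one] at hv4
  have hcA : H.h (σ a) a = c * H.h a a := by rw [hc, H.cf_mul σ ha0]
  -- the coefficient is central
  have hcc : ∀ μ : D, μ * c = c * μ := by
    intro μ
    by_cases hμ : μ = 0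
    · simp [hμ]
    have h1 : H.h (μ • v) (μ • v) = μ * star μ := by
      rw [H.smul_left, H.smul_right, hv3, one_mul]
    obtain ⟨h2, -, -⟩ := cf_orth hσ' hq has (v := μ • v) (by rw [h1]; exact sos_mul_star μ) ha
      (by rw [H.smul_left, hv1, mul_zero]) (by rw [H.smul_left, hv2, mul_zero])
    rw [h1, map_smul, H.smul_left, H.smul_right, hv4, ← hc, ← mul_assoc, ← mul_assoc] at h2
    exact mul_right_cancel₀ (star_ne_zero.mpr hμ) h2
  have hcs : ∀ μ : D, μ * star c = star c * μ := by
    intro μ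
    have := congrArg star (hcc (star μ))
    rw [star_mul, star_mul, star_star] at this
    exact this.symm
  obtain ⟨A, hA⟩ : ∃ A, A = H.h a a := ⟨_, rfl⟩
  have hAs : star A = A := by rw [hA, H.star_h]
  rw [← hA] at hcA
  have hcA' : H.h a (σ a) = A * star c := by
    rw [← H.star_h, hcA, star_mul, hAs]
  obtain ⟨a1, ha1⟩ : ∃ a1, a1 = σ a - c • a := ⟨_, rfl⟩
  have ha10 : a1 ≠ 0 := by
    rw [ha1]; exact sub_ne_zero.mpr (ha c)
  -- `v` is moved
  have hvm : ∀ d : D, σ v ≠ d • v := by
    intro d hd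
    rw [hd, H.smul_left, hv3, mul_one] at hv4
    have h1 : c * star c = 1 := by
      have h2 := H.isom_apply hσ' v v
      rw [hd, hv4, H.smul_left, H.smul_right, hv3, one_mul] at h2
      exact h2
    apply ha10
    apply H.anis
    rw [ha1]
    simp only [H.sub_left, H.sub_right, H.smul_left, H.smul_right]
    rw [H.isom_apply hσ', hcA, hcA', ← hA]
    have h3 : c * A * star c = A := by
      rw [← hcc, mul_assoc, h1, mul_one]
    rw [← mul_assoc, h3]
    abel
  have hv7 : H.cf σ v = c := by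
    unfold cf; rw [hv4, hv3, inv_one, mul_one]
  -- vectors orthogonal to `v` and `σ v`
  have key : ∀ y, H.h y y ∈ sos D → H.h y v = 0 → H.h y (σ v) = 0 →
      H.h (σ y - c • y) y = 0 := by
    intro y hy hyv hyv'
    obtain ⟨h1, -, -⟩ := cf_orth hσ' hq hvs hy hvm hyv hyv'
    rw [hv7] at h1
    rw [H.sub_left, H.smul_left, h1, sub_self]
  have ha1v : H.h a1 v = 0 := by
    rw [ha1, H.sub_left, H.smul_left, H.orth_symm hv2, H.orth_symm hv1, mul_zero, sub_zero]
  have ha1v' : H.h a1 (σ v) = 0 := by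
    rw [ha1, H.sub_left, H.smul_left, H.orth_symm hv6, H.orth_symm hv5, mul_zero, sub_zero]
  have ha1a : H.h a1 a = 0 := by
    rw [ha1, H.sub_left, H.smul_left, hcA, ← hA, sub_self]
  have haa1 : H.h a a1 = 0 := H.orth_symm ha1a
  obtain ⟨B, hB⟩ : ∃ B, B = H.h (σ a1 - c • a1) a := ⟨_, rfl⟩
  obtain ⟨C, hC⟩ : ∃ C, C = H.h (σ a1 - c • a1) a1 := ⟨_, rfl⟩
  obtain ⟨E, hE⟩ : ∃ E, E = H.h a1 a1 := ⟨_, rfl⟩
  have hcom : ∀ (q : ℚ) (z : D), z * (q : D) = (q : D) * z := fun q z =>
    (Rat.cast_commute q z).eq.symm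
  -- polarization
  have pol : ∀ μ : D, E * star μ + μ * B = 0 := by
    intro μ
    have hs1 : star (-(μ * E * star μ)) = -(μ * E * star μ) := by
      rw [star_neg, star_mul, star_mul, star_star, hE, H.star_h, mul_assoc]
    have hA0 : A ≠ 0 := by rw [hA]; exact H.self_ne_zero ha0
    obtain ⟨q, hq0, hq1⟩ := harch _ hs1 A (hA ▸ has) hA0
    have step : ∀ t : ℚ, max q 1 ≤ t →
        (t : D) * (E * star μ + μ * B) + μ * C * star μ = 0 := by
      intro t ht
      have ht1 : 1 ≤ t := (le_max_right _ _).trans ht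
      have htq : q ≤ t ^ 2 := by
        have : q ≤ t := (le_max_left _ _).trans ht
        nlinarith only [ht1, this]
      have hy1 : H.h ((t : D) • a + μ • a1) ((t : D) • a + μ • a1) =
          ((t ^ 2 : ℚ) : D) * A + μ * E * star μ := by
        simp only [H.add_left, H.add_right, H.smul_left, H.smul_right]
        rw [ha1a, haa1, ← hA, ← hE, star_ratCast, hcom t A, ← mul_assoc, ← Rat.cast_mul,
          ← pow_two, mul_assoc μ E]
        simp only [Rat.cast_pow, zero_mul, mul_zero, add_zero, zero_add]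
      have hpos : H.h ((t : D) • a + μ • a1) ((t : D) • a + μ • a1) ∈ sos D := by
        rw [hy1]
        have e : ((t ^ 2 : ℚ) : D) * A + μ * E * star μ =
            ((q : D) * A - -(μ * E * star μ)) + ((t ^ 2 - q : ℚ) : D) * A := by
          rw [Rat.cast_sub, sub_mul]; abel
        rw [e]
        exact add_mem hq1 (sos_rat (hA ▸ has) (by linarith only [htq]))
      have h1 := key _ hpos (by
        rw [H.add_left, H.smul_left, H.smul_left, H.orth_symm hv1, ha1v]; simp) (by
        rw [H.add_left, H.smul_left, H.smul_left, H.orth_symm hv5, ha1v']; simp)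
      have e2 : σ ((t : D) • a + μ • a1) - c • ((t : D) • a + μ • a1) =
          (t : D) • a1 + μ • (σ a1 - c • a1) := by
        have e3 : (t : D) • a1 = (t : D) • σ a - (c * (t : D)) • a := by
          rw [hcom, ← smul_smul, ← smul_sub, ← ha1]
        rw [e3, map_add, map_smul, map_smul, smul_add, smul_smul, smul_smul, smul_sub, smul_smul,
          hcc μ]
        abel
      rw [e2] at h1
      simp only [H.add_left, H.add_right, H.smul_left (t : D), H.smul_left μ, H.smul_right] at h1
      rw [ha1a, ← hE, ← hB, ← hC, star_ratCast, hcom] at h1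
      rw [← h1, mul_add]
      simp only [mul_zero, zero_mul, zero_add, mul_assoc]
      have e5 : μ * (B * (t : D)) = (t : D) * (μ * B) := by
        rw [hcom t B, ← mul_assoc, hcom t μ, mul_assoc]
      rw [e5]
      abel
    have s1 := step (max q 1) le_rfl
    have s2 := step (max q 1 + 1) (by linarith only [])
    rw [Rat.cast_add, Rat.cast_one, add_mul, one_mul] at s2
    have s3 : ((max q 1 : ℚ) : D) * (E * star μ + μ * B) + (E * star μ + μ * B) +
        μ * C * star μ - (((max q 1 : ℚ) : D) * (E * star μ + μ * B) + μ * C * star μ) = 0 := by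
      rw [s1, s2, sub_zero]
    calc E * star μ + μ * B = ((max q 1 : ℚ) : D) * (E * star μ + μ * B) + (E * star μ + μ * B) +
        μ * C * star μ - (((max q 1 : ℚ) : D) * (E * star μ + μ * B) + μ * C * star μ) := by abel
      _ = 0 := s3
  have p1 := pol 1
  have p2 := pol θ
  rw [star_one, mul_one, one_mul] at p1
  rw [hθ, ← hθc, mul_neg, neg_add_eq_zero] at p2
  have p3 : E = B := mul_right_cancel₀ hθ0 p2
  rw [← p3, ← two_mul] at p1
  have p4 : E = 0 := (mul_eq_zero.mp p1).resolve_left two_ne_zero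
  exact ha10 (H.anis (hE ▸ p4))

variable (H) in
/-- The group generated by products of two reflections in vectors of norm `A`. -/
def typeGp (A : D) : Subgroup (V ≃ₗ[D] V) :=
  Subgroup.closure {g | ∃ x y : V, H.h x x = A ∧ H.h y y = A ∧ g = H.refl x * H.refl y}

theorem mem_typeGp {A : D} {x y : V} (hx : H.h x x = A) (hy : H.h y y = A) :
    H.refl x * H.refl y ∈ H.typeGp A := Subgroup.subset_closure ⟨x, y, hx, hy, rfl⟩

theorem typeGp_le {A : D} : H.typeGp A ≤ H.isom := by
  rw [typeGp, Subgroup.closure_le]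
  rintro g ⟨a, b, -, -, rfl⟩
  exact mul_mem (H.refl_mem a) (H.refl_mem b)

theorem typeGp_conj {A : D} {g k : V ≃ₗ[D] V} (hg : g ∈ H.isom) (hk : k ∈ H.typeGp A) :
    g * k * g⁻¹ ∈ H.typeGp A := by
  induction hk using Subgroup.closure_induction with
  | mem x hx =>
    obtain ⟨a, b, ha, hb, rfl⟩ := hx
    rw [conj_refl_prod hg]
    exact mem_typeGp (by rw [H.isom_apply hg, ha]) (by rw [H.isom_apply hg, hb])
  | one => rw [mul_one, mul_inv_cancel]; exact one_mem _
  | mul x y _ _ hx hy =>
    have : g * (x * y) * g⁻¹ = (g * x * g⁻¹) * (g * y * g⁻¹) := by group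
    rw [this]; exact mul_mem hx hy
  | inv x _ hx =>
    have : g * x⁻¹ * g⁻¹ = (g * x * g⁻¹)⁻¹ := by group
    rw [this]; exact inv_mem hx

/-- Transitivity of `typeGp A` on vectors of any given norm. -/
theorem Rich.typeGp_trans (hR : H.Rich) (harch : IsArch D) {A : D} (hA : A ∈ sos D)
    (hA0 : A ≠ 0) {x x' : V} (hxs : H.h x x ∈ sos D) (hxx : H.h x x = H.h x' x') :
    ∃ g ∈ H.typeGp A, g x = x' := by
  by_cases hx0 : x = 0
  · refine ⟨1, one_mem _, ?_⟩
    rw [hx0, H.zero_left] at hxx
    rw [hx0, H.anis hxx.symm]; simp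
  obtain ⟨e, he⟩ : ∃ e, e = H.h x x := ⟨_, rfl⟩
  have hes : e ∈ sos D := he ▸ hxs
  have he0 : e ≠ 0 := he ▸ H.self_ne_zero hx0
  have hestar : star e = e := sos_star hes
  have hAstar : star A = A := sos_star hA
  -- choice of δ
  obtain ⟨q1, hq1, hq1'⟩ := harch e⁻¹ (sos_star (sos_inv hes)) A⁻¹ (sos_inv hA)
    (inv_ne_zero hA0)
  obtain ⟨n, hn⟩ := exists_nat_gt q1
  have hn0 : (0 : ℚ) < n := hq1.trans hn
  set ε : ℚ := 1 / n with hε
  have hε0 : 0 < ε := by (clear * - hn0; positivity)
  set δ : D := ((ε ^ 2 / 2 : ℚ) : D) * A with hδ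
  have hδs : δ ∈ sos D := sos_rat hA (by (clear * - hn0; positivity))
  have hδq : ((ε ^ 2 / 2 : ℚ) : D) ≠ 0 := by
    have : (ε ^ 2 / 2 : ℚ) ≠ 0 := by (clear * - hn0; positivity)
    exact_mod_cast this
  have hδ0 : δ ≠ 0 := mul_ne_zero hδq hA0
  have hδstar : star δ = δ := sos_star hδs
  have hδinv : δ⁻¹ = ((2 * n ^ 2 : ℚ) : D) * A⁻¹ := by
    rw [hδ, mul_inv_rev, ← Rat.cast_inv, ← (Rat.cast_commute _ A⁻¹).eq]
    congr 2
    rw [hε]; (clear * - hn0; field_simp)
  have h1 : δ - δ * e⁻¹ * δ ∈ sos D := by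
    have h2 : δ⁻¹ - e⁻¹ ∈ sos D := by
      have h3 : δ⁻¹ - e⁻¹ = (((2 * n ^ 2 - q1 : ℚ)) : D) * A⁻¹ + ((q1 : D) * A⁻¹ - e⁻¹) := by
        rw [hδinv, Rat.cast_sub, sub_mul]; abel
      rw [h3]
      refine add_mem (sos_rat (sos_inv hA) ?_) hq1'
      have hn1 : (1 : ℚ) ≤ n := by
        have : 0 < n := by exact_mod_cast hn0
        exact_mod_cast this
      nlinarith only [hn, hn1]
    have h3 := sos_conj h2 δ
    rw [hδstar, mul_sub, sub_mul, mul_inv_cancel₀ hδ0, one_mul] at h3
    exact h3
  obtain ⟨q2, hq2, hq2'⟩ := harch e hestar δ hδs hδ0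
  set t : ℚ := min 1 (1 / q2) with ht
  have ht0 : 0 < t := lt_min one_pos (by (clear * - hq2; positivity))
  have ht1 : t ≤ 1 := min_le_left _ _
  have htq : t * q2 ≤ 1 := by
    have := min_le_right 1 (1 / q2)
    rw [← ht, le_div_iff₀ hq2] at this
    exact this
  have h2 : (δ + δ) - (t : D) * e ∈ sos D := by
    have h3 : (δ + δ) - (t : D) * e
        = (t : D) * ((q2 : D) * δ - e) + ((2 - t * q2 : ℚ) : D) * δ := by
      rw [mul_sub, ← mul_assoc, ← Rat.cast_mul, Rat.cast_sub, sub_mul, Rat.cast_ofNat, two_mul]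
      abel
    rw [h3]
    exact add_mem (sos_rat hq2' ht0.le) (sos_rat hδs (by linarith only [htq]))
  have hcom : ∀ (q : ℚ) (z : D), z * (q : D) = (q : D) * z := fun q z =>
    (Rat.cast_commute q z).eq.symm
  refine hR.total hes (R := fun x y => ∃ g ∈ H.typeGp A, g x = y) ?_ ?_ ht0 ht1 ?_ x x' he.symm
    (by rw [← hxx, he])
  · rintro x y ⟨g, hg, rfl⟩
    exact ⟨g⁻¹, inv_mem hg, by rw [← LinearEquiv.mul_apply, inv_mul_cancel]; rfl⟩
  · rintro x y z ⟨g, hg, rfl⟩ ⟨k, hk, rfl⟩
    exact ⟨k * g, mul_mem hk hg, rfl⟩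
  intro x y hx hy hxy
  have h2t : (0 : ℚ) < 2 - t := by linarith only [ht1]
  have hyx : H.h y x = ((1 - t : ℚ) : D) * e := by
    rw [← H.star_h, hxy, star_mul, star_ratCast, hestar, hcom]
  -- the intermediate vector
  set c : D := (e - δ) * (((2 - t)⁻¹ : ℚ) * e⁻¹) with hc
  have hce : c * (((2 - t : ℚ) : D) * e) = e - δ := by
    rw [hc, mul_assoc, mul_assoc, ← mul_assoc e⁻¹, hcom, mul_assoc, inv_mul_cancel₀ he0, mul_one,
      ← Rat.cast_mul, inv_mul_cancel₀ h2t.ne', Rat.cast_one, mul_one]
  have hsum : e + ((1 - t : ℚ) : D) * e = ((2 - t : ℚ) : D) * e := by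
    have : (2 - t : ℚ) = 1 + (1 - t) := by ring
    rw [this, Rat.cast_add, add_mul, Rat.cast_one, one_mul]
  have hsum' : ((1 - t : ℚ) : D) * e + e = ((2 - t : ℚ) : D) * e := by
    rw [add_comm, hsum]
  set p : V := c • (x + y) with hp
  have hpx : H.h p x = e - δ := by
    rw [hp, H.smul_left, H.add_left, hx, hyx, hsum, hce]
  have hpy : H.h p y = e - δ := by
    rw [hp, H.smul_left, H.add_left, hxy, hy, hsum', hce]
  have hsc : star c = ((2 - t)⁻¹ : ℚ) * (e⁻¹ * (e - δ)) := by
    rw [hc, star_mul, star_mul, star_sub, star_inv₀, hestar, hδstar, star_ratCast]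
    rw [hcom, mul_assoc]
  have hpp : H.h p p = (((2 - t)⁻¹ : ℚ) : D) * (((e - δ) + (e - δ)) * (e⁻¹ * (e - δ))) := by
    have h3 : H.h p p = (H.h p x + H.h p y) * star c := by
      conv_lhs => rw [hp]
      rw [← hp, H.smul_right, H.add_right]
    rw [h3, hpx, hpy, hsc, ← mul_assoc, hcom, mul_assoc]
  have hr : e - H.h p p ∈ sos D := by
    have h3 : e - H.h p p = (((2 - t)⁻¹ : ℚ) : D) *
        (((δ - δ * e⁻¹ * δ) + (δ - δ * e⁻¹ * δ)) + ((δ + δ) - (t : D) * e)) := by
      have h4 : e = (((2 - t)⁻¹ : ℚ) : D) * (((2 - t : ℚ) : D) * e) := by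
        rw [← mul_assoc, ← Rat.cast_mul, inv_mul_cancel₀ h2t.ne', Rat.cast_one, one_mul]
      rw [hpp]
      nth_rewrite 1 [h4]
      rw [← mul_sub]
      congr 1
      have h5 : ((e - δ) + (e - δ)) * (e⁻¹ * (e - δ))
          = (e + e) - (δ + δ) - (δ + δ) + (δ * e⁻¹ * δ + δ * e⁻¹ * δ) := by
        have h6 : (e - δ) * (e⁻¹ * (e - δ)) = e - δ - δ + δ * e⁻¹ * δ := by
          rw [mul_sub e⁻¹, inv_mul_cancel₀ he0, mul_sub, mul_one, sub_mul,
            mul_inv_cancel_left₀ he0]
          noncomm_ring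
        rw [add_mul, h6]; abel
      rw [h5, Rat.cast_sub, sub_mul, Rat.cast_ofNat, two_mul]
      abel
    rw [h3]
    exact sos_rat (add_mem (add_mem h1 h1) h2) (by (clear * - h2t; positivity))
  obtain ⟨u, hu1, hu2, hu3⟩ := hR.univ x y _ hr
  set w : V := p + u with hw
  have hwx : H.h w x = e - δ := by rw [hw, H.add_left, hpx, hu1, add_zero]
  have hwy : H.h w y = e - δ := by rw [hw, H.add_left, hpy, hu2, add_zero]
  have hsed : star (e - δ) = e - δ := by rw [star_sub, hestar, hδstar]
  have hxw : H.h x w = e - δ := by rw [← H.star_h, hwx, hsed]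
  have hyw : H.h y w = e - δ := by rw [← H.star_h, hwy, hsed]
  have hup : H.h p u = 0 := by
    rw [hp, H.smul_left, H.add_left, H.orth_symm hu1, H.orth_symm hu2]; simp
  have hww : H.h w w = e := by
    rw [hw, H.add_left, H.add_right, H.add_right, hup, H.orth_symm hup, hu3]; abel
  have hεD : ((ε : ℚ) : D) ≠ 0 := by exact_mod_cast hε0.ne'
  have hεi : ((ε⁻¹ : ℚ) : D) ≠ 0 := by
    have : ε⁻¹ ≠ 0 := inv_ne_zero hε0.ne'
    exact_mod_cast this
  have hδδ : δ + δ = ((ε ^ 2 : ℚ) : D) * A := by
    rw [hδ, ← add_mul, ← Rat.cast_add, add_halves]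
  have hnorm : ∀ v : V, H.h v v = δ + δ → H.h (((ε⁻¹ : ℚ) : D) • v) (((ε⁻¹ : ℚ) : D) • v) = A := by
    intro v hv
    rw [H.smul_left, H.smul_right, hv, star_ratCast, hδδ, hcom, ← mul_assoc, ← mul_assoc,
      ← Rat.cast_mul, ← Rat.cast_mul]
    have : ε⁻¹ * ε⁻¹ * ε ^ 2 = 1 := by (clear * - hε0; field_simp)
    rw [this, Rat.cast_one, one_mul]
  have hxw' : H.h (x - w) (x - w) = δ + δ := by
    simp only [H.sub_left, H.sub_right]
    rw [hx, hxw, hwx, hww]; abel
  have hwy' : H.h (w - y) (w - y) = δ + δ := by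
    simp only [H.sub_left, H.sub_right]
    rw [hy, hyw, hwy, hww]; abel
  refine ⟨H.refl (((ε⁻¹ : ℚ) : D) • (w - y)) * H.refl (((ε⁻¹ : ℚ) : D) • (x - w)),
    mem_typeGp (hnorm _ hwy') (hnorm _ hxw'), ?_⟩
  rw [H.refl_smul hεi, H.refl_smul hεi, LinearEquiv.mul_apply,
    H.refl_map (by rw [hx, hww]) (by rw [hxw, hwx]), H.refl_map (by rw [hy, hww]) (by rw [hyw, hwy])]

/-- The commutator subgroup of the isometry group is contained in `typeGp A`. -/
theorem Rich.comm_le (hR : H.Rich) (harch : IsArch D) (hgen : H.isom ≤ H.posQrGp) {A : D}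
    (hA : A ∈ sos D) (hA0 : A ≠ 0) : ⁅H.isom, H.isom⁆ ≤ H.typeGp A := by
  rw [Subgroup.commutator_le]
  intro g hg ρ hρ
  have hρ' := hgen hρ
  clear hρ
  induction hρ' using Subgroup.closure_induction with
  | mem x hx =>
    obtain ⟨y, s, hs, hys, rfl⟩ := hx
    obtain ⟨e, he, hey⟩ := hR.typeGp_trans harch hA hA0 (x := y) (x' := g y) hys
      (H.isom_apply hg y y).symm
    have he' := typeGp_le he
    have h1 : g * H.qr y s hs * g⁻¹ = e * H.qr y s hs * e⁻¹ := by
      rw [H.qr_conj hg y s hs (by rw [H.isom_apply hg, hs]),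
        H.qr_conj he' y s hs (by rw [H.isom_apply he', hs])]
      congr 1
      exact hey.symm
    rw [commutatorElement_def, h1]
    have h2 : e * H.qr y s hs * e⁻¹ * (H.qr y s hs)⁻¹
        = e * (H.qr y s hs * e⁻¹ * (H.qr y s hs)⁻¹) := by group
    rw [h2]
    exact mul_mem he (typeGp_conj (H.qr_mem y s hs) (inv_mem he))
  | one => rw [commutatorElement_one_right]; exact one_mem _
  | mul x y hx hy h1 h2 =>
    have : ⁅g, x * y⁆ = ⁅g, x⁆ * (x * ⁅g, y⁆ * x⁻¹) := by
      simp only [commutatorElement_def]; group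
    rw [this]
    exact mul_mem h1 (typeGp_conj (H.posQrGp_le hx) h2)
  | inv x hx h1 =>
    have : ⁅g, x⁻¹⁆ = x⁻¹ * (⁅g, x⁆)⁻¹ * (x⁻¹)⁻¹ := by
      simp only [commutatorElement_def]; group
    rw [this]
    exact typeGp_conj (inv_mem (H.posQrGp_le hx)) (inv_mem h1)

/-- Main theorem of Part I (abstract form). -/
theorem Rich.main (hR : H.Rich) (harch : IsArch D) (hgen : H.isom ≤ H.posQrGp)
    {θ : D} (hθ : star θ = -θ) (hθ0 : θ ≠ 0) (hθc : ∀ x, x * θ = θ * x)
    {N : Subgroup (V ≃ₗ[D] V)} (hN : CommNormal H N) (hNU : N ≤ H.isom) {σ : V ≃ₗ[D] V}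
    (hσ : σ ∈ N) {x : V} (hx : ∀ c : D, σ x ≠ c • x) : ⁅H.isom, H.isom⁆ ≤ N := by
  obtain ⟨x', hxs, hx'⟩ := hR.exists_pos_moved harch hx
  obtain ⟨z, z', h0, h1, h2, h3⟩ := hR.start harch hθ hθ0 hθc hN hNU hσ hxs hx'
  obtain ⟨A, hA, hA0, h4⟩ := hR.angle hgen harch hN h0 h1 h2 h3
  refine (hR.comm_le harch hgen hA hA0).trans ?_
  rw [typeGp, Subgroup.closure_le]
  rintro g ⟨x, y, hx, hy, rfl⟩
  exact h4 x y hx hy

end AForm

end Vale.Agent.P011S

end

section
/-!
The unitary group of an anisotropic form with room is generated by the quasi-reflections along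
positive vectors.
-/

set_option linter.unusedSectionVars false
set_option linter.unusedSimpArgs false

open Matrix

namespace Vale.Agent.P011S

variable {D : Type} [DivisionRing D] [StarRing D] [FormPos D] [CharZero D] [FiniteDimensional ℚ D]
variable {μ ν κ : Type} [Fintype μ] [DecidableEq μ] [Fintype ν] [DecidableEq ν] [Fintype κ]
  [DecidableEq κ]

/-- the block relation in the unitary group itself -/
theorem tw_block_frame {H : Matrix μ μ D} (hH : An H)
    {p pi : Matrix ν ν D} {q : Matrix ν κ D} {r : Matrix κ ν D} {s si : Matrix κ κ D}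
    {t ti : Matrix κ κ D} {w wi : Matrix ν ν D}
    (hp : p * pi = 1) (_hp' : pi * p = 1) (hs : s * si = 1) (hs' : si * s = 1)
    (ht : t * ti = 1) (hw' : wi * w = 1)
    (et : t = s - r * pi * q) (ew : w = p - q * si * r)
    (x1 : Matrix μ ν D) (x2 : Matrix μ κ D)
    (h11 : x1ᴴ * H * x1 = p + pᴴ) (h12 : x1ᴴ * H * x2 = q + rᴴ) (h21 : x2ᴴ * H * x1 = r + qᴴ)
    (h22 : x2ᴴ * H * x2 = s + sᴴ) (a1 : Adm (x1ᴴ * H * x1) pi)
    (a2 : Adm (x2ᴴ * H * x2) si)
    (a3 : Adm ((x2 - x1 * (pi * q))ᴴ * H * (x2 - x1 * (pi * q))) ti)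
    (a4 : Adm ((x1 - x2 * (si * r))ᴴ * H * (x1 - x2 * (si * r))) wi) :
    tw H hH.herm (x2 - x1 * (pi * q)) ti a3 * tw H hH.herm x1 pi a1 =
      tw H hH.herm (x1 - x2 * (si * r)) wi a4 * tw H hH.herm x2 si a2 := by
  apply mat_injective
  rw [mat_mul, mat_mul, mat_tw, mat_tw, mat_tw, mat_tw, block_prod x1 x2 p pi q r ti hp h11 h21,
    block_prod x2 x1 s si r q wi hs h22 h12]
  -- compare the two block inverses
  have hM1 : Matrix.fromBlocks p q r s * Matrix.fromBlocks (pi + pi * q * ti * r * pi)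
      (-(pi * q * ti)) (-(ti * r * pi)) ti = 1 := by
    rw [Matrix.fromBlocks_multiply, ← Matrix.fromBlocks_one, Matrix.fromBlocks_inj]
    refine ⟨?_, ?_, ?_, ?_⟩
    · rw [Matrix.mul_add, hp]
      have : p * (pi * q * ti * r * pi) = q * ti * r * pi := by
        simp only [← Matrix.mul_assoc]; rw [hp, Matrix.one_mul]
      rw [this, Matrix.mul_neg]
      simp only [← Matrix.mul_assoc]
      abel
    · rw [Matrix.mul_neg]
      simp only [← Matrix.mul_assoc]; rw [hp, Matrix.one_mul]
      abel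
    · have : r * (pi + pi * q * ti * r * pi) + s * (-(ti * r * pi))
          = r * pi - (s - r * pi * q) * ti * r * pi := by
        simp only [Matrix.mul_add, ← Matrix.mul_assoc, Matrix.mul_neg, Matrix.sub_mul]
        abel
      rw [this, ← et, ht, Matrix.one_mul, sub_self]
    · have : r * -(pi * q * ti) + s * ti = (s - r * pi * q) * ti := by
        simp only [Matrix.mul_neg, Matrix.sub_mul, ← Matrix.mul_assoc]
        abel
      rw [this, ← et, ht]
  have hM2 : Matrix.fromBlocks wi (-(wi * q * si)) (-(si * r * wi)) (si + si * r * wi * q * si)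
      * Matrix.fromBlocks p q r s = 1 := by
    rw [Matrix.fromBlocks_multiply, ← Matrix.fromBlocks_one, Matrix.fromBlocks_inj]
    refine ⟨?_, ?_, ?_, ?_⟩
    · have : wi * p + -(wi * q * si) * r = wi * (p - q * si * r) := by
        simp only [Matrix.neg_mul, Matrix.mul_sub, ← Matrix.mul_assoc]
        abel
      rw [this, ← ew, hw']
    · rw [Matrix.neg_mul, Matrix.mul_assoc _ si s, hs', Matrix.mul_one]
      abel
    · have : -(si * r * wi) * p + (si + si * r * wi * q * si) * r
          = si * r - si * r * (wi * (p - q * si * r)) := by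
        simp only [Matrix.neg_mul, Matrix.add_mul, Matrix.mul_sub, ← Matrix.mul_assoc]
        abel
      rw [this, ← ew, hw', Matrix.mul_one, sub_self]
    · have : -(si * r * wi) * q + (si + si * r * wi * q * si) * s
          = si * s + (si * r * wi * q * (si * s) - si * r * wi * q) := by
        simp only [Matrix.neg_mul, Matrix.add_mul, ← Matrix.mul_assoc]
        abel
      rw [this, hs', Matrix.mul_one, sub_self, add_zero]
  have hMM : Matrix.fromBlocks wi (-(wi * q * si)) (-(si * r * wi)) (si + si * r * wi * q * si)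
      = Matrix.fromBlocks (pi + pi * q * ti * r * pi) (-(pi * q * ti)) (-(ti * r * pi)) ti := by
    calc _ = Matrix.fromBlocks wi (-(wi * q * si)) (-(si * r * wi)) (si + si * r * wi * q * si) *
          (Matrix.fromBlocks p q r s * Matrix.fromBlocks (pi + pi * q * ti * r * pi)
      (-(pi * q * ti)) (-(ti * r * pi)) ti) := by rw [hM1, Matrix.mul_one]
      _ = _ := by rw [← Matrix.mul_assoc, hM2, Matrix.one_mul]
  rw [Matrix.fromBlocks_inj] at hMM
  obtain ⟨m1, m2, m3, m4⟩ := hMM
  have l1 : 1 - x1 * pi * x1ᴴ * H - (x2 - x1 * (pi * q)) * ti * (x2ᴴ - r * pi * x1ᴴ) * H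
      = 1 - x1 * (pi + pi * q * ti * r * pi) * x1ᴴ * H - x1 * (-(pi * q * ti)) * x2ᴴ * H
        - x2 * (-(ti * r * pi)) * x1ᴴ * H - x2 * ti * x2ᴴ * H := by
    simp only [← Matrix.mul_assoc, Matrix.sub_mul, Matrix.mul_sub, Matrix.mul_add, Matrix.add_mul, Matrix.mul_neg, Matrix.neg_mul]
    abel
  have l2 : 1 - x2 * si * x2ᴴ * H - (x1 - x2 * (si * r)) * wi * (x1ᴴ - q * si * x2ᴴ) * H
      = 1 - x1 * wi * x1ᴴ * H - x1 * (-(wi * q * si)) * x2ᴴ * H
        - x2 * (-(si * r * wi)) * x1ᴴ * H - x2 * (si + si * r * wi * q * si) * x2ᴴ * H := by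
    simp only [Matrix.mul_sub, Matrix.sub_mul, Matrix.mul_add, Matrix.add_mul, Matrix.mul_neg,
      Matrix.neg_mul, ← Matrix.mul_assoc]
    abel
  rw [l1, l2, m4, m2, m3, m1]

/-- the quasi-reflections along positive vectors, with columns indexed by `Fin 1` -/
def posSet {H : Matrix μ μ D} (hH : An H) : Set (UH H) :=
  {g | ∃ (x : Matrix μ (Fin 1) D) (z : D) (hadm : Adm (xᴴ * H * x) (dg z⁻¹)),
    Acc z ∧ xᴴ * H * x = dg z + (dg z)ᴴ ∧ g = tw H hH.herm x (dg z⁻¹) hadm}

/-- all quasi-reflections with parameter `z` are products of positive ones -/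
def Gn {H : Matrix μ μ D} (hH : An H) (z : D) : Prop :=
  ∀ (x : Matrix μ (Fin 1) D) (_ : xᴴ * H * x = dg z + (dg z)ᴴ)
    (hadm : Adm (xᴴ * H * x) (dg z⁻¹)),
    tw H hH.herm x (dg z⁻¹) hadm ∈ Subgroup.closure (posSet hH)

section setup

variable {H : Matrix μ μ D} (hH : An H) {R : ℕ} (hR : Room H R) (h2 : 2 ≤ R)

theorem Gn.of_acc {z : D} (hz : Acc z) : Gn hH z := fun x hx hadm =>
  Subgroup.subset_closure ⟨x, z, hadm, hz, hx, rfl⟩

include hR h2

theorem Gn.link {z w : D} (hz : z ≠ 0) (hzw : Acc (z⁻¹ * w)) (ha0 : z + star z ≠ 0)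
    {ρ : ℚ} (hρ : ρ ≠ 0)
    (hcond : 2 - star (ρ⁻¹ • (z - w) + ρ • (1 : D)) * (z + star z)⁻¹ *
      (ρ⁻¹ • (z - w) + ρ • (1 : D)) ∈ sos D) (hG : Gn hH w) : Gn hH z := by
  intro x1 h11 hadm
  have hw : w ≠ 0 := by
    rintro rfl
    rw [mul_zero] at hzw
    exact hzw.ne rfl
  have hx1 : x1ᴴ * H * x1 = dg (z + star z) := by rw [h11, dg_star, dg_add]
  have hsa : star (z + star z) = z + star z := by rw [star_add, star_star, add_comm]
  obtain ⟨x2, e12, e21, e22⟩ := exists_second hH hR h2 hsa ha0 hx1 hcond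
  have hstar : star (ρ⁻¹ • (z - w) + ρ • (1 : D)) = ρ • (1 : D) + star (ρ⁻¹ • (z - w)) := by
    rw [star_add, star_smul_rat ρ, star_one, add_comm]
  have hρs : star (ρ • (1 : D)) = ρ • (1 : D) := by rw [star_smul_rat, star_one]
  have h12 : x1ᴴ * H * x2 = dg (ρ⁻¹ • (z - w)) + (dg (ρ • (1 : D)))ᴴ := by
    rw [e12, dg_star, dg_add, hρs]
  have h21 : x2ᴴ * H * x1 = dg (ρ • (1 : D)) + (dg (ρ⁻¹ • (z - w)))ᴴ := by
    rw [e21, dg_star, dg_add, hstar]
  have h22 : x2ᴴ * H * x2 = dg 1 + (dg 1)ᴴ := by
    rw [e22, dg_star, dg_add, star_one]; norm_num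
  have h1i : dg (1 : D) * dg 1 = 1 := by rw [dg_mul, one_mul, dg_one]
  have ew : dg w = dg z - dg (ρ⁻¹ • (z - w)) * dg 1 * dg (ρ • (1 : D)) := by
    rw [dg_mul, dg_mul, dg_sub, mul_one, smul_mul_smul_comm, inv_mul_cancel₀ hρ, one_smul,
      mul_one]
    congr 1; abel
  have et : dg (z⁻¹ * w) = dg 1 - dg (ρ • (1 : D)) * dg z⁻¹ * dg (ρ⁻¹ • (z - w)) := by
    rw [dg_mul, dg_mul, dg_sub, smul_mul_assoc, one_mul, smul_mul_smul_comm,
      mul_inv_cancel₀ hρ, one_smul, mul_sub, inv_mul_cancel₀ hz]
    congr 1; abel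
  have hzw0 : z⁻¹ * w ≠ 0 := mul_ne_zero (inv_ne_zero hz) hw
  have g2 := block_gram (H := H) x1 x2 (dg z) (dg z⁻¹) (dg (ρ⁻¹ • (z - w))) (dg (ρ • (1 : D)))
    (dg 1) (dg_mul_inv hz) h11 h12 h21 h22
  rw [← et] at g2
  have g1 := block_gram (H := H) x2 x1 (dg 1) (dg 1) (dg (ρ • (1 : D))) (dg (ρ⁻¹ • (z - w)))
    (dg z) h1i h22 h21 h12 h11
  rw [← ew] at g1
  have a2 : Adm (x2ᴴ * H * x2) (dg (1 : D)) := by rw [h22]; exact adm_fz h1i h1i
  have a3 : Adm ((x2 - x1 * (dg z⁻¹ * dg (ρ⁻¹ • (z - w))))ᴴ * H *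
      (x2 - x1 * (dg z⁻¹ * dg (ρ⁻¹ • (z - w))))) (dg (z⁻¹ * w)⁻¹) := by
    rw [g2]; exact adm_fz (dg_mul_inv hzw0) (dg_inv_mul hzw0)
  have a4 : Adm ((x1 - x2 * (dg 1 * dg (ρ • (1 : D))))ᴴ * H *
      (x1 - x2 * (dg 1 * dg (ρ • (1 : D))))) (dg w⁻¹) := by
    rw [g1]; exact adm_fz (dg_mul_inv hw) (dg_inv_mul hw)
  have key := tw_block_frame hH (dg_mul_inv hz) (dg_inv_mul hz) h1i h1i (dg_mul_inv hzw0)
    (dg_inv_mul hw) et ew x1 x2 h11 h12 h21 h22 hadm a2 a3 a4
  have m1 : tw H hH.herm _ (dg (z⁻¹ * w)⁻¹) a3 ∈ Subgroup.closure (posSet hH) :=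
    Gn.of_acc hH hzw _ g2 a3
  have m2 : tw H hH.herm _ (dg w⁻¹) a4 ∈ Subgroup.closure (posSet hH) := hG _ g1 a4
  have hA1 : Acc (1 : D) := ⟨by simpa only [star_one] using (sos D).add_mem sos_one sos_one, by
    rw [star_one]; norm_num⟩
  have m3 : tw H hH.herm x2 (dg (1 : D)) a2 ∈ Subgroup.closure (posSet hH) := by
    have a5 : Adm (x2ᴴ * H * x2) (dg (1 : D)⁻¹) := by rw [inv_one]; exact a2
    have := Gn.of_acc hH hA1 x2 h22 a5
    convert this using 2
    rw [inv_one]
  have e : tw H hH.herm x1 (dg z⁻¹) hadm = (tw H hH.herm _ (dg (z⁻¹ * w)⁻¹) a3)⁻¹ *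
      (tw H hH.herm _ (dg w⁻¹) a4 * tw H hH.herm x2 (dg (1 : D)) a2) := by
    rw [← key, inv_mul_cancel_left]
  rw [e]
  exact mul_mem (inv_mem m1) (mul_mem m2 m3)

/-- the real jump -/
theorem Gn.jump {z : D} (hz : z ≠ 0) (ha0 : z + star z ≠ 0)
    {r : ℚ} (hr : r ≠ 0) (hacc : Acc (1 + (r ^ 2) • z⁻¹))
    (hG : Gn hH (z + (r ^ 2) • (1 : D))) : Gn hH z := by
  refine Gn.link hH hR h2 hz ?_ ha0 hr ?_ hG
  · rw [mul_add, inv_mul_cancel₀ hz, mul_smul_comm, mul_one]
    exact hacc
  · have : r⁻¹ • (z - (z + (r ^ 2) • (1 : D))) + r • (1 : D) = 0 := by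
      rw [sub_add_cancel_left, smul_neg, smul_smul]
      have : r⁻¹ * r ^ 2 = r := by field_simp
      rw [this]; abel
    rw [this]
    simpa only [star_zero, zero_mul, mul_zero, sub_zero] using sos_two (D := D)

/-- the skew step -/
theorem Gn.skew_step {z θ : D} (hθ : star θ = -θ)
    (hz : z ≠ 0) (ha0 : z + star z ≠ 0) {r q : ℚ} (hr : r ≠ 0)
    (hq : (q : D) - (1 + θ) * (z + star z)⁻¹ * (1 - θ) ∈ sos D) (hrq : r ^ 2 * q ≤ 1)
    (hacc : Acc (z⁻¹ * (z + (r ^ 2) • θ))) (hG : Gn hH (z + (r ^ 2) • θ)) : Gn hH z := by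
  refine Gn.link hH hR h2 hz hacc ha0 hr ?_ hG
  have e : r⁻¹ • (z - (z + (r ^ 2) • θ)) + r • (1 : D) = r • (1 - θ) := by
    rw [sub_add_cancel_left, smul_neg, smul_smul]
    have : r⁻¹ * r ^ 2 = r := by field_simp
    rw [this, smul_sub]; abel
  have e' : star (r • (1 - θ)) = r • (1 + θ) := by
    rw [star_smul_rat, star_sub, star_one, hθ, sub_neg_eq_add]
  rw [e, e', smul_mul_assoc, smul_mul_assoc, mul_smul_comm, smul_smul]
  have h3 := (sos D).add_mem (sos_smul hq (q := r ^ 2) (by (clear * - hr; positivity)))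
    (sos_smul (sos_one (D := D)) (q := 2 - r ^ 2 * q) (by linarith only [hrq]))
  convert h3 using 1
  have h4 : (q : D) = q • (1 : D) := by rw [Rat.smul_def, mul_one]
  have h5 : (2 : D) = (2 : ℚ) • (1 : D) := by rw [Rat.smul_def]; norm_num
  rw [h4, h5, ← pow_two]
  module

/-- every quasi-reflection is a product of positive ones -/
theorem gn_all {N : ℕ} (ρ : RealRep D N) {θ : D} (hθ : star θ = -θ) (hθ0 : θ ≠ 0)
    (hθc : ∀ x, x * θ = θ * x) {z : D} (hz : z ≠ 0) (ha0 : z + star z ≠ 0) : Gn hH z := by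
  obtain ⟨R0, hR0, hacc0, hne0, hdet⟩ := exists_shift ρ (z := z) hθ hθc
  refine Gn.jump hH hR h2 hz ha0 hR0 hacc0 ?_
  obtain ⟨z', hz'⟩ : ∃ z' : D, z' = z + (R0 ^ 2) • (1 : D) := ⟨_, rfl⟩
  rw [← hz'] at hdet ⊢
  have hre : z' + star z' = (z + star z) + (2 * R0 ^ 2) • (1 : D) := by
    rw [hz', star_add, star_smul_rat, star_one]; module
  have ha0' : z' + star z' ≠ 0 := by rw [hre]; exact hne0
  obtain ⟨q, hq0, hq⟩ := arch (a := (1 + θ) * (z' + star z')⁻¹ * (1 - θ)) (by
    simp only [star_mul, star_add, star_sub, star_one, hθ, star_inv₀, star_star, mul_assoc,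
      sub_neg_eq_add, add_comm (star z') z', ← sub_eq_add_neg]) sos_one (one_ne_zero (α := D))
  rw [mul_one] at hq
  obtain ⟨r, n, R', hr, hrq, hR', hN0, hsteps, hacc1, hacc2⟩ := exists_path ρ (z := z') hθ hθ0 hdet q
  have key : ∀ j : ℕ, j ≤ n → Gn hH (tr z' θ ((j : ℚ) * r ^ 2)) → Gn hH z' := by
    intro j
    induction j with
    | zero =>
      intro _ h
      have : tr z' θ (((0 : ℕ) : ℚ) * r ^ 2) = z' := by simp [tr]
      rwa [this] at h
    | succ j ih =>
      intro hj h
      apply ih (by omega)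
      have e1 : tr z' θ (((j + 1 : ℕ) : ℚ) * r ^ 2) =
          tr z' θ ((j : ℚ) * r ^ 2) + (r ^ 2) • θ := by
        unfold tr
        push_cast
        module
      have h3 := hsteps j (by omega)
      rw [e1] at h3 h
      have h4 := tr_re (z := z') hθ ((j : ℚ) * r ^ 2)
      exact Gn.skew_step hH hR h2 hθ (hN0 _) (by rw [h4]; exact ha0') hr
        (by rw [h4]; exact hq) hrq h3 h
  apply key n le_rfl
  have h4 := tr_re (z := z') hθ ((n : ℚ) * r ^ 2)
  exact Gn.jump hH hR h2 (hN0 _) (by rw [h4]; exact ha0') hR' hacc1 (Gn.of_acc hH hacc2)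

omit hR h2 in
/-- the positive quasi-reflections, with columns indexed by `Unit` -/
def qrPosSet (H : Matrix μ μ D) (hH : Hᴴ = H) : Set (UH H) :=
  {g | ∃ (v : Matrix μ Unit D) (Z : (Matrix Unit Unit D)ˣ)
    (h : vᴴ * H * v = (Z : Matrix Unit Unit D) + (Z : Matrix Unit Unit D)ᴴ),
    (vᴴ * H * v) () () ∈ sos D ∧ g = qr H hH v Z h}

omit hR h2 in
theorem posSet_le : posSet hH ⊆ qrPosSet H hH.herm := by
  rintro g ⟨x, z, hadm, hz, hx, rfl⟩
  have hz0 := hz.ne
  obtain ⟨m, hm⟩ : ∃ m : D → Matrix Unit Unit D, m = fun a => Matrix.of fun _ _ => a := ⟨_, rfl⟩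
  have hmm : ∀ a b, m a * m b = m (a * b) := by
    intro a b; ext i j; simp only [hm, Matrix.mul_apply, Finset.univ_unique, PUnit.default_eq_unit, of_apply, Finset.sum_const, Finset.card_singleton, one_smul]
  have hm1 : m 1 = 1 := by ext i j; simp [hm]
  refine ⟨x.submatrix id (fun _ => 0), ⟨m z, m z⁻¹, by rw [hmm, mul_inv_cancel₀ hz0, hm1],
    by rw [hmm, inv_mul_cancel₀ hz0, hm1]⟩, ?_, ?_, ?_⟩
  · ext i j
    have h1 := congrFun (congrFun hx 0) 0
    have : ((x.submatrix id (fun _ : Unit => (0 : Fin 1)))ᴴ * H *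
        x.submatrix id (fun _ : Unit => (0 : Fin 1))) i j = (xᴴ * H * x) 0 0 := by
      simp only [Fin.isValue, conjTranspose_submatrix, Matrix.mul_apply, submatrix_apply, id_eq, conjTranspose_apply]
    rw [this, h1]
    simp only [diagonal_conjTranspose, Fin.isValue, Matrix.add_apply, diagonal_apply_eq, Pi.star_apply, hm, of_apply, conjTranspose_apply]
  · have h1 := congrFun (congrFun hx 0) 0
    have : ((x.submatrix id (fun _ : Unit => (0 : Fin 1)))ᴴ * H *
        x.submatrix id (fun _ : Unit => (0 : Fin 1))) () () = (xᴴ * H * x) 0 0 := by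
      simp only [Fin.isValue, conjTranspose_submatrix, Matrix.mul_apply, submatrix_apply, id_eq, conjTranspose_apply]
    rw [this, h1, dg_star, dg_add]
    simpa only [Fin.isValue, diagonal_apply_eq] using hz.1
  · apply mat_injective
    rw [mat_qr, mat_tw]
    unfold tm
    congr 2
    ext i j
    simp only [Matrix.mul_apply, Finset.univ_unique, Fin.default_eq_zero, Fin.isValue, Finset.sum_singleton, conjTranspose_apply, diagonal_apply_eq, hm, Units.inv_mk, conjTranspose_submatrix, PUnit.default_eq_unit, submatrix_apply, id_eq, of_apply, Finset.sum_const, Finset.card_singleton, one_smul]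

/-- **Generation by positive quasi-reflections.** -/
theorem closure_qrPos {N : ℕ} (ρ : RealRep D N) {θ : D} (hθ : star θ = -θ) (hθ0 : θ ≠ 0)
    (hθc : ∀ x, x * θ = θ * x) : Subgroup.closure (qrPosSet H hH.herm) = ⊤ := by
  rw [eq_top_iff, ← closure_qrSet hH, Subgroup.closure_le]
  rintro g ⟨v, Z, h, rfl⟩
  apply Subgroup.closure_mono (posSet_le hH)
  by_cases hv : v = 0
  · have : qr H hH.herm v Z h = 1 := by
      apply mat_injective
      rw [mat_qr, mat_one, hv]
      simp only [tm, Matrix.zero_mul, conjTranspose_zero, Matrix.mul_zero, zero_mul, sub_zero]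
    rw [this]
    exact one_mem _
  · set z : D := (Z : Matrix Unit Unit D) () () with hz
    set zi : D := (↑Z⁻¹ : Matrix Unit Unit D) () () with hzi
    have hzzi : z * zi = 1 := by
      have := congrFun (congrFun (Units.mul_inv Z) ()) ()
      simpa only [Matrix.mul_apply, Finset.univ_unique, PUnit.default_eq_unit, Finset.sum_singleton,     one_apply_eq] using this
    have hz0 : z ≠ 0 := left_ne_zero_of_mul_eq_one hzzi
    have hzi' : zi = z⁻¹ := eq_inv_of_mul_eq_one_right hzzi
    have hgram : (vᴴ * H * v) () () = z + star z := by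
      rw [h]; simp only [Matrix.add_apply, conjTranspose_apply, hz]
    have hne : z + star z ≠ 0 := by
      intro h0
      apply hv
      apply hH.aniso
      ext i j
      rw [show i = () from rfl, show j = () from rfl, hgram, h0]
      rfl
    let x : Matrix μ (Fin 1) D := v.submatrix id (fun _ => ())
    have hx : xᴴ * H * x = dg z + (dg z)ᴴ := by
      rw [dg_star, dg_add]
      ext i j
      have : (xᴴ * H * x) i j = (vᴴ * H * v) () () := by
        simp only [conjTranspose_submatrix, Matrix.mul_apply, submatrix_apply, id_eq, conjTranspose_apply, x]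
      rw [this, hgram, Subsingleton.elim j i]
      simp only [diagonal_apply_eq]
    have hadm : Adm (xᴴ * H * x) (dg z⁻¹) := by
      rw [hx]; exact adm_fz (dg_mul_inv hz0) (dg_inv_mul hz0)
    have h5 := gn_all hH hR h2 ρ hθ hθ0 hθc hz0 hne x hx hadm
    have e : qr H hH.herm v Z h = tw H hH.herm x (dg z⁻¹) hadm := by
      apply mat_injective
      rw [mat_qr, mat_tw]
      unfold tm
      congr 2
      ext i j
      simp only [Matrix.mul_apply, Finset.univ_unique, PUnit.default_eq_unit, Finset.sum_singleton, conjTranspose_apply, ← hzi', hzi, conjTranspose_submatrix, Fin.default_eq_zero, Fin.isValue, submatrix_apply, id_eq, diagonal_apply_eq, x]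
    rw [e]
    exact h5

end setup

end Vale.Agent.P011S

end

section
/-!
Transfer of Part I to the matrix groups `UH H` of anisotropic forms with room.
-/

set_option linter.unusedSectionVars false

open Matrix Module
open scoped commutatorElement

namespace Vale.Agent.P011S

variable {D : Type} [DivisionRing D] [StarRing D]
variable {μ : Type} [Fintype μ] [DecidableEq μ]

/-- The column attached to a row vector. -/
def cv (x : μ → D) : Matrix μ Unit D := Matrix.of fun i _ => star (x i)

theorem cv_add (x y : μ → D) : cv (x + y) = cv x + cv y := by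
  ext i j; simp only [cv, Pi.add_apply, star_add, of_apply, Matrix.add_apply]

theorem cv_sub (x y : μ → D) : cv (x - y) = cv x - cv y := by
  ext i j; simp only [cv, Pi.sub_apply, star_sub, of_apply, Matrix.sub_apply]

theorem cv_smul (a : D) (x : μ → D) :
    cv (a • x) = cv x * (Matrix.of fun _ _ => star a : Matrix Unit Unit D) := by
  ext i j; simp only [cv, Pi.smul_apply, smul_eq_mul, star_mul, of_apply, Matrix.mul_apply, Finset.univ_unique, PUnit.default_eq_unit, Finset.sum_const, Finset.card_singleton, one_smul]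

theorem cv_injective : Function.Injective (cv (μ := μ) (D := D)) := by
  intro x y h
  ext i
  have := congrFun (congrFun h i) ()
  simpa only [cv, of_apply, star_inj] using this

/-- The row vector attached to a column. -/
def rv (X : Matrix μ Unit D) : μ → D := fun i => star (X i ())

@[simp] theorem cv_rv (X : Matrix μ Unit D) : cv (rv X) = X := by
  ext i j; simp only [cv, rv, star_star, of_apply]

variable [FormPos D] [CharZero D] [FiniteDimensional ℚ D]

/-- The hermitian form on row vectors. -/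
def rowForm (H : Matrix μ μ D) (hH : An H) : AForm D (μ → D) where
  h x y := ((cv x)ᴴ * H * cv y) () ()
  add_left' x y z := by
    rw [cv_add, Matrix.conjTranspose_add, Matrix.add_mul, Matrix.add_mul]; rfl
  smul_left' a x y := by
    rw [cv_smul, Matrix.conjTranspose_mul, Matrix.mul_assoc, Matrix.mul_assoc,
      ← Matrix.mul_assoc (cv x)ᴴ]
    simp [Matrix.mul_apply (M := (Matrix.of fun _ _ => star a : Matrix Unit Unit D)ᴴ)]
  star_h' x y := by
    have h1 : ((cv x)ᴴ * H * cv y)ᴴ = (cv y)ᴴ * H * cv x := by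
      rw [Matrix.conjTranspose_mul, Matrix.conjTranspose_mul,
        Matrix.conjTranspose_conjTranspose, hH.herm, Matrix.mul_assoc]
    have h2 := congrFun (congrFun h1 ()) ()
    rw [Matrix.conjTranspose_apply] at h2
    exact h2
  anis' x h := by
    have h1 : (cv x)ᴴ * H * cv x = 0 := by
      ext i j; exact h
    have h2 := hH.aniso h1
    exact cv_injective (by rw [h2]; ext i j; simp [cv])

theorem rowForm_h (H : Matrix μ μ D) (hH : An H) (x y : μ → D) :
    (rowForm H hH).h x y = ((cv x)ᴴ * H * cv y) () () := rfl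

/-- The linear automorphism attached to a unitary matrix. -/
def rep {H : Matrix μ μ D} : UH H →* ((μ → D) ≃ₗ[D] (μ → D)) where
  toFun g :=
    { toFun := fun x => x ᵥ* (mat g)ᴴ
      invFun := fun x => x ᵥ* (mat g⁻¹)ᴴ
      map_add' := fun x y => Matrix.add_vecMul _ _ _
      map_smul' := fun a x => Matrix.smul_vecMul _ _ _
      left_inv := fun x => by
        change (x ᵥ* (mat g)ᴴ) ᵥ* (mat g⁻¹)ᴴ = x
        rw [Matrix.vecMul_vecMul, ← Matrix.conjTranspose_mul, mat_inv_mul]; simp
      right_inv := fun x => by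
        change (x ᵥ* (mat g⁻¹)ᴴ) ᵥ* (mat g)ᴴ = x
        rw [Matrix.vecMul_vecMul, ← Matrix.conjTranspose_mul, mat_mul_inv]; simp }
  map_one' := by
    ext x i
    simp
  map_mul' a b := by
    ext1 x
    change x ᵥ* (mat (a * b))ᴴ = (x ᵥ* (mat b)ᴴ) ᵥ* (mat a)ᴴ
    rw [Matrix.vecMul_vecMul, ← Matrix.conjTranspose_mul, mat_mul]

theorem rep_apply {H : Matrix μ μ D} (g : UH H) (x : μ → D) : rep g x = x ᵥ* (mat g)ᴴ := rfl

theorem cv_rep {H : Matrix μ μ D} (g : UH H) (x : μ → D) : cv (rep g x) = mat g * cv x := by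
  ext i j
  simp only [cv, rep_apply, vecMul, dotProduct, conjTranspose_apply, star_sum, star_mul, star_star, of_apply, Matrix.mul_apply]

theorem rep_injective {H : Matrix μ μ D} : Function.Injective (rep (H := H)) := by
  intro a b h
  apply mat_injective
  apply eq_of_col
  intro j
  have h1 := congrArg (fun f => cv (f (rv (col (1 : Matrix μ μ D) j)))) h
  simp only [cv_rep, cv_rv] at h1
  rwa [mul_col, mul_col, Matrix.mul_one, Matrix.mul_one] at h1

theorem rep_mem {H : Matrix μ μ D} (hH : An H) (g : UH H) : rep g ∈ (rowForm H hH).isom := by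
  rw [AForm.mem_isom]
  intro x y
  rw [rowForm_h, rowForm_h, cv_rep, cv_rep, gram_mul]

theorem rep_surj {H : Matrix μ μ D} (hH : An H) {f : (μ → D) ≃ₗ[D] (μ → D)}
    (hf : f ∈ (rowForm H hH).isom) : ∃ g : UH H, rep g = f := by
  set M : Matrix μ μ D := LinearMap.toMatrixRight' (f : (μ → D) →ₗ[D] (μ → D)) with hM
  set M' : Matrix μ μ D := LinearMap.toMatrixRight' (f.symm : (μ → D) →ₗ[D] (μ → D)) with hM'
  have hfM : ∀ x, f x = x ᵥ* M := by
    intro x
    have : Matrix.toLinearMapRight' M = (f : (μ → D) →ₗ[D] (μ → D)) :=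
      LinearMap.toMatrixRight'.symm_apply_apply _
    rw [← Matrix.toLinearMapRight'_apply, this]; rfl
  have hfM' : ∀ x, f.symm x = x ᵥ* M' := by
    intro x
    have : Matrix.toLinearMapRight' M' = (f.symm : (μ → D) →ₗ[D] (μ → D)) :=
      LinearMap.toMatrixRight'.symm_apply_apply _
    rw [← Matrix.toLinearMapRight'_apply, this]; rfl
  have h1 : M * M' = 1 := by
    apply Matrix.ext_of_single_vecMul
    intro i
    rw [← Matrix.vecMul_vecMul, ← hfM, ← hfM', LinearEquiv.symm_apply_apply, Matrix.vecMul_one]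
  have h2 : M' * M = 1 := by
    apply Matrix.ext_of_single_vecMul
    intro i
    rw [← Matrix.vecMul_vecMul, ← hfM', ← hfM, LinearEquiv.apply_symm_apply, Matrix.vecMul_one]
  have hcv : ∀ x, cv (f x) = Mᴴ * cv x := by
    intro x
    rw [hfM]
    ext i j
    simp only [cv, vecMul, dotProduct, star_sum, star_mul, of_apply, Matrix.mul_apply, conjTranspose_apply]
  have hmem : M * H * Mᴴ = H := by
    ext i j
    have h3 := hf (rv (col (1 : Matrix μ μ D) i)) (rv (col (1 : Matrix μ μ D) j))
    rw [rowForm_h, rowForm_h, hcv, hcv, cv_rv, cv_rv, mul_col, mul_col, Matrix.mul_one, gram_col,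
      gram_col] at h3
    simpa only [conjTranspose_conjTranspose, conjTranspose_one, one_mul, mul_one] using h3
  refine ⟨⟨⟨Mᴴ, M'ᴴ, ?_, ?_⟩, ?_⟩, ?_⟩
  · rw [← Matrix.conjTranspose_mul, h2, Matrix.conjTranspose_one]
  · rw [← Matrix.conjTranspose_mul, h1, Matrix.conjTranspose_one]
  · rw [mem_UH]
    simpa only [conjTranspose_conjTranspose] using hmem
  · ext1 x
    rw [rep_apply, hfM]
    change x ᵥ* (Mᴴ)ᴴ = _
    rw [Matrix.conjTranspose_conjTranspose]

theorem map_commutator_rep {H : Matrix μ μ D} (hH : An H) :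
    (commutator (UH H)).map rep = ⁅(rowForm H hH).isom, (rowForm H hH).isom⁆ := by
  rw [commutator_def, Subgroup.map_commutator]
  have : (⊤ : Subgroup (UH H)).map rep = (rowForm H hH).isom := by
    ext f
    constructor
    · rintro ⟨g, -, rfl⟩
      exact rep_mem hH g
    · intro hf
      obtain ⟨g, rfl⟩ := rep_surj hH hf
      exact ⟨g, trivial, rfl⟩
  rw [this]

/-- Orthogonally to any two vectors the form `H` represents all sums of hermitian squares. -/
def TwoRoom (H : Matrix μ μ D) : Prop :=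
  ∀ (Y : Matrix μ (Fin 2) D) (s : D), s ∈ sos D →
    ∃ X : Matrix μ Unit D, (Xᴴ * H * X) () () = s ∧ Yᴴ * H * X = 0

theorem rich_of_room {H : Matrix μ μ D} (hH : An H) (hR : TwoRoom H) : (rowForm H hH).Rich := by
  refine ⟨fun x y p hp => ?_⟩
  let Y : Matrix μ (Fin 2) D := Matrix.of fun i j => (![cv x, cv y] j) i ()
  have hY : ∀ j, col Y j = ![cv x, cv y] j := by
    intro j; ext i k; rfl
  obtain ⟨X, hX1, hX2⟩ := hR Y p hp
  have h0 : ∀ j, (rowForm H hH).h (rv (col Y j)) (rv X) = 0 := by
    intro j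
    rw [rowForm_h, cv_rv, cv_rv]
    have h1 := gram_col H Y X j ()
    rw [hX2] at h1
    have h2 : col X () = X := by ext i k; rfl
    rw [h2] at h1
    rw [h1]; rfl
  have hrv : ∀ v : μ → D, rv (cv v) = v := by
    intro v; ext i; simp only [rv, cv, of_apply, star_star]
  refine ⟨rv X, ?_, ?_, ?_⟩
  · have := h0 0
    rw [hY] at this
    apply AForm.orth_symm
    simpa [hrv] using this
  · have := h0 1
    rw [hY] at this
    apply AForm.orth_symm
    simpa [hrv] using this
  · rw [rowForm_h, cv_rv, hX1]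

/-- the image of a quasi-reflection -/
theorem rep_qr {H : Matrix μ μ D} (hH : An H) (v : Matrix μ Unit D) (Z : (Matrix Unit Unit D)ˣ)
    (h : vᴴ * H * v = (Z : Matrix Unit Unit D) + (Z : Matrix Unit Unit D)ᴴ)
    (hs : star ((Z : Matrix Unit Unit D) () ()) + star (star ((Z : Matrix Unit Unit D) () ())) =
      (rowForm H hH).h (rv v) (rv v)) :
    rep (qr H hH.herm v Z h) =
      (rowForm H hH).qr (rv v) (star ((Z : Matrix Unit Unit D) () ())) hs := by
  have hzzi : (Z : Matrix Unit Unit D) () () * (↑Z⁻¹ : Matrix Unit Unit D) () () = 1 := by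
    have := congrFun (congrFun (Units.mul_inv Z) ()) ()
    simpa only [Matrix.mul_apply, Finset.univ_unique, PUnit.default_eq_unit, Finset.sum_singleton,     one_apply_eq] using this
  have hzi' : (↑Z⁻¹ : Matrix Unit Unit D) () () = ((Z : Matrix Unit Unit D) () ())⁻¹ :=
    eq_inv_of_mul_eq_one_right hzzi
  ext1 x
  apply cv_injective
  rw [cv_rep, AForm.qr_apply, cv_sub, cv_smul, cv_rv, mat_qr]
  unfold tm
  rw [Matrix.sub_mul, Matrix.one_mul]
  congr 1
  have e1 : (Matrix.of fun _ _ => star ((rowForm H hH).h x (rv v) *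
      (star ((Z : Matrix Unit Unit D) () ()))⁻¹) : Matrix Unit Unit D) =
      (↑Z⁻¹ : Matrix Unit Unit D) * (vᴴ * H * cv x) := by
    ext i j
    rw [star_mul, AForm.star_h, rowForm_h, cv_rv, star_inv₀, star_star, ← hzi']
    simp only [of_apply, Matrix.mul_apply (M := (↑Z⁻¹ : Matrix Unit Unit D)), Finset.univ_unique, PUnit.default_eq_unit, Finset.sum_singleton]
  rw [e1]
  simp only [Matrix.mul_assoc]

/-- the isometry group is generated by positive quasi-reflections -/
theorem isom_le_posQrGp {H : Matrix μ μ D} (hH : An H)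
    (hgen : Subgroup.closure (qrPosSet H hH.herm) = ⊤) :
    (rowForm H hH).isom ≤ (rowForm H hH).posQrGp := by
  intro f hf
  obtain ⟨g, rfl⟩ := rep_surj hH hf
  have hg : g ∈ Subgroup.closure (qrPosSet H hH.herm) := by rw [hgen]; trivial
  induction hg using Subgroup.closure_induction with
  | mem g hg =>
    obtain ⟨v, Z, h, hpos, rfl⟩ := hg
    have hs : star ((Z : Matrix Unit Unit D) () ()) +
        star (star ((Z : Matrix Unit Unit D) () ())) = (rowForm H hH).h (rv v) (rv v) := by
      rw [rowForm_h, cv_rv, h, star_star, add_comm]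
      simp only [Matrix.add_apply, conjTranspose_apply]
    apply Subgroup.subset_closure
    refine ⟨rv v, _, hs, ?_, ?_⟩
    · rw [rowForm_h, cv_rv]; exact hpos
    · exact rep_qr hH v Z h hs
  | one => rw [map_one]; exact one_mem _
  | mul a b _ _ ha hb => rw [map_mul]; exact mul_mem (ha (rep_mem hH a)) (hb (rep_mem hH b))
  | inv a _ ha => rw [map_inv]; exact inv_mem (ha (rep_mem hH a))

/-- **Part I.** A subgroup of the unitary group normalized by the commutator subgroup and
containing an element moving a line contains the commutator subgroup. -/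
theorem partI {H : Matrix μ μ D} (hH : An H) (hR : TwoRoom H)
    (hgen : Subgroup.closure (qrPosSet H hH.herm) = ⊤) {θ : D} (hθ : star θ = -θ) (hθ0 : θ ≠ 0)
    (hθc : ∀ x, x * θ = θ * x) {N : Subgroup (UH H)}
    (hN : ∀ e ∈ commutator (UH H), ∀ g ∈ N, e * g * e⁻¹ ∈ N) {σ : UH H} (hσ : σ ∈ N)
    {x : Matrix μ Unit D} (hx : ∀ c : Matrix Unit Unit D, mat σ * x ≠ x * c) :
    commutator (UH H) ≤ N := by
  have hrich := rich_of_room hH hR
  have hN' : AForm.CommNormal (rowForm H hH) (N.map rep) := by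
    intro e he g hg
    rw [← map_commutator_rep hH] at he
    obtain ⟨e', he', rfl⟩ := he
    obtain ⟨g', hg', rfl⟩ := hg
    exact ⟨e' * g' * e'⁻¹, hN e' he' g' hg', by simp only [map_mul, map_inv]⟩
  have hNU : N.map rep ≤ (rowForm H hH).isom := by
    rintro _ ⟨g, -, rfl⟩
    exact rep_mem hH g
  have h1 := hrich.main isArch (isom_le_posQrGp hH hgen) hθ hθ0 hθc hN' hNU (σ := rep σ)
    ⟨σ, hσ, rfl⟩ (x := rv x) (by
    intro c hc
    apply hx (Matrix.of fun _ _ => star c)
    have h2 := congrArg cv hc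
    rw [cv_rep, cv_smul, cv_rv] at h2
    exact h2)
  rw [← map_commutator_rep hH] at h1
  exact (Subgroup.map_le_map_iff_of_injective rep_injective).mp h1

end Vale.Agent.P011S

end
end

section

section
/-!
States on a formally positive division algebra: separation.
-/

set_option linter.unusedSectionVars false
set_option linter.unusedSimpArgs false

namespace Vale.Agent.P011S

open Module Matrix Filter Topology

variable {D : Type} [DivisionRing D] [StarRing D] [CharZero D]

variable (D) in
/-- elements with real part in the cone -/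
def PS : Set D := {x | x + star x ∈ sos D}

theorem PS_add {x y : D} (hx : x ∈ PS D) (hy : y ∈ PS D) : x + y ∈ PS D := by
  have : (x + star x) + (y + star y) ∈ sos D := add_mem hx hy
  change x + y + star (x + y) ∈ sos D
  rw [star_add]
  convert this using 1
  abel

theorem PS_zero : (0 : D) ∈ PS D := by
  change (0 : D) + star 0 ∈ sos D
  simp

theorem PS_smul {x : D} (hx : x ∈ PS D) {q : ℚ} (hq : 0 ≤ q) : q • x ∈ PS D := by
  have := sos_rat hx hq
  change q • x + star (q • x) ∈ sos D
  rw [star_smul_rat, ← smul_add, Rat.smul_def]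
  exact this

theorem PS_sum {ι : Type*} {s : Finset ι} {f : ι → D} (h : ∀ i ∈ s, f i ∈ PS D) :
    ∑ i ∈ s, f i ∈ PS D := by
  classical
  induction s using Finset.induction_on with
  | empty => simpa using PS_zero
  | insert a s ha ih =>
    rw [Finset.sum_insert ha]
    exact PS_add (h a (Finset.mem_insert_self _ _)) (ih fun i hi => h i (Finset.mem_insert_of_mem hi))

theorem PS_of_sos {a : D} (ha : a ∈ sos D) : a ∈ PS D := by
  change a + star a ∈ sos D
  rw [sos_star ha]
  exact add_mem ha ha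

theorem sos_of_PS {a : D} (ha : star a = a) (h : a ∈ PS D) : a ∈ sos D := by
  change a + star a ∈ sos D at h
  rw [ha] at h
  have := sos_rat h (q := 1 / 2) (by norm_num)
  convert this using 1
  rw [← two_mul, ← mul_assoc]
  push_cast
  norm_num

theorem PS_rat {q : ℚ} (hq : 0 ≤ q) : q • (1 : D) ∈ PS D := PS_smul (PS_of_sos sos_one) hq

section bounds
variable [FormPos D] [FiniteDimensional ℚ D]

theorem exists_PS_bound (x : D) : ∃ N : ℚ, 0 < N ∧ N • (1 : D) - x ∈ PS D ∧ N • (1 : D) + x ∈ PS D := by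
  have key : ∀ x : D, ∃ N : ℚ, 0 < N ∧ N • (1 : D) - x ∈ PS D := by
    intro x
    obtain ⟨q, hq, h⟩ := arch (a := x + star x) (by rw [star_add, star_star, add_comm]) sos_one
      (one_ne_zero (α := D))
    refine ⟨q, hq, ?_⟩
    have h2 : (q : D) ∈ sos D := sos_ratCast hq.le
    have h3 := add_mem h h2
    change q • (1 : D) - x + star (q • (1 : D) - x) ∈ sos D
    convert h3 using 1
    rw [star_sub, star_smul_rat, star_one, Rat.smul_def, mul_one]
    abel
  obtain ⟨N1, hN1, h1⟩ := key x
  obtain ⟨N2, hN2, h2⟩ := key (-x)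
  refine ⟨N1 + N2, by positivity, ?_, ?_⟩
  · have := PS_add h1 (PS_rat (D := D) hN2.le)
    convert this using 1
    rw [add_smul]; abel
  · have := PS_add h2 (PS_rat (D := D) hN1.le)
    convert this using 1
    rw [add_smul]; abel

variable {n : ℕ} (b : Basis (Fin n) ℚ D)

/-- elements with small coordinates are dominated by a given positive rational -/
theorem exists_PS_small {δ : ℚ} (hδ : 0 < δ) : ∃ η : ℚ, 0 < η ∧
    ∀ w : D, (∀ i, |b.repr w i| ≤ η) → δ • (1 : D) + w ∈ PS D := by
  choose N hN h1 h2 using fun i => exists_PS_bound (b i)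
  have hS : 0 ≤ ∑ i, N i := Finset.sum_nonneg fun i _ => (hN i).le
  refine ⟨δ / (∑ i, N i + 1), by positivity, ?_⟩
  intro w hw
  have e1 : δ • (1 : D) + w = (δ - ∑ i, |b.repr w i| * N i) • (1 : D)
      + ∑ i, (|b.repr w i| • (N i • (1 : D)) + b.repr w i • b i) := by
    rw [Finset.sum_add_distrib, b.sum_repr, sub_smul, Finset.sum_smul]
    simp only [smul_smul]
    abel
  rw [e1]
  refine PS_add (PS_rat ?_) (PS_sum fun i _ => ?_)
  · have h3 : ∑ i, |b.repr w i| * N i ≤ ∑ i, δ / (∑ i, N i + 1) * N i :=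
      Finset.sum_le_sum fun i _ => mul_le_mul_of_nonneg_right (hw i) (hN i).le
    rw [← Finset.mul_sum] at h3
    have h4 : δ / (∑ i, N i + 1) * ∑ i, N i ≤ δ := by
      rw [div_mul_eq_mul_div, div_le_iff₀ (by positivity)]
      nlinarith only [hδ]
    linarith
  · rcases abs_cases (b.repr w i) with ⟨h3, h4⟩ | ⟨h3, h4⟩
    · have := PS_smul (h2 i) h4
      rw [h3]
      convert this using 1
      rw [smul_add]
    · have := PS_smul (h1 i) (q := -(b.repr w i)) (by linarith)
      rw [h3]
      convert this using 1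
      rw [smul_sub, neg_smul, neg_smul]; abel

end bounds

section coords
variable {n : ℕ} (b : Basis (Fin n) ℚ D)

/-- real coordinates -/
noncomputable def cvec (x : D) : Fin n → ℝ := fun i => ((b.repr x i : ℚ) : ℝ)

theorem cvec_add (x y : D) : cvec b (x + y) = cvec b x + cvec b y := by
  ext i; simp [cvec]

theorem cvec_sub (x y : D) : cvec b (x - y) = cvec b x - cvec b y := by
  ext i; simp [cvec]

theorem cvec_zero : cvec b (0 : D) = 0 := by
  ext i; simp [cvec]

theorem cvec_smul (q : ℚ) (x : D) : cvec b (q • x) = (q : ℝ) • cvec b x := by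
  ext i; simp [cvec]

theorem cvec_basis (i : Fin n) : cvec b (b i) = Pi.single i 1 := by
  ext j
  by_cases h : i = j
  · subst h; simp [cvec]
  · simp [cvec, Pi.single_apply, Finsupp.single_apply, h, Ne.symm h, eq_comm]

theorem cvec_dense : DenseRange (cvec b) := by
  have h1 : DenseRange (fun (f : Fin n → ℚ) (i : Fin n) => ((f i : ℚ) : ℝ)) :=
    DenseRange.piMap fun _ => Rat.denseRange_cast
  intro y
  refine closure_mono ?_ (h1 y)
  rintro _ ⟨f, rfl⟩
  refine ⟨∑ i, f i • b i, ?_⟩
  ext j
  simp only [cvec, map_sum, map_smul, Basis.repr_self, Finsupp.smul_single, smul_eq_mul, mul_one, Finsupp.coe_finsetSum, Finset.sum_apply, Finsupp.single_apply, Finset.sum_ite_eq', Finset.mem_univ, ↓reduceIte]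

/-- real left multiplication matrix -/
noncomputable def LL : D →+* Matrix (Fin n) (Fin n) ℝ :=
  (RingHom.mapMatrix (algebraMap ℚ ℝ)).comp (Algebra.leftMulMatrix b).toRingHom

theorem LL_cvec (x y : D) : LL b x *ᵥ cvec b y = cvec b (x * y) := by
  have h := Algebra.leftMulMatrix_mulVec_repr b x y
  ext i
  have h2 := congrFun h i
  change (((Algebra.leftMulMatrix b) x).map (algebraMap ℚ ℝ) *ᵥ cvec b y) i = _
  have h3 : cvec b y = (algebraMap ℚ ℝ) ∘ (b.repr y) := by
    ext j; simp [cvec]
  rw [h3, ← RingHom.map_mulVec, h2]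
  simp only [eq_ratCast, cvec]

end coords

section sep
variable [FormPos D] [FiniteDimensional ℚ D] {n : ℕ} (b : Basis (Fin n) ℚ D)

/-- positive functionals -/
def PF : Set ((Fin n → ℝ) →ₗ[ℝ] ℝ) := {f | ∀ x ∈ PS D, 0 ≤ f (cvec b x)}

theorem smul_mem_closure {r : ℝ} (hr : 0 ≤ r) {y : Fin n → ℝ}
    (hy : y ∈ closure (cvec b '' PS D)) : r • y ∈ closure (cvec b '' PS D) := by
  have hq : ∀ q : ℚ, 0 ≤ q → (q : ℝ) • y ∈ closure (cvec b '' PS D) := by
    intro q hq
    refine map_mem_closure (f := fun z : Fin n → ℝ => (q : ℝ) • z) (by fun_prop) hy ?_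
    rintro _ ⟨x, hx, rfl⟩
    exact ⟨q • x, PS_smul hx hq, cvec_smul b q x⟩
  have hcl : IsClosed {r : ℝ | r • y ∈ closure (cvec b '' PS D)} :=
    IsClosed.preimage (f := fun r : ℝ => r • y) (by fun_prop) isClosed_closure
  have hmem : r ∈ closure {r : ℝ | r • y ∈ closure (cvec b '' PS D)} := by
    rw [Metric.mem_closure_iff]
    intro ε hε
    obtain ⟨q, hq1, hq2⟩ := exists_rat_btwn (show r < r + ε by linarith)
    refine ⟨q, hq q ?_, ?_⟩
    · have : (0 : ℝ) < q := lt_of_le_of_lt hr hq1
      exact_mod_cast this.le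
    · rw [Real.dist_eq, abs_sub_comm, abs_of_pos (by linarith)]
      linarith
  rwa [hcl.closure_eq] at hmem

theorem add_mem_closure {y z : Fin n → ℝ} (hy : y ∈ closure (cvec b '' PS D))
    (hz : z ∈ closure (cvec b '' PS D)) : y + z ∈ closure (cvec b '' PS D) := by
  refine map_mem_closure₂ continuous_add hy hz ?_
  rintro _ ⟨x, hx, rfl⟩ _ ⟨w, hw, rfl⟩
  exact ⟨x + w, PS_add hx hw, cvec_add b x w⟩

theorem separation {a : D} (ha : star a = a) (hna : a ∉ sos D) {δ : ℚ} (hδ : 0 < δ) :
    ∃ f ∈ PF b, f (cvec b a) < δ * f (cvec b 1) := by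
  have hK : cvec b (a - δ • 1) ∉ closure (cvec b '' PS D) := by
    intro hmem
    obtain ⟨η, hη, hsmall⟩ := exists_PS_small b hδ
    rw [Metric.mem_closure_iff] at hmem
    obtain ⟨_, ⟨x, hx, rfl⟩, hdist⟩ := hmem η (by exact_mod_cast hη)
    apply hna
    apply sos_of_PS ha
    have h1 := hsmall (a - δ • 1 - x) (by
      intro i
      have h2 := dist_le_pi_dist (cvec b (a - δ • 1)) (cvec b x) i
      rw [Real.dist_eq] at h2
      have h3 : |cvec b (a - δ • 1) i - cvec b x i| = ((|b.repr (a - δ • 1 - x) i| : ℚ) : ℝ) := by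
        simp only [cvec, Rat.smul_one_eq_cast, map_sub, Finsupp.coe_sub, Pi.sub_apply, Rat.cast_sub, Rat.cast_abs]
      rw [h3] at h2
      have h4 : ((|b.repr (a - δ • 1 - x) i| : ℚ) : ℝ) ≤ (η : ℝ) := h2.trans hdist.le
      exact_mod_cast h4)
    have h5 := PS_add hx h1
    convert h5 using 1
    abel
  have hconv : Convex ℝ (closure (cvec b '' PS D)) := by
    intro y hy z hz r s hr hs _
    exact add_mem_closure b (smul_mem_closure b hr hy) (smul_mem_closure b hs hz)
  obtain ⟨f, u, hfu, hfb⟩ := geometric_hahn_banach_point_closed hconv isClosed_closure hK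
  have h0 : (0 : Fin n → ℝ) ∈ closure (cvec b '' PS D) :=
    subset_closure ⟨0, PS_zero, cvec_zero b⟩
  have hu : u < 0 := by
    have := hfb 0 h0
    rwa [map_zero] at this
  have hnn : ∀ y ∈ closure (cvec b '' PS D), 0 ≤ f y := by
    intro y hy
    by_contra hcon
    push Not at hcon
    have h1 := hfb ((u / f y) • y) (smul_mem_closure b (div_nonneg_of_nonpos hu.le hcon.le) hy)
    rw [map_smul, smul_eq_mul, div_mul_cancel₀ _ hcon.ne] at h1
    exact lt_irrefl _ h1
  refine ⟨(f : (Fin n → ℝ) →ₗ[ℝ] ℝ), ?_, ?_⟩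
  · intro x hx
    exact hnn _ (subset_closure ⟨x, hx, rfl⟩)
  · have h1 : f (cvec b (a - δ • 1)) < 0 := hfu.trans hu
    rw [cvec_sub, cvec_smul, map_sub, map_smul, smul_eq_mul] at h1
    change f (cvec b a) < δ * f (cvec b 1)
    (clear ha hna hδ hK hconv u hfu hfb h0 hu hnn; linarith)

end sep

end Vale.Agent.P011S

end

section
/-!
Linear algebra for the construction of the real representation.
-/

set_option linter.unusedSectionVars false
set_option linter.unusedSimpArgs false

namespace Vale.Agent.P011S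

open Module Matrix Filter Topology

section real
variable {n : ℕ}

/-- a positive semidefinite real matrix factors through its rank -/
theorem exists_factor (G : Matrix (Fin n) (Fin n) ℝ) (hG : Gᵀ = G)
    (hpos : ∀ y : Fin n → ℝ, 0 ≤ y ⬝ᵥ (G *ᵥ y)) :
    ∃ (N : ℕ) (W : Matrix (Fin N) (Fin n) ℝ) (W' : Matrix (Fin n) (Fin N) ℝ),
      W * W' = 1 ∧ Wᵀ * W = G := by
  have hsymm : LinearMap.IsSymm (Matrix.toBilin' G) := by
    refine ⟨fun x y => ?_⟩
    rw [Matrix.toBilin'_apply', Matrix.toBilin'_apply', RingHom.id_apply, dotProduct_mulVec,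
      ← mulVec_transpose, hG, dotProduct_comm]
  obtain ⟨v, hv⟩ := LinearMap.BilinForm.exists_orthogonal_basis (B := Matrix.toBilin' G) hsymm
  generalize hr : finrank ℝ (Fin n → ℝ) = r at v hv
  let β : Fin r → ℝ := fun i => v i ⬝ᵥ (G *ᵥ v i)
  have hβ : ∀ i, 0 ≤ β i := fun i => hpos (v i)
  have hB : ∀ i j, i ≠ j → v i ⬝ᵥ (G *ᵥ v j) = 0 := by
    intro i j hij
    have h1 : Matrix.toBilin' G (v i) (v j) = 0 := hv hij
    rwa [Matrix.toBilin'_apply'] at h1
  have hexp : ∀ y z : Fin n → ℝ, y ⬝ᵥ (G *ᵥ z) = ∑ i, β i * (v.repr y i * v.repr z i) := by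
    intro y z
    conv_lhs => rw [← v.sum_repr y, ← v.sum_repr z]
    rw [Matrix.mulVec_sum, dotProduct_sum]
    refine Finset.sum_congr rfl fun j _ => ?_
    rw [Matrix.mulVec_smul, dotProduct_smul, sum_dotProduct, Finset.sum_eq_single j]
    · rw [smul_dotProduct, smul_eq_mul, smul_eq_mul]
      ring
    · intro i _ hij
      rw [smul_dotProduct, hB i j hij, smul_zero]
    · intro h
      exact absurd (Finset.mem_univ j) h
  let e := Fintype.equivFin {i : Fin r // β i ≠ 0}
  let W : Matrix (Fin (Fintype.card {i : Fin r // β i ≠ 0})) (Fin n) ℝ :=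
    Matrix.of fun i j => Real.sqrt (β (e.symm i)) * v.repr (Pi.single j 1) (e.symm i)
  let W' : Matrix (Fin n) (Fin (Fintype.card {i : Fin r // β i ≠ 0})) ℝ :=
    Matrix.of fun j i => v (e.symm i) j / Real.sqrt (β (e.symm i))
  refine ⟨_, W, W', ?_, ?_⟩
  · ext i i'
    have hs : Real.sqrt (β (e.symm i')) ≠ 0 := by
      have h1 : 0 < β (e.symm i') := lt_of_le_of_ne (hβ _) (Ne.symm (e.symm i').2)
      exact (Real.sqrt_pos.mpr h1).ne'
    have h1 : (W * W') i i' = Real.sqrt (β (e.symm i)) / Real.sqrt (β (e.symm i')) *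
        v.repr (∑ j, v (e.symm i') j • Pi.single j 1) (e.symm i) := by
      rw [Matrix.mul_apply, map_sum, Finsupp.finsetSum_apply, Finset.mul_sum]
      refine Finset.sum_congr rfl fun j _ => ?_
      simp only [W, W', Matrix.of_apply]
      rw [map_smul, Finsupp.smul_apply, smul_eq_mul]
      ring
    have h2 : ∑ j, v (e.symm i') j • (Pi.single j 1 : Fin n → ℝ) = v (e.symm i') := by
      ext k
      simp only [ne_eq, Finset.sum_apply, Pi.smul_apply, Pi.single_apply, smul_eq_mul, mul_ite, mul_one, mul_zero, Finset.sum_ite_eq, Finset.mem_univ, ↓reduceIte]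
    rw [h1, h2, v.repr_self]
    by_cases h : i = i'
    · subst h
      rw [Finsupp.single_eq_same, Matrix.one_apply_eq, mul_one, div_self hs]
    · have h3 : ((e.symm i' : {i : Fin r // β i ≠ 0}) : Fin r) ≠ (e.symm i : Fin r) := by
        intro h4
        exact h (e.symm.injective (Subtype.ext h4)).symm
      rw [Finsupp.single_apply, if_neg h3, mul_zero, Matrix.one_apply_ne h]
  · ext j j'
    have h1 : (Wᵀ * W) j j' = ∑ i : {i : Fin r // β i ≠ 0},
        β i * (v.repr (Pi.single j 1) i * v.repr (Pi.single j' 1) i) := by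
      rw [Matrix.mul_apply, ← Equiv.sum_comp e]
      refine Finset.sum_congr rfl fun i _ => ?_
      simp only [W, Matrix.transpose_apply, Matrix.of_apply, Equiv.symm_apply_apply]
      have h2 := Real.mul_self_sqrt (hβ i)
      calc Real.sqrt (β i) * v.repr (Pi.single j 1) i * (Real.sqrt (β i) * v.repr (Pi.single j' 1) i)
          = (Real.sqrt (β i) * Real.sqrt (β i)) *
            (v.repr (Pi.single j 1) i * v.repr (Pi.single j' 1) i) := by ring
        _ = _ := by rw [h2]
    have h2 : ∑ i : {i : Fin r // β i ≠ 0},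
        β i * (v.repr (Pi.single j 1) i * v.repr (Pi.single j' 1) i)
        = ∑ i : Fin r, β i * (v.repr (Pi.single j 1) i * v.repr (Pi.single j' 1) i) := by
      rw [← Finset.sum_subtype (Finset.univ.filter fun i => β i ≠ 0) (by intro x; simp only [ne_eq, Finset.mem_filter, Finset.mem_univ, true_and])
        (fun i => β i * (v.repr (Pi.single j 1) i * v.repr (Pi.single j' 1) i))]
      refine Finset.sum_filter_of_ne fun i _ h h0 => h ?_
      rw [h0, zero_mul]
    rw [h1, h2, ← hexp]
    simp only [mulVec_single, MulOpposite.op_one, one_smul, single_dotProduct, col_apply, one_mul]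

/-- product of commuting positive matrices -/
theorem commuting_pos {A T : Matrix (Fin n) (Fin n) ℝ} (hA : PosQ A) (hAs : Aᵀ = A)
    (hTs : Tᵀ = T) (hT : ∀ y : Fin n → ℝ, 0 ≤ y ⬝ᵥ (T *ᵥ y)) (hAT : T * A = A * T)
    (y : Fin n → ℝ) : 0 ≤ y ⬝ᵥ ((T * A) *ᵥ y) := by
  have hH : (T * A).IsHermitian := by
    rw [Matrix.IsHermitian, Matrix.conjTranspose_eq_transpose_of_trivial, Matrix.transpose_mul,
      hAs, hTs, hAT]
  have h1 : (T * A).PosSemidef := by
    rw [hH.posSemidef_iff_eigenvalues_nonneg]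
    intro i
    by_contra hneg
    simp only [Pi.zero_apply, not_le] at hneg
    set lam := hH.eigenvalues i with hlam
    have hv := hH.mulVec_eigenvectorBasis i
    rw [← hlam] at hv
    set v : Fin n → ℝ := ⇑(hH.eigenvectorBasis i) with hvd
    have hv0 : v ≠ 0 := by
      intro h
      have h1 : hH.eigenvectorBasis i ≠ 0 := hH.eigenvectorBasis.orthonormal.ne_zero i
      apply h1
      ext j
      exact congrFun h j
    have h2 := hT (A *ᵥ v)
    rw [Matrix.mulVec_mulVec, hv, dotProduct_smul, smul_eq_mul, dotProduct_comm] at h2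
    have h3 := hA v hv0
    have := mul_neg_of_neg_of_pos hneg h3
    linarith only [h2, this]
  have := h1.dotProduct_mulVec_nonneg y
  simpa only [ge_iff_le, star_trivial] using this

end real

end Vale.Agent.P011S

end

section
/-!
The real representation of a formally positive division algebra.
-/

set_option linter.unusedSectionVars false
set_option linter.unusedSimpArgs false

namespace Vale.Agent.P011S

open Module Matrix Filter Topology

variable {D : Type} [DivisionRing D] [StarRing D] [CharZero D]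

section gram
variable {n : ℕ} (b : Basis (Fin n) ℚ D) (f : (Fin n → ℝ) →ₗ[ℝ] ℝ)

/-- the functional on `D` -/
noncomputable def phi : D →ₗ[ℚ] ℝ where
  toFun x := f (cvec b x)
  map_add' x y := by rw [cvec_add, map_add]
  map_smul' q x := by
    rw [cvec_smul, map_smul, smul_eq_mul, RingHom.id_apply, Rat.smul_def]

theorem phi_apply (x : D) : phi b f x = f (cvec b x) := rfl

/-- Gram matrix of a functional -/
noncomputable def Gm : Matrix (Fin n) (Fin n) ℝ := Matrix.of fun i j => phi b f (star (b i) * b j)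

theorem gram_cvec (x y : D) :
    cvec b x ⬝ᵥ (Gm b f *ᵥ cvec b y) = phi b f (star x * y) := by
  have e1 : star x * y = ∑ i, ∑ j, (b.repr x i * b.repr y j) • (star (b i) * b j) := by
    conv_lhs => rw [← b.sum_repr x, ← b.sum_repr y]
    rw [star_sum, Finset.sum_mul_sum]
    refine Finset.sum_congr rfl fun i _ => Finset.sum_congr rfl fun j _ => ?_
    rw [star_smul_rat, smul_mul_smul_comm]
  rw [e1, map_sum]
  simp only [dotProduct, Matrix.mulVec, Finset.mul_sum]
  refine Finset.sum_congr rfl fun i _ => ?_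
  rw [map_sum]
  refine Finset.sum_congr rfl fun j _ => ?_
  rw [map_smul, Rat.smul_def]
  simp only [Gm, Matrix.of_apply, cvec]
  push_cast
  ring

theorem intertwine (x : D) : (LL b (star x))ᵀ * Gm b f = Gm b f * LL b x := by
  have key : ∀ u v : D, cvec b u ⬝ᵥ (((LL b (star x))ᵀ * Gm b f) *ᵥ cvec b v)
      = cvec b u ⬝ᵥ ((Gm b f * LL b x) *ᵥ cvec b v) := by
    intro u v
    rw [← Matrix.mulVec_mulVec, ← Matrix.mulVec_mulVec, LL_cvec, gram_cvec,
      Matrix.mulVec_transpose, dotProduct_comm, ← Matrix.dotProduct_mulVec, LL_cvec,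
      dotProduct_comm, gram_cvec, star_mul, star_star, mul_assoc]
  ext i j
  have := key (b i) (b j)
  simpa only [cvec_basis, mulVec_single, MulOpposite.op_one, one_smul, single_dotProduct, col_apply,     one_mul] using this

theorem nonneg_of_dense {F : (Fin n → ℝ) → ℝ} (hF : Continuous F)
    (h : ∀ x : D, 0 ≤ F (cvec b x)) (y : Fin n → ℝ) : 0 ≤ F y :=
  (cvec_dense b).induction_on y (isClosed_le continuous_const hF) h

variable {b f}

theorem phi_star (hf : f ∈ PF b) (x : D) : phi b f (star x) = phi b f x := by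
  have h1 : x - star x ∈ PS D := by
    change x - star x + star (x - star x) ∈ sos D
    rw [star_sub, star_star]
    simp only [sub_add_sub_cancel, sub_self, zero_mem]
  have h2 : star x - x ∈ PS D := by
    change star x - x + star (star x - x) ∈ sos D
    rw [star_sub, star_star]
    simp only [sub_add_sub_cancel, sub_self, zero_mem]
  have h3 := hf _ h1
  have h4 := hf _ h2
  rw [← phi_apply, map_sub] at h3 h4
  (clear hf h1 h2; linarith)

theorem Gm_symm (hf : f ∈ PF b) : (Gm b f)ᵀ = Gm b f := by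
  ext i j
  simp only [Gm, Matrix.transpose_apply, Matrix.of_apply]
  rw [← phi_star hf, star_mul, star_star]

theorem gram_LL_nonneg (hf : f ∈ PF b) {a : D} (ha : a ∈ sos D) (y : Fin n → ℝ) :
    0 ≤ y ⬝ᵥ ((Gm b f * LL b a) *ᵥ y) := by
  refine nonneg_of_dense b (F := fun y => y ⬝ᵥ ((Gm b f * LL b a) *ᵥ y))
    (by unfold dotProduct Matrix.mulVec dotProduct; fun_prop) ?_ y
  intro x
  rw [← Matrix.mulVec_mulVec, LL_cvec, gram_cvec, ← mul_assoc]
  exact hf _ (PS_of_sos (sos_conj' ha x))

theorem gram_nonneg (hf : f ∈ PF b) (y : Fin n → ℝ) : 0 ≤ y ⬝ᵥ (Gm b f *ᵥ y) := by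
  have := gram_LL_nonneg hf sos_one y
  rwa [map_one, Matrix.mul_one] at this

theorem Gm_posSemidef (hf : f ∈ PF b) : (Gm b f).PosSemidef := by
  refine Matrix.PosSemidef.of_dotProduct_mulVec_nonneg ?_ ?_
  · rw [Matrix.IsHermitian, Matrix.conjTranspose_eq_transpose_of_trivial, Gm_symm hf]
  · intro y
    simpa only [star_trivial] using gram_nonneg hf y

end gram

variable [FormPos D] [FiniteDimensional ℚ D]

/-- a positive functional dominating all the others -/
theorem exists_dominating {n : ℕ} (b : Basis (Fin n) ℚ D) : ∃ f0 ∈ PF b, ∀ f ∈ PF b, ∃ M : ℝ,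
    M • f0 - f ∈ PF b := by
  have hfg : (Submodule.span ℝ (PF b)).FG := IsNoetherian.noetherian _
  obtain ⟨t, ht1, ht2⟩ := (Submodule.fg_span_iff_fg_span_finset_subset _).mp hfg
  have hcomb : ∀ α : ((Fin n → ℝ) →ₗ[ℝ] ℝ) → ℝ, (∀ f ∈ t, 0 ≤ α f) → ∑ f ∈ t, α f • f ∈ PF b := by
    intro α hα x hx
    rw [LinearMap.sum_apply]
    refine Finset.sum_nonneg fun f hf => ?_
    rw [LinearMap.smul_apply, smul_eq_mul]
    exact mul_nonneg (hα f hf) (ht1 hf x hx)
  refine ⟨∑ f ∈ t, f, ?_, ?_⟩
  · have := hcomb (fun _ => 1) (fun _ _ => zero_le_one)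
    simpa using this
  · intro f hf
    have h1 : f ∈ Submodule.span ℝ (t : Set ((Fin n → ℝ) →ₗ[ℝ] ℝ)) := by
      rw [← ht2]
      exact Submodule.subset_span hf
    obtain ⟨α, -, hα⟩ := Submodule.mem_span_finset.mp h1
    refine ⟨∑ g ∈ t, |α g|, ?_⟩
    have h2 := hcomb (fun g => ∑ g ∈ t, |α g| - α g) (by
      intro g hg
      have h3 : |α g| ≤ ∑ g ∈ t, |α g| :=
        Finset.single_le_sum (f := fun g => |α g|) (fun i _ => abs_nonneg _) hg
      have h4 := le_abs_self (α g)
      change 0 ≤ ∑ g ∈ t, |α g| - α g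
      linarith only [h3, h4])
    have h3 : (∑ g ∈ t, |α g|) • ∑ f ∈ t, f - f = ∑ g ∈ t, (∑ g ∈ t, |α g| - α g) • g := by
      conv_lhs => rw [← hα]
      rw [Finset.smul_sum, ← Finset.sum_sub_distrib]
      exact Finset.sum_congr rfl fun g _ => (_root_.sub_smul _ _ _).symm
    rw [h3]
    exact h2

/-- The real representation. -/
theorem exists_iota : ∃ N : ℕ, Nonempty (RealRep D N) := by
  obtain ⟨n, ⟨b⟩⟩ : ∃ n : ℕ, Nonempty (Basis (Fin n) ℚ D) := ⟨_, ⟨Module.finBasis ℚ D⟩⟩
  obtain ⟨f0, hf0, hdom⟩ := exists_dominating b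
  obtain ⟨N, W, W', hWW, hWG⟩ := exists_factor (Gm b f0) (Gm_symm hf0) (gram_nonneg hf0)
  have hWWt : W'ᵀ * Wᵀ = 1 := by
    rw [← Matrix.transpose_mul, hWW, Matrix.transpose_one]
  have hG0E : Gm b f0 * (1 - W' * W) = 0 := by
    rw [Matrix.mul_sub, Matrix.mul_one, ← hWG, Matrix.mul_assoc, ← Matrix.mul_assoc W W',
      hWW, Matrix.one_mul, sub_self]
  have hker : ∀ x, W * LL b x * (W' * W) = W * LL b x := by
    intro x
    have h1 : Gm b f0 * (LL b x * (1 - W' * W)) = 0 := by
      rw [← Matrix.mul_assoc, ← intertwine, Matrix.mul_assoc, hG0E, Matrix.mul_zero]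
    have h2 : W * (LL b x * (1 - W' * W)) = 0 := by
      calc W * (LL b x * (1 - W' * W)) = (W'ᵀ * Wᵀ) * (W * (LL b x * (1 - W' * W))) := by
            rw [hWWt, Matrix.one_mul]
        _ = W'ᵀ * ((Wᵀ * W) * (LL b x * (1 - W' * W))) := by simp only [Matrix.mul_assoc]
        _ = 0 := by rw [hWG, h1, Matrix.mul_zero]
    rw [Matrix.mul_sub, Matrix.mul_one, Matrix.mul_sub, sub_eq_zero] at h2
    rw [Matrix.mul_assoc, ← h2]
  let F : D →+* Matrix (Fin N) (Fin N) ℝ :=
    { toFun := fun x => W * LL b x * W'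
      map_one' := by rw [map_one, Matrix.mul_one, hWW]
      map_mul' := fun x y => by
        rw [map_mul]
        calc W * (LL b x * LL b y) * W' = (W * LL b x) * LL b y * W' := by
              simp only [Matrix.mul_assoc]
          _ = (W * LL b x * (W' * W)) * LL b y * W' := by rw [hker]
          _ = W * LL b x * W' * (W * LL b y * W') := by simp only [Matrix.mul_assoc]
      map_zero' := by rw [map_zero, Matrix.mul_zero, Matrix.zero_mul]
      map_add' := fun x y => by rw [map_add, Matrix.mul_add, Matrix.add_mul] }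
  have hFW : ∀ x, F x * W = W * LL b x := by
    intro x
    change W * LL b x * W' * W = _
    rw [Matrix.mul_assoc _ W' W, hker]
  have hstar : ∀ x, F (star x) = (F x)ᵀ := by
    intro x
    change W * LL b (star x) * W' = (W * LL b x * W')ᵀ
    have h1 := intertwine b f0 (star x)
    rw [star_star] at h1
    calc W * LL b (star x) * W' = (W'ᵀ * Wᵀ) * (W * LL b (star x) * W') := by
          rw [hWWt, Matrix.one_mul]
      _ = W'ᵀ * ((Wᵀ * W) * LL b (star x)) * W' := by simp only [Matrix.mul_assoc]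
      _ = W'ᵀ * ((LL b x)ᵀ * (Wᵀ * W)) * W' := by rw [hWG, h1]
      _ = W'ᵀ * (LL b x)ᵀ * Wᵀ * (W * W') := by simp only [Matrix.mul_assoc]
      _ = (W * LL b x * W')ᵀ := by
        rw [hWW, Matrix.mul_one, Matrix.transpose_mul, Matrix.transpose_mul, Matrix.mul_assoc]
  have hval : ∀ (x : D) (z : Fin n → ℝ),
      (W *ᵥ z) ⬝ᵥ (F x *ᵥ (W *ᵥ z)) = z ⬝ᵥ ((Gm b f0 * LL b x) *ᵥ z) := by
    intro x z
    rw [Matrix.mulVec_mulVec, hFW, ← hWG, Matrix.mul_assoc Wᵀ W, ← Matrix.mulVec_mulVec z Wᵀ,
      Matrix.dotProduct_mulVec z Wᵀ, Matrix.vecMul_transpose]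
  have hsurj : ∀ y : Fin N → ℝ, W *ᵥ (W' *ᵥ y) = y := by
    intro y
    rw [Matrix.mulVec_mulVec, hWW, Matrix.one_mulVec]
  have hposF : ∀ a, star a = a → PosQ (F a) → a ∈ sos D := by
    intro a ha hpos
    by_contra hna
    have hcont : Continuous fun r : ℝ => F a - r • (1 : Matrix (Fin N) (Fin N) ℝ) := by fun_prop
    have hev : ∀ᶠ r in 𝓝 (0 : ℝ), PosQ (F a - r • (1 : Matrix (Fin N) (Fin N) ℝ)) :=
      hcont.continuousAt.eventually (posQ_eventually (by simpa using hpos))
    obtain ⟨ε, hε, hball⟩ := Metric.eventually_nhds_iff.mp hev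
    obtain ⟨δ, hδ1, hδ2⟩ := exists_rat_btwn hε
    have hδ0 : 0 < δ := by exact_mod_cast hδ1
    have hA : PosQ (F a - (δ : ℝ) • (1 : Matrix (Fin N) (Fin N) ℝ)) := by
      apply hball
      rw [Real.dist_eq, sub_zero, abs_of_pos hδ1]
      exact hδ2
    obtain ⟨f, hf, hlt⟩ := separation b ha hna hδ0
    obtain ⟨M, hM⟩ := hdom f hf
    have hGE : Gm b f * (1 - W' * W) = 0 := by
      apply Matrix.ext_of_mulVec_single
      intro i
      set y : Fin n → ℝ := (1 - W' * W) *ᵥ Pi.single i 1 with hy
      have h1 : Gm b f0 *ᵥ y = 0 := by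
        rw [hy, Matrix.mulVec_mulVec, hG0E, Matrix.zero_mulVec]
      have h2 : y ⬝ᵥ (Gm b f *ᵥ y) = 0 := by
        apply le_antisymm _ (gram_nonneg hf y)
        have h3 := gram_nonneg hM y
        have h4 : Gm b (M • f0 - f) = M • Gm b f0 - Gm b f := by
          ext i j
          simp only [Gm, phi_apply, LinearMap.sub_apply, LinearMap.smul_apply, smul_eq_mul, of_apply, smul_of, Matrix.sub_apply, Pi.smul_apply]
        rw [h4, Matrix.sub_mulVec, Matrix.smul_mulVec, h1, smul_zero, zero_sub,
          dotProduct_neg] at h3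
        linarith
      have h3 := ((Gm_posSemidef hf).dotProduct_mulVec_zero_iff y).mp (by simpa only [star_trivial] using h2)
      rw [← Matrix.mulVec_mulVec, ← hy, h3, Matrix.zero_mulVec]
    have hGE1 : Gm b f * (W' * W) = Gm b f := by
      rw [Matrix.mul_sub, Matrix.mul_one, sub_eq_zero] at hGE
      exact hGE.symm
    have hGE2 : (W' * W)ᵀ * Gm b f = Gm b f := by
      have := congrArg Matrix.transpose hGE1
      rwa [Matrix.transpose_mul, Gm_symm hf] at this
    set T : Matrix (Fin N) (Fin N) ℝ := W'ᵀ * Gm b f * W' with hT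
    have hTs : Tᵀ = T := by
      rw [hT, Matrix.transpose_mul, Matrix.transpose_mul, Matrix.transpose_transpose, Gm_symm hf,
        Matrix.mul_assoc]
    have hTn : ∀ y : Fin N → ℝ, 0 ≤ y ⬝ᵥ (T *ᵥ y) := by
      intro y
      have := gram_nonneg hf (W' *ᵥ y)
      rw [hT, Matrix.mul_assoc, ← Matrix.mulVec_mulVec, ← Matrix.mulVec_mulVec,
        Matrix.dotProduct_mulVec, Matrix.vecMul_transpose]
      exact this
    have hFs : (F a)ᵀ = F a := by rw [← hstar, ha]
    have hTF : T * F a = F a * T := by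
      have e1 : T * F a = W'ᵀ * (Gm b f * LL b a) * W' := by
        change W'ᵀ * Gm b f * W' * (W * LL b a * W') = _
        calc W'ᵀ * Gm b f * W' * (W * LL b a * W')
            = W'ᵀ * (Gm b f * (W' * W)) * LL b a * W' := by simp only [Matrix.mul_assoc]
          _ = W'ᵀ * (Gm b f * LL b a) * W' := by rw [hGE1]; simp only [Matrix.mul_assoc]
      have e2 : F a * T = W'ᵀ * ((LL b a)ᵀ * Gm b f) * W' := by
        rw [← hFs]
        change (W * LL b a * W')ᵀ * (W'ᵀ * Gm b f * W') = _
        calc (W * LL b a * W')ᵀ * (W'ᵀ * Gm b f * W')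
            = W'ᵀ * (LL b a)ᵀ * ((W' * W)ᵀ * Gm b f) * W' := by
              simp only [Matrix.transpose_mul, Matrix.mul_assoc]
          _ = W'ᵀ * ((LL b a)ᵀ * Gm b f) * W' := by rw [hGE2]; simp only [Matrix.mul_assoc]
      have h1 := intertwine b f a
      rw [ha] at h1
      rw [e1, e2, h1]
    have hval2 : ∀ x : D, (W *ᵥ cvec b 1) ⬝ᵥ ((T * F x) *ᵥ (W *ᵥ cvec b 1)) = phi b f x := by
      intro x
      have e1 : Wᵀ * (T * F x) * W = Gm b f * LL b x := by
        calc Wᵀ * (T * F x) * W = Wᵀ * T * (F x * W) := by simp only [Matrix.mul_assoc]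
          _ = (W' * W)ᵀ * Gm b f * (W' * W) * LL b x := by
              rw [hFW, hT]
              simp only [Matrix.transpose_mul, Matrix.mul_assoc]
          _ = Gm b f * LL b x := by rw [hGE2, hGE1]
      have e2 := gram_cvec b f 1 x
      rw [star_one, one_mul] at e2
      rw [← e2, Matrix.mulVec_mulVec]
      have e3 : (W *ᵥ cvec b 1) ⬝ᵥ ((T * F x * W) *ᵥ cvec b 1) =
          cvec b 1 ⬝ᵥ ((Wᵀ * (T * F x) * W) *ᵥ cvec b 1) := by
        rw [Matrix.mul_assoc Wᵀ, ← Matrix.mulVec_mulVec _ Wᵀ, Matrix.dotProduct_mulVec _ Wᵀ,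
          Matrix.vecMul_transpose]
      rw [e3, e1, ← Matrix.mulVec_mulVec, LL_cvec, mul_one]
    have hfin := commuting_pos hA (by
      rw [Matrix.transpose_sub, hFs, Matrix.transpose_smul, Matrix.transpose_one]) hTs hTn (by
      rw [Matrix.mul_sub, Matrix.sub_mul, hTF, Matrix.mul_smul, Matrix.smul_mul, Matrix.mul_one,
        Matrix.one_mul]) (W *ᵥ cvec b 1)
    have e4 : T * (F a - (δ : ℝ) • (1 : Matrix (Fin N) (Fin N) ℝ)) =
        T * F a - (δ : ℝ) • (T * F 1) := by
      rw [map_one, Matrix.mul_sub, Matrix.mul_smul, Matrix.mul_one]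
    rw [e4, Matrix.sub_mulVec, Matrix.smul_mulVec, dotProduct_sub, dotProduct_smul, hval2, hval2,
      phi_apply, phi_apply, smul_eq_mul] at hfin
    linarith
  refine ⟨N, ⟨⟨F, hstar, ?_, ?_⟩⟩⟩
  · intro a ha hpos
    refine ⟨hposF a ha hpos, ?_⟩
    rintro rfl
    have h1 : PosQ (F (-1)) := by
      intro y hy
      have := hpos y hy
      rw [map_zero, Matrix.zero_mulVec, dotProduct_zero] at this
      exact absurd this (lt_irrefl _)
    have h2 := hposF (-1) (by simp only [star_neg, star_one]) h1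
    exact one_ne_zero (sos_antisymm (sos_one (D := D)) h2)
  · intro a ha ha0 y hy
    obtain ⟨q, hq, h1⟩ := arch (a := (1 : D)) (by simp) ha ha0
    have h2 := gram_LL_nonneg hf0 h1 (W' *ᵥ y)
    rw [← hval, hsurj, map_sub, map_one, Matrix.sub_mulVec, dotProduct_sub, Matrix.one_mulVec] at h2
    have h3 : F ((q : D) * a) = (q : ℝ) • F a := by
      rw [← Rat.smul_def, map_rat_smul F q a, Rat.cast_smul_eq_qsmul]
    rw [h3, Matrix.smul_mulVec, dotProduct_smul, smul_eq_mul] at h2
    have h4 : 0 < y ⬝ᵥ y := dot_self_pos hy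
    have h5 : (0 : ℝ) < q := by exact_mod_cast hq
    by_contra hcon
    have : (q : ℝ) * (y ⬝ᵥ (F a *ᵥ y)) ≤ 0 :=
      mul_nonpos_of_nonneg_of_nonpos h5.le (not_lt.mp hcon)
    linarith only [h2, h4, this]

end Vale.Agent.P011S

end

section
/-!
Normal subgroups of the special unitary group of an anisotropic form: final assembly.
-/

set_option linter.unusedSectionVars false
set_option linter.unusedSimpArgs false

open Matrix Module
open scoped commutatorElement

namespace Vale.Agent.P011S

section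

variable {D : Type} [DivisionRing D] [StarRing D] {m : ℕ}

theorem IsTwoUniversal.of_room {H : Matrix (Fin m) (Fin m) D} (hR : Room H 3) :
    IsTwoUniversal H := by
  intro y z n s
  obtain ⟨x, hx1, hx2⟩ := hR (Fin 2) (Fin 1) (by simp) (Matrix.of fun t k => (![y, z] k) t)
    ((Matrix.of fun k (_ : Fin 1) => s k)ᴴ * Matrix.of fun k (_ : Fin 1) => s k) (PSD.of _)
  refine ⟨fun t => x t 0, ?_, ?_, ?_⟩
  · have h1 := congrFun (congrFun hx1 0) 0
    rw [gram_entry, Matrix.mul_apply] at h1
    simpa only [Fin.isValue, conjTranspose_apply, of_apply] using h1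
  · have h1 := congrFun (congrFun hx2 0) 0
    rw [gram_entry] at h1
    simpa only [Fin.isValue, Nat.succ_eq_add_one, Nat.reduceAdd, cons_val', cons_val_fin_one, of_apply,     cons_val_zero, Matrix.zero_apply] using h1
  · have h1 := congrFun (congrFun hx2 1) 0
    rw [gram_entry] at h1
    simpa only [Fin.isValue, Nat.succ_eq_add_one, Nat.reduceAdd, cons_val', cons_val_fin_one, of_apply,     cons_val_one, Matrix.zero_apply] using h1

theorem IsTwoUniversal.twoRoom [FormPos D] [CharZero D] [FiniteDimensional ℚ D]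
    {H : Matrix (Fin m) (Fin m) D} (hU : IsTwoUniversal H) : TwoRoom H := by
  intro Y s hs
  obtain ⟨n, t, ht⟩ := HSq_of_sos hs
  obtain ⟨x, h1, h2, h3⟩ := hU (fun a => Y a 0) (fun a => Y a 1) n t
  refine ⟨Matrix.of fun a _ => x a, ?_, ?_⟩
  · rw [gram_entry, ht]
    exact h1
  · ext i j
    rw [gram_entry]
    fin_cases i
    · exact h2
    · exact h3

end

variable {p : ℕ} {K D F : Type} [Field K] [NumberField K] [StarRing K]
  [DivisionRing D] [StarRing D] [CharZero D] [Algebra K D] [StarModule K D]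
  [FiniteDimensional K D] [Field F] [Algebra K F]

theorem IsFormallyPositive.formPos (h : IsFormallyPositive D) : FormPos D :=
  ⟨fun n x hx => h n x hx⟩

/-- Normal subgroups of the special unitary group of an anisotropic form in any degree. -/
theorem normal_anis (hK : ∃ k : K, star k ≠ k) (hpos : IsFormallyPositive D)
    (f : D →ₐ[K] Matrix (Fin p) (Fin p) F) {m : ℕ} (H : Matrix (Fin m) (Fin m) D)
    (hH : IsAnisotropicForm H)
    (hM : HasOrthonormal H (12 * Module.finrank ℚ D) ∨ IsTwoUniversal H)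
    (N : Subgroup (SU f H)) [hN : N.Normal] :
    N ≤ Subgroup.center (SU f H) ∨
      (ContainsCommutators f H N ∧ IsQuotientOfSUK f (SU f H ⧸ N)) := by
  have : FiniteDimensional ℚ D := FiniteDimensional.trans ℚ K D
  have : FormPos D := hpos.formPos
  have hA : An H := hH.an
  have hU : IsTwoUniversal H := by
    rcases hM with ⟨M, e, hM, he⟩ | h
    · apply IsTwoUniversal.of_room
      apply room_of_frame hA.herm e he
      calc 4 * (3 * Module.finrank ℚ D) = 12 * Module.finrank ℚ D := by ring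
        _ ≤ M := hM
    · exact h
  have hR : Room H 2 := hU.room hA.herm
  obtain ⟨N0, ⟨ρ⟩⟩ := exists_iota (D := D)
  obtain ⟨θ, hθ0, hθ, hθs⟩ : ∃ θ : D, θ ≠ 0 ∧ (∀ x, x * θ = θ * x) ∧ star θ = -θ := by
    obtain ⟨k, hk⟩ := hK
    refine ⟨algebraMap K D (k - star k), ?_, ?_, ?_⟩
    · rw [Ne, map_eq_zero]
      exact sub_ne_zero.mpr (Ne.symm hk)
    · intro x
      exact (Algebra.commutes _ x).symm
    · rw [← algebraMap_star_comm, star_sub, star_star, ← map_neg, neg_sub]
  have hgen : Subgroup.closure (qrPosSet H hA.herm) = ⊤ :=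
    closure_qrPos hA hR le_rfl ρ hθs hθ0 hθ
  refine normal_any_of hK ρ f H hH hR ?_ N
  rintro N' hN' σ hσ ⟨x, hx⟩
  exact partI hA hU.twoRoom hgen hθs hθ0 hθ hN' hσ hx

end Vale.Agent.P011S

end
end

section

section
/-!
Reduced characteristic polynomials and the involution; the reduced unitary Whitehead group in
odd prime degree.
-/

set_option linter.unusedSectionVars false
set_option linter.unusedSimpArgs false

open Module Matrix Polynomial

namespace Vale.Agent.P011S

variable {p : ℕ} {K D F : Type} [Field K] [CharZero K] [FiniteDimensional ℚ K] [StarRing K]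
  [DivisionRing D] [CharZero D] [StarRing D] [FiniteDimensional ℚ D] [Algebra K D]
  [FiniteDimensional K D] [StarModule K D] [Algebra.IsCentral K D] [Field F] [Algebra K F]

omit [CharZero K] [FiniteDimensional ℚ K] [CharZero D] [FiniteDimensional ℚ D]
  [FiniteDimensional K D] [Algebra.IsCentral K D] in
theorem aeval_star (g : K[X]) (x : D) :
    aeval (star x) (g.map (starRingEnd K)) = star (aeval x g) := by
  induction g using Polynomial.induction_on' with
  | add p q hp hq => rw [Polynomial.map_add, map_add, map_add, star_add, hp, hq]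
  | monomial n a =>
    rw [Polynomial.map_monomial, aeval_monomial, aeval_monomial, star_mul, star_pow,
      starRingEnd_apply, algebraMap_star_comm, ← star_pow]
    rw [← algebraMap_star_comm]
    exact Algebra.commutes (R := K) (A := D) (star a) _

theorem minpoly_star (x : D) : minpoly K (star x) = (minpoly K x).map (starRingEnd K) := by
  have hint : IsIntegral K x := IsIntegral.of_finite K x
  symm
  apply minpoly.eq_of_irreducible_of_monic
  · have h1 := minpoly.irreducible hint
    let e : K[X] ≃+* K[X] := Polynomial.mapEquiv (starRingAut (R := K))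
    have h2 : e (minpoly K x) = (minpoly K x).map (starRingEnd K) := rfl
    rw [← h2]
    exact (MulEquiv.irreducible_iff (e : K[X] ≃* K[X])).mpr h1
  · rw [aeval_star, minpoly.aeval, star_zero]
  · exact (minpoly.monic hint).map _

/-- the characteristic polynomial of a noncentral element in a splitting -/
theorem charpoly_noncentral (hp : p.Prime) (hD : finrank K D = p ^ 2)
    (f : D →ₐ[K] Matrix (Fin p) (Fin p) F) {u : D} (hu : u ∉ Set.range (algebraMap K D)) :
    (minpoly K u).natDegree = p ∧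
      (f u).charpoly = (minpoly K u).map (algebraMap K F) := by
  obtain ⟨L, _, _, _, j, w, x, hdeg, hadj, hjx, hC, hxw⟩ := exists_subfield (K := K) hp hD u
  have hw := hxw hu
  subst hw
  have hx : IsIntegral K x := IsIntegral.of_finite K x
  have h1 : (minpoly K x).natDegree = p := by
    rw [← hdeg]
    have h2 : IntermediateField.adjoin K {x} = ⊤ := by
      rw [← IntermediateField.toSubalgebra_injective.eq_iff,
        IntermediateField.adjoin_simple_toSubalgebra_of_isAlgebraic hx.isAlgebraic, hadj]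
      rfl
    rw [← IntermediateField.adjoin.finrank hx, h2, IntermediateField.finrank_top']
  have h2 : minpoly K u = minpoly K x := by
    rw [← hjx]
    exact minpoly.algHom_eq j j.toRingHom.injective x
  rw [h2]
  refine ⟨h1, ?_⟩
  rw [← hjx]
  have hli := linearIndependent_pow (K := K) x
  rw [h1] at hli
  apply SF.charpoly_unique
  · have e1 : LinearIndependent K (fun i : Fin p => j (x ^ (i : ℕ))) :=
      hli.map' j.toLinearMap (LinearMap.ker_eq_bot.mpr j.toRingHom.injective)
    have e2 := SF.split_indep hp.pos f _ e1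
    convert e2 using 2 with i
    rw [map_pow, map_pow]
  · exact (minpoly.monic hx).map _
  · rw [Polynomial.natDegree_map, h1]
  · rw [Polynomial.aeval_map_algebraMap]
    have : Polynomial.aeval (f (j x)) (minpoly K x) =
        f (j (Polynomial.aeval x (minpoly K x))) := by
      rw [← Polynomial.aeval_algHom_apply, ← Polynomial.aeval_algHom_apply]
    rw [this, minpoly.aeval, map_zero, map_zero]

theorem charpoly_split (hp : p.Prime) (hD : finrank K D = p ^ 2)
    (f : D →ₐ[K] Matrix (Fin p) (Fin p) F) (u : D) :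
    ∃ g : K[X], (f u).charpoly = g.map (algebraMap K F) ∧
      (f (star u)).charpoly = (g.map (starRingEnd K)).map (algebraMap K F) := by
  by_cases hu : u ∈ Set.range (algebraMap K D)
  · obtain ⟨k, rfl⟩ := hu
    have key : ∀ k : K, (f (algebraMap K D k)).charpoly =
        ((X - C k) ^ p).map (algebraMap K F) := by
      intro k
      rw [AlgHom.commutes, Matrix.algebraMap_eq_diagonal, Matrix.charpoly_diagonal]
      simp only [Pi.algebraMap_apply, Finset.prod_const, Finset.card_univ, Fintype.card_fin, Polynomial.map_pow, Polynomial.map_sub, map_X, map_C]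
    refine ⟨(X - C k) ^ p, key k, ?_⟩
    rw [← algebraMap_star_comm, key]
    congr 1
    simp only [Polynomial.map_pow, Polynomial.map_sub, map_X, map_C, starRingEnd_apply]
  · have hu' : star u ∉ Set.range (algebraMap K D) := by
      rintro ⟨k, hk⟩
      apply hu
      refine ⟨star k, ?_⟩
      rw [algebraMap_star_comm, hk, star_star]
    refine ⟨minpoly K u, (charpoly_noncentral hp hD f hu).2, ?_⟩
    rw [(charpoly_noncentral hp hD f hu').2, minpoly_star]

theorem det_split (hp : p.Prime) (hD : finrank K D = p ^ 2)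
    (f : D →ₐ[K] Matrix (Fin p) (Fin p) F) (u : D) :
    ∃ t : K, (f u).det = algebraMap K F t ∧ (f (star u)).det = algebraMap K F (star t) := by
  obtain ⟨g, h1, h2⟩ := charpoly_split hp hD f u
  refine ⟨(-1) ^ p * g.coeff 0, ?_, ?_⟩
  · rw [Matrix.det_eq_sign_charpoly_coeff, h1, Polynomial.coeff_map]
    simp only [Fintype.card_fin, map_mul, map_pow, map_neg, map_one]
  · rw [Matrix.det_eq_sign_charpoly_coeff, h2, Polynomial.coeff_map, Polynomial.coeff_map]
    simp only [Fintype.card_fin, starRingEnd_apply, star_mul', star_pow, star_neg, star_one, map_mul, map_pow, map_neg, map_one]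

theorem trace_split (hp : p.Prime) (hD : finrank K D = p ^ 2)
    (f : D →ₐ[K] Matrix (Fin p) (Fin p) F) (u : D) :
    ∃ t : K, (f u).trace = algebraMap K F t ∧ (f (star u)).trace = algebraMap K F (star t) := by
  have : Nonempty (Fin p) := ⟨⟨0, hp.pos⟩⟩
  obtain ⟨g, h1, h2⟩ := charpoly_split hp hD f u
  refine ⟨-g.coeff (p - 1), ?_, ?_⟩
  · rw [Matrix.trace_eq_neg_charpoly_coeff, h1, Polynomial.coeff_map]
    simp only [Fintype.card_fin, map_neg]
  · rw [Matrix.trace_eq_neg_charpoly_coeff, h2, Polynomial.coeff_map, Polynomial.coeff_map]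
    simp only [Fintype.card_fin, starRingEnd_apply, star_neg, map_neg]

section odd

variable {A : Type} [CommGroup A] (F0 : D → A)
  (hmul : ∀ a b : D, a ≠ 0 → b ≠ 0 → F0 (a * b) = F0 a * F0 b)
  (hsym : ∀ s : D, s ≠ 0 → star s = s → F0 s = 1)

include hmul hsym

end odd

end Vale.Agent.P011S

end

section
/-!
The reduced unitary Whitehead group of a quaternion algebra.
-/

set_option linter.unusedSectionVars false
set_option linter.unusedSimpArgs false

open Module Matrix Polynomial

namespace Vale.Agent.P011S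

variable {K D F : Type} [Field K] [CharZero K] [FiniteDimensional ℚ K] [StarRing K]
  [DivisionRing D] [CharZero D] [StarRing D] [FiniteDimensional ℚ D] [Algebra K D]
  [FiniteDimensional K D] [StarModule K D] [Algebra.IsCentral K D] [Field F] [Algebra K F]

/-- the canonical involution of a quaternion algebra -/
theorem exists_conj (hD : finrank K D = 2 ^ 2) (f : D →ₐ[K] Matrix (Fin 2) (Fin 2) F) :
    ∃ σ : D → D, (∀ x y, σ (x + y) = σ x + σ y) ∧ (∀ x y, σ (x * y) = σ y * σ x) ∧
      (∀ x, σ (σ x) = x) ∧ (∀ k : K, σ (algebraMap K D k) = algebraMap K D k) ∧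
      (∀ x, ∃ k : K, x * σ x = algebraMap K D k) ∧
      (∀ x y, σ (x * y - y * x) = -(x * y - y * x)) ∧ (∀ x, σ (star x) = star (σ x)) ∧
      (∀ x, f (σ x) = (f x).adjugate) := by
  have hf : Function.Injective f := f.toRingHom.injective
  choose tr htr htrs using trace_split (K := K) (D := D) (F := F) Nat.prime_two hD f
  have hadj : ∀ x : D, f (algebraMap K D (tr x) - x) = (f x).adjugate := by
    intro x
    rw [map_sub, AlgHom.commutes, Matrix.algebraMap_eq_diagonal]
    have h1 := htr x
    rw [Matrix.trace_fin_two] at h1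
    ext i j
    rw [Matrix.adjugate_fin_two]
    fin_cases i <;> fin_cases j
    · simp [← h1]
    · simp only [Fin.zero_eta, Fin.isValue, Fin.mk_one, Matrix.sub_apply, ne_eq, zero_ne_one, not_false_eq_true, diagonal_apply_ne, zero_sub, of_apply, cons_val', cons_val_one, cons_val_fin_one, cons_val_zero]
    · simp only [Fin.mk_one, Fin.isValue, Fin.zero_eta, Matrix.sub_apply, ne_eq, one_ne_zero, not_false_eq_true, diagonal_apply_ne, zero_sub, of_apply, cons_val', cons_val_zero, cons_val_fin_one, cons_val_one]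
    · simp [← h1]
  refine ⟨fun x => algebraMap K D (tr x) - x, ?_, ?_, ?_, ?_, ?_, ?_, ?_, hadj⟩
  · intro x y
    apply hf
    change f (algebraMap K D (tr (x + y)) - (x + y)) =
      f ((algebraMap K D (tr x) - x) + (algebraMap K D (tr y) - y))
    rw [hadj, map_add, map_add f (algebraMap K D (tr x) - x), hadj, hadj]
    ext i j
    rw [Matrix.add_apply, Matrix.adjugate_fin_two, Matrix.adjugate_fin_two,
      Matrix.adjugate_fin_two]
    fin_cases i <;> fin_cases j <;> simp [add_comm]
  · intro x y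
    apply hf
    change f (algebraMap K D (tr (x * y)) - (x * y)) =
      f ((algebraMap K D (tr y) - y) * (algebraMap K D (tr x) - x))
    rw [hadj, map_mul, map_mul f (algebraMap K D (tr y) - y), hadj, hadj,
      Matrix.adjugate_mul_distrib]
  · intro x
    apply hf
    rw [hadj, hadj, Matrix.adjugate_adjugate _ (by simp)]
    simp only [Fintype.card_fin, tsub_self, pow_zero, one_smul]
  · intro k
    apply hf
    rw [hadj, AlgHom.commutes, Matrix.algebraMap_eq_diagonal, Matrix.adjugate_fin_two]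
    ext i j
    fin_cases i <;> fin_cases j <;> simp
  · intro x
    obtain ⟨t, ht, -⟩ := det_split (K := K) (D := D) (F := F) Nat.prime_two hD f x
    refine ⟨t, ?_⟩
    apply hf
    rw [map_mul, hadj, Matrix.mul_adjugate, ht, AlgHom.commutes, Algebra.algebraMap_eq_smul_one,
      Algebra.algebraMap_eq_smul_one, smul_assoc, one_smul]
  · intro x y
    apply hf
    rw [hadj, map_neg, map_sub, map_mul, map_mul]
    have h1 : (f x * f y - f y * f x).trace = 0 := by
      rw [Matrix.trace_sub, Matrix.trace_mul_comm, sub_self]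
    generalize f x * f y - f y * f x = M at h1
    rw [Matrix.trace_fin_two] at h1
    rw [Matrix.adjugate_fin_two]
    ext i j
    fin_cases i <;> fin_cases j
    · simpa using eq_neg_of_add_eq_zero_right h1
    · simp
    · simp
    · simpa using eq_neg_of_add_eq_zero_left h1
  · intro x
    have h1 : tr (star x) = star (tr x) := (algebraMap K F).injective (by rw [← htr, htrs])
    change algebraMap K D (tr (star x)) - star x = star (algebraMap K D (tr x) - x)
    rw [star_sub, ← algebraMap_star_comm, h1]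

section main

variable {A : Type} [CommGroup A] (F0 : D → A)
  (hmul : ∀ a b : D, a ≠ 0 → b ≠ 0 → F0 (a * b) = F0 a * F0 b)
  (hsym : ∀ s : D, s ≠ 0 → star s = s → F0 s = 1)

include hmul hsym

/-- the reduced unitary Whitehead group of a quaternion algebra is trivial -/
theorem suk_two (hD : finrank K D = 2 ^ 2) (hne : ∃ k : K, star k ≠ k)
    (f : D →ₐ[K] Matrix (Fin 2) (Fin 2) F) {Z : D} (hZ : Z ≠ 0)
    (h : (f (star Z)).det = (f Z).det) : F0 Z = 1 := by
  have hf : Function.Injective f := f.toRingHom.injective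
  obtain ⟨σ, hσa, hσm, hσσ, hσk, hσn, hσc, hσs, hσf⟩ := exists_conj hD f
  have h2 : (2 : D) ≠ 0 := two_ne_zero
  have hσ0 : σ 0 = 0 := by
    have := hσk 0
    rwa [map_zero] at this
  have hσneg : ∀ x, σ (-x) = -σ x := by
    intro x
    have h1 := hσa x (-x)
    rw [add_neg_cancel, hσ0] at h1
    exact (neg_eq_of_add_eq_zero_right h1.symm).symm
  have hσsub : ∀ x y, σ (x - y) = σ x - σ y := by
    intro x y
    rw [sub_eq_add_neg, hσa, hσneg, sub_eq_add_neg]
  have hσne : ∀ x, x ≠ 0 → σ x ≠ 0 := by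
    intro x hx h0
    apply hx
    rw [← hσσ x, h0, hσ0]
  have hcen : ∀ (k : K) (d : D), algebraMap K D k * d = d * algebraMap K D k :=
    fun k d => Algebra.commutes k d
  have hσn' : ∀ x, σ x * x = x * σ x := by
    intro x
    by_cases hx : x = 0
    · rw [hx, hσ0]
    · obtain ⟨k, hk⟩ := hσn x
      apply mul_left_cancel₀ hx
      rw [← mul_assoc, hk, hcen]
  -- the skew central element
  obtain ⟨k0, hk0⟩ := hne
  obtain ⟨η, hη⟩ : ∃ η : K, η = k0 - star k0 := ⟨_, rfl⟩
  have hηs : star η = -η := by rw [hη, star_sub, star_star, neg_sub]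
  have hη0 : η ≠ 0 := by rw [hη]; exact sub_ne_zero.mpr (Ne.symm hk0)
  obtain ⟨θ, hθd⟩ : ∃ θ : D, θ = algebraMap K D η := ⟨_, rfl⟩
  have hθ0 : θ ≠ 0 := by rw [hθd, Ne, map_eq_zero]; exact hη0
  have hθc : ∀ x, x * θ = θ * x := fun x => by rw [hθd, hcen]
  have hθs : star θ = -θ := by rw [hθd, ← algebraMap_star_comm, hηs, map_neg]
  have hσθ : ∀ x, σ (θ * x) = θ * σ x := by
    intro x
    rw [hσm, hθd, hσk, hcen]
  have hθi : ∀ x, x * θ⁻¹ = θ⁻¹ * x := by
    intro x
    have hc : Commute x θ := hθc x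
    exact hc.inv_right₀.eq
  have hσθi : ∀ x, σ (θ⁻¹ * x) = θ⁻¹ * σ x := by
    intro x
    have h1 := hσθ (θ⁻¹ * x)
    rw [mul_inv_cancel_left₀ hθ0] at h1
    rw [h1, inv_mul_cancel_left₀ hθ0]
  have hθis : star (θ⁻¹) = -θ⁻¹ := by rw [star_inv₀, hθs, inv_neg]
  -- decomposition
  have hdec : ∀ d : D, ∃ a c : D, star a = σ a ∧ star c = σ c ∧ 2 * d = a + θ * c := by
    intro d
    refine ⟨d + σ (star d), θ⁻¹ * (d - σ (star d)), ?_, ?_, ?_⟩
    · rw [star_add, hσa, hσσ, ← hσs, star_star, add_comm]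
    · rw [star_mul, star_sub, ← hσs, star_star, hθis, hσθi, hσsub, hσσ, mul_neg, hθi, ← mul_neg,
        neg_sub]
    · rw [mul_inv_cancel_left₀ hθ0, two_mul]; abel
  -- elements of `D₀` not commuting with a given noncentral element
  have hnc : ∀ b : D, b ∉ Set.range (algebraMap K D) → ∃ y : D, star y = σ y ∧ b * y ≠ y * b := by
    intro b hb
    by_contra hcon
    push Not at hcon
    apply hb
    apply SF.mem_range_of_central
    intro d
    obtain ⟨a, c, ha, hc, hac⟩ := hdec d
    apply mul_left_cancel₀ h2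
    have h2b : (2 : D) * b = b * 2 := (Nat.cast_commute 2 b).eq
    rw [← mul_assoc, h2b, mul_assoc, hac, mul_add, hcon a ha, ← mul_assoc b θ, hθc b, mul_assoc,
      hcon c hc, ← mul_assoc, ← add_mul, ← hac, mul_assoc]
  have hpure : ∀ b y : D, star b = σ b → star y = σ y →
      star (b * y - y * b) = -(b * y - y * b) := by
    intro b y hb hy
    rw [← hσc, star_sub, star_mul, star_mul, hb, hy, hσsub, hσm, hσm]
  -- pure elements
  have hP : ∀ x : D, x ≠ 0 → star x = -x → F0 θ * F0 x = 1 := by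
    intro x hx hxs
    rw [← hmul _ _ hθ0 hx]
    exact hsym _ (mul_ne_zero hθ0 hx) (by rw [star_mul, hxs, hθs, neg_mul_neg, hθc])
  -- the class of `θ`
  have hθ1 : F0 θ = 1 := by
    obtain ⟨i, hi0, his, hiσ⟩ : ∃ i : D, i ≠ 0 ∧ star i = -i ∧ σ i = -i := by
      obtain ⟨b, hb, hbs⟩ : ∃ b : D, b ∉ Set.range (algebraMap K D) ∧ star b = σ b := by
        by_contra hcon
        push Not at hcon
        obtain ⟨d, hd⟩ := exists_noncentral (K := K) (D := D) Nat.prime_two hD
        obtain ⟨a, c, ha, hc, hac⟩ := hdec d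
        have h3 : a ∈ Set.range (algebraMap K D) := by
          by_contra h4; exact hcon a h4 ha
        have h4 : c ∈ Set.range (algebraMap K D) := by
          by_contra h4; exact hcon c h4 hc
        obtain ⟨k1, hk1⟩ := h3
        obtain ⟨k2, hk2⟩ := h4
        apply hd
        refine ⟨2⁻¹ * (k1 + η * k2), ?_⟩
        rw [map_mul, map_add, map_mul, hk1, hk2, ← hθd, ← hac, map_inv₀, map_ofNat,
          inv_mul_cancel_left₀ h2]
      obtain ⟨y, hy, hby⟩ := hnc b hb
      exact ⟨b * y - y * b, sub_ne_zero.mpr hby, hpure b y hbs hy, hσc b y⟩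
    have hinc : i ∉ Set.range (algebraMap K D) := by
      rintro ⟨k, rfl⟩
      rw [hσk] at hiσ
      have h3 : (2 : D) * algebraMap K D k = 0 := by
        rw [two_mul]
        nth_rewrite 1 [hiσ]
        rw [neg_add_cancel]
      exact hi0 ((mul_eq_zero.mp h3).resolve_left h2)
    obtain ⟨y, hy, hiy⟩ := hnc i hinc
    have hisσ : star i = σ i := by rw [his, hiσ]
    obtain ⟨j, hj⟩ : ∃ j, j = i * y - y * i := ⟨_, rfl⟩
    have hj0 : j ≠ 0 := by rw [hj]; exact sub_ne_zero.mpr hiy
    have hjs : star j = -j := by rw [hj]; exact hpure i y hisσ hy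
    have hii : ∃ k : K, i * i = algebraMap K D k := by
      obtain ⟨k, hk⟩ := hσn i
      refine ⟨-k, ?_⟩
      rw [hiσ, mul_neg] at hk
      rw [map_neg, ← hk, neg_neg]
    have hanti : i * j = -(j * i) := by
      obtain ⟨k, hk⟩ := hii
      rw [hj, mul_sub, sub_mul, ← mul_assoc, ← mul_assoc, mul_assoc y i i, hk, hcen k y]
      abel
    have h3 := hP i hi0 his
    have h4 := hP j hj0 hjs
    have h5 := hP (i * j) (mul_ne_zero hi0 hj0) (by
      rw [star_mul, his, hjs, neg_mul_neg, hanti, neg_neg])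
    rw [hmul _ _ hi0 hj0] at h5
    have h6 : F0 i = (F0 θ)⁻¹ := eq_inv_of_mul_eq_one_right h3
    have h7 : F0 j = (F0 θ)⁻¹ := eq_inv_of_mul_eq_one_right h4
    rw [h6, h7, mul_inv_cancel_left, inv_eq_one] at h5
    exact h5
  have hP' : ∀ x : D, x ≠ 0 → star x = -x → F0 x = 1 := by
    intro x hx hxs
    have := hP x hx hxs
    rwa [hθ1, one_mul] at this
  -- elements of `D₀`
  have hD0 : ∀ b : D, b ≠ 0 → star b = σ b → F0 b = 1 := by
    intro b hb0 hb
    by_cases hbc : b ∈ Set.range (algebraMap K D)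
    · obtain ⟨k, rfl⟩ := hbc
      exact hsym _ hb0 (by rw [hb, hσk])
    · obtain ⟨y, hy, hby⟩ := hnc b hbc
      have hx0 : b * y - y * b ≠ 0 := sub_ne_zero.mpr hby
      have h3 := hP' _ hx0 (hpure b y hb hy)
      have h4 : b * (b * y - y * b) = b * (b * y) - (b * y) * b := by
        rw [mul_sub, mul_assoc]
      have hbys : star (b * y) = σ (b * y) := by rw [star_mul, hσm, hb, hy]
      have h5 := hP' _ (mul_ne_zero hb0 hx0) (by rw [h4]; exact hpure b (b * y) hb hbys)
      rw [hmul _ _ hb0 hx0, h3, mul_one] at h5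
      exact h5
  -- the main computation
  obtain ⟨a, c, ha, hc, hac⟩ := hdec Z
  have h2Z : (2 : D) * Z ≠ 0 := mul_ne_zero h2 hZ
  have hF2 : F0 (2 * Z) = F0 Z := by
    rw [hmul _ _ h2 hZ, hsym 2 h2 (by simp), one_mul]
  rw [← hF2, hac]
  rw [hac] at h2Z
  by_cases hc0 : c = 0
  · rw [hc0, mul_zero, add_zero] at h2Z ⊢
    exact hD0 a h2Z ha
  -- the norm is symmetric
  have hnorm : star ((a + θ * c) * σ (a + θ * c)) = (a + θ * c) * σ (a + θ * c) := by
    rw [← hac]
    apply hf
    have e1 : ∀ x : D, f (x * σ x) = (f x).det • (1 : Matrix (Fin 2) (Fin 2) F) := by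
      intro x
      rw [map_mul, hσf, Matrix.mul_adjugate]
    have e2 : star (2 * Z * σ (2 * Z)) = star (2 * Z) * σ (star (2 * Z)) := by
      rw [star_mul, ← hσs, hσn']
    rw [e2, e1, e1]
    congr 1
    have e3 : star (2 * Z) = 2 * star Z := by
      rw [star_mul, star_ofNat]
      exact (Nat.cast_commute 2 (star Z)).eq.symm
    rw [e3, map_mul, map_mul, Matrix.det_mul, Matrix.det_mul, h]
  have hσa' : star (σ a) = a := by rw [← hσs, ha, hσσ]
  have hσc' : star (σ c) = c := by rw [← hσs, hc, hσσ]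
  have hrel : a * σ c + c * σ a = 0 := by
    have e1 : (a + θ * c) * σ (a + θ * c) =
        a * σ a + θ * θ * (c * σ c) + θ * (a * σ c + c * σ a) := by
      have f1 : a * (θ * σ c) = θ * (a * σ c) := by rw [← mul_assoc, hθc a, mul_assoc]
      have f2 : θ * c * (θ * σ c) = θ * θ * (c * σ c) := by
        rw [mul_assoc θ c, ← mul_assoc c θ, hθc c]
        simp only [mul_assoc]
      rw [hσa, hσθ, add_mul, mul_add, mul_add, f1, f2, mul_add, mul_assoc θ c]
      abel
    have e2 : star (a * σ a) = a * σ a := by rw [star_mul, hσa', ha]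
    have e3 : star (c * σ c) = c * σ c := by rw [star_mul, hσc', hc]
    have e4 : star (a * σ c + c * σ a) = a * σ c + c * σ a := by
      rw [star_add, star_mul, star_mul, hσa', hσc', ha, hc, add_comm]
    have e5 : star (θ * θ * (c * σ c)) = θ * θ * (c * σ c) := by
      rw [star_mul, e3, star_mul, hθs, neg_mul_neg, ← mul_assoc, hθc (c * σ c), hθc (θ * (c * σ c)),
        mul_assoc θ θ]
    rw [e1, star_add, star_add, e2, e5, star_mul, e4, hθs, mul_neg,
      hθc (a * σ c + c * σ a)] at hnorm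
    have e6 : θ * (a * σ c + c * σ a) = -(θ * (a * σ c + c * σ a)) :=
      (add_left_cancel hnorm).symm
    have e7 : (2 : D) * (θ * (a * σ c + c * σ a)) = 0 := by
      rw [two_mul]
      nth_rewrite 1 [e6]
      rw [neg_add_cancel]
    exact ((mul_eq_zero.mp e7).resolve_left h2 |> fun h => (mul_eq_zero.mp h).resolve_left hθ0)
  have hrel2 : σ c * a + σ a * c = 0 := by
    obtain ⟨ν, hν⟩ := hσn c
    have hσcc : σ c * c = algebraMap K D ν := by rw [hσn', hν]
    have hν0 : algebraMap K D ν ≠ 0 := by rw [← hν]; exact mul_ne_zero hc0 (hσne c hc0)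
    have e1 : σ c * (a * σ c + c * σ a) * c = algebraMap K D ν * (σ c * a + σ a * c) := by
      rw [mul_add, ← mul_assoc (σ c) c, hσcc, add_mul, mul_add]
      congr 1
      · rw [mul_assoc, mul_assoc a, hσcc, ← hcen, ← mul_assoc (σ c), ← hcen]
        simp only [mul_assoc]
      · simp only [mul_assoc]
    rw [hrel, mul_zero, zero_mul] at e1
    exact (mul_eq_zero.mp e1.symm).resolve_left hν0
  obtain ⟨e, he⟩ : ∃ e, e = a * c⁻¹ := ⟨_, rfl⟩
  have hec : e * c = a := by rw [he, inv_mul_cancel_right₀ hc0]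
  have hes : star e = -e := by
    have hσc0 := hσne c hc0
    apply mul_left_cancel₀ hσc0
    apply mul_right_cancel₀ hc0
    rw [mul_neg, neg_mul, mul_assoc, mul_assoc, hec]
    have e1 : star e * c = (σ c)⁻¹ * σ a * c := by
      rw [he, star_mul, star_inv₀, hc, ha]
    rw [e1, ← mul_assoc, ← mul_assoc, mul_inv_cancel₀ hσc0, one_mul]
    exact eq_neg_of_add_eq_zero_right hrel2
  obtain ⟨s, hs⟩ : ∃ s, s = 1 + θ⁻¹ * e := ⟨_, rfl⟩
  have hss : star s = s := by
    rw [hs, star_add, star_one, star_mul, hes, hθis, neg_mul_neg, hθi]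
  have hZe : a + θ * c = θ * s * c := by
    rw [hs, mul_add, mul_one, mul_inv_cancel_left₀ hθ0, add_mul, hec, add_comm]
  have hs0 : s ≠ 0 := by
    rintro rfl
    rw [hZe, mul_zero, zero_mul] at h2Z
    exact h2Z rfl
  rw [hZe, hmul _ _ (mul_ne_zero hθ0 hs0) hc0, hmul _ _ hθ0 hs0, hθ1, hsym s hs0 hss,
    hD0 c hc0 hc, mul_one, mul_one]

end main

end Vale.Agent.P011S

end

section
/-!
The reduced unitary Whitehead group in square-free degree.
-/

set_option linter.unusedSectionVars false
set_option linter.unusedSimpArgs false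

open Matrix Module TensorProduct

namespace Vale.Agent.P011S

section star

variable {E S Δ : Type} [Field E] [StarRing E] [Ring S] [StarRing S] [Algebra E S]
  [DivisionRing Δ] [Algebra E Δ] {n : ℕ} [NeZero n]
  (hst : ∀ e : E, star (algebraMap E S e) = algebraMap E S (star e))

include hst

theorem exists_psi (h2 : (2 : Δ) ≠ 0) (hne : ∃ e : E, star e ≠ e)
    (ψ : S ≃ₐ[E] Matrix (Fin n) (Fin n) Δ) :
    ∃ ψ' : S ≃ₐ[E] Matrix (Fin n) (Fin n) Δ, ψ' (star (ψ'.symm (eU n Δ))) = eU n Δ := by
  obtain ⟨c, hc⟩ := hne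
  have hc0 : c - star c ≠ 0 := sub_ne_zero.mpr (Ne.symm hc)
  obtain ⟨C, hC⟩ := exists_sym (fun x => ψ (star (ψ.symm x)))
    (fun x y => by simp only [map_add, star_add])
    (fun x y => by simp only [map_mul, star_mul])
    (fun x => by simp only [ψ.symm_apply_apply, star_star, ψ.apply_symm_apply])
    (algebraMap E _ (c - star c)) (fun x => Algebra.commutes _ x)
    (by
      simp only [AlgEquiv.commutes, hst]
      rw [← map_neg, star_sub, star_star, neg_sub])
    ((isUnit_iff_ne_zero.mpr hc0).map (algebraMap E (Matrix (Fin n) (Fin n) Δ))) h2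
  let κ : Matrix (Fin n) (Fin n) Δ ≃ₐ[E] Matrix (Fin n) (Fin n) Δ :=
    { toFun := fun x => (C⁻¹ : (Matrix (Fin n) (Fin n) Δ)ˣ) * x * (C : Matrix (Fin n) (Fin n) Δ)
      invFun := fun x => (C : Matrix (Fin n) (Fin n) Δ) * x * (C⁻¹ : (Matrix (Fin n) (Fin n) Δ)ˣ)
      left_inv := fun x => by simp only [mul_assoc, Units.mul_inv_cancel_left, Units.mul_inv, mul_one]
      right_inv := fun x => by simp only [mul_assoc, Units.inv_mul_cancel_left, Units.inv_mul, mul_one]
      map_mul' := fun x y => by simp only [mul_assoc, Units.mul_inv_cancel_left]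
      map_add' := fun x y => by simp only [mul_add, add_mul]
      commutes' := fun e => by
        rw [mul_assoc, Algebra.commutes, ← mul_assoc, Units.inv_mul, one_mul] }
  refine ⟨ψ.trans κ, ?_⟩
  change κ (ψ (star (ψ.symm (κ.symm (eU n Δ))))) = eU n Δ
  have h1 : κ.symm (eU n Δ) = (C : Matrix (Fin n) (Fin n) Δ) * eU n Δ *
    (C⁻¹ : (Matrix (Fin n) (Fin n) Δ)ˣ) := rfl
  rw [h1]
  have h2 : ψ (star (ψ.symm ((C : Matrix (Fin n) (Fin n) Δ) * eU n Δ *
    (C⁻¹ : (Matrix (Fin n) (Fin n) Δ)ˣ)))) = (C : Matrix (Fin n) (Fin n) Δ) * eU n Δ *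
    (C⁻¹ : (Matrix (Fin n) (Fin n) Δ)ˣ) := hC
  rw [h2, ← h1, κ.apply_symm_apply]

theorem eU_sandwich (x : Matrix (Fin n) (Fin n) Δ) :
    eU n Δ * x * eU n Δ = Matrix.single 0 0 (x 0 0) := by
  ext i j
  by_cases hj : j = 0
  · subst hj
    rw [eU, Matrix.mul_single_apply_same, mul_one]
    by_cases hi : i = 0
    · subst hi
      rw [Matrix.single_mul_apply_same, one_mul, Matrix.single_apply_same]
    · rw [Matrix.single_mul_apply_of_ne _ _ _ _ _ hi, Matrix.single_apply_of_row_ne (Ne.symm hi)]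
  · rw [eU, Matrix.mul_single_apply_of_ne _ _ _ _ _ hj,
      Matrix.single_apply_of_col_ne _ _ (Ne.symm hj)]

theorem exists_star (ψ : S ≃ₐ[E] Matrix (Fin n) (Fin n) Δ)
    (hψ : ψ (star (ψ.symm (eU n Δ))) = eU n Δ) :
    ∃ (_ : StarRing Δ) (_ : StarModule E Δ), ∀ a : Δ,
      ψ (star (ψ.symm (Matrix.single 0 0 a))) = Matrix.single 0 0 (star a) := by
  obtain ⟨s, hs⟩ : ∃ s : Matrix (Fin n) (Fin n) Δ → Matrix (Fin n) (Fin n) Δ,
      ∀ x, s x = ψ (star (ψ.symm x)) := ⟨_, fun x => rfl⟩
  have hmul : ∀ x y, s (x * y) = s y * s x := fun x y => by simp only [hs, map_mul, star_mul]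
  have hss : ∀ x, s (s x) = x := fun x => by
    simp only [hs, ψ.symm_apply_apply, star_star, ψ.apply_symm_apply]
  have hadd : ∀ x y, s (x + y) = s x + s y := fun x y => by simp only [hs, map_add, star_add]
  have he : s (eU n Δ) = eU n Δ := by rw [hs, hψ]
  have key : ∀ a : Δ, s (Matrix.single 0 0 a) = Matrix.single 0 0 (s (Matrix.single 0 0 a) 0 0) := by
    intro a
    have h1 : (Matrix.single 0 0 a : Matrix (Fin n) (Fin n) Δ) =
        eU n Δ * Matrix.single 0 0 a * eU n Δ := by
      rw [eU_sandwich hst, Matrix.single_apply_same]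
    conv_lhs => rw [h1, hmul, hmul, he, ← mul_assoc, eU_sandwich hst]
  have hinj : ∀ a b : Δ, (Matrix.single 0 0 a : Matrix (Fin n) (Fin n) Δ) =
      Matrix.single 0 0 b → a = b := by
    intro a b h
    have := congrFun (congrFun h 0) 0
    rwa [Matrix.single_apply_same, Matrix.single_apply_same] at this
  have sm : ∀ a b : Δ, (Matrix.single 0 0 (a * b) : Matrix (Fin n) (Fin n) Δ) =
      Matrix.single 0 0 a * Matrix.single 0 0 b := fun a b => by
    rw [Matrix.single_mul_single_same]
  let st : StarRing Δ :=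
    { star := fun a => s (Matrix.single 0 0 a) 0 0
      star_involutive := fun a => by
        apply hinj
        change Matrix.single 0 0 (s (Matrix.single 0 0 (s (Matrix.single 0 0 a) 0 0)) 0 0) =
          Matrix.single 0 0 a
        rw [← key, ← key, hss]
      star_mul := fun a b => by
        apply hinj
        change Matrix.single 0 0 (s (Matrix.single 0 0 (a * b)) 0 0) =
          Matrix.single 0 0 (s (Matrix.single 0 0 b) 0 0 * s (Matrix.single 0 0 a) 0 0)
        rw [← key, sm, sm, ← key, ← key, hmul]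
      star_add := fun a b => by
        change s (Matrix.single 0 0 (a + b)) 0 0 = s (Matrix.single 0 0 a) 0 0 +
          s (Matrix.single 0 0 b) 0 0
        rw [Matrix.single_add, hadd, Matrix.add_apply] }
  have hst' : ∀ a : Δ, s (Matrix.single 0 0 a) = Matrix.single 0 0 (star a) := key
  refine ⟨st, ⟨fun e a => ?_⟩, fun a => by rw [← hs, hst']⟩
  apply hinj
  rw [← hst', Algebra.smul_def, Algebra.smul_def, Algebra.commutes (star e) (star a)]
  have h1 : ∀ (e : E), (Matrix.single 0 0 (algebraMap E Δ e) : Matrix (Fin n) (Fin n) Δ) =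
      algebraMap E _ e * eU n Δ := by
    intro e
    rw [← Algebra.smul_def, eU, Matrix.smul_single, Algebra.smul_def, mul_one]
  have h2 : s (Matrix.single 0 0 (algebraMap E Δ e)) =
      Matrix.single 0 0 (algebraMap E Δ (star e)) := by
    rw [h1, hmul, he, h1, Algebra.commutes]
    congr 1
    rw [hs, AlgEquiv.commutes, hst, AlgEquiv.commutes]
  rw [sm, hmul, h2, hst', sm]

end star

end Vale.Agent.P011S

end

section
/-!
The reduced unitary Whitehead group is trivial in square-free degree.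
-/

set_option linter.unusedSectionVars false
set_option linter.unusedSimpArgs false

open Matrix Module TensorProduct

namespace Vale.Agent.P011S

variable {K D F : Type} [Field K] [CharZero K] [FiniteDimensional ℚ K] [StarRing K]
  [DivisionRing D] [CharZero D] [StarRing D] [FiniteDimensional ℚ D] [Algebra K D]
  [FiniteDimensional K D] [StarModule K D] [Algebra.IsCentral K D] [Field F] [Algebra K F]
  {A : Type} [CommGroup A] (F0 : D → A)
  (hmul : ∀ a b : D, a ≠ 0 → b ≠ 0 → F0 (a * b) = F0 a * F0 b)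
  (hsym : ∀ s : D, s ≠ 0 → star s = s → F0 s = 1)

include hmul hsym

/-- the part at the prime two -/
theorem suk_part {d : ℕ} (hsq : Squarefree d) (hD : finrank K D = d ^ 2)
    (hne : ∃ k : K, star k ≠ k) (f : D →ₐ[K] Matrix (Fin d) (Fin d) F) {Z : D} (hZ : Z ≠ 0)
    (h : (f (star Z)).det = (f Z).det) : ∃ e, Odd e ∧ F0 Z ^ e = 1 := by
  classical
  have hneg : F0 (-1) = 1 := hsym (-1) (neg_ne_zero.mpr one_ne_zero) (by simp only [star_neg, star_one])
  obtain ⟨E, i1, i2, i3, i4, r, b, N, i5, i6, i7, i8, i9, a, hodd, hb, ha, ⟨g⟩⟩ :=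
    exists_star_ext (K := K) (D := D) hne hD
  have hfE : FiniteDimensional K E := Module.Finite.of_basis b
  obtain ⟨n, hn, Δ, j1, j2, j3, j4, ψ0, q, hnq, hΔ, hq⟩ := exists_data Nat.prime_two ha g hsq hD
  have hcE : CharZero E := charZero_of_injective_algebraMap (algebraMap K E).injective
  have hcΔ : CharZero Δ := charZero_of_injective_algebraMap (algebraMap E Δ).injective
  have hst : ∀ e : E, star (algebraMap E (E ⊗[K] D) e) = algebraMap E (E ⊗[K] D) (star e) := by
    intro e
    rw [Algebra.TensorProduct.algebraMap_apply, Algebra.TensorProduct.algebraMap_apply,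
      TensorProduct.star_tmul, star_one]
    rfl
  have hneE : ∃ e : E, star e ≠ e := by
    obtain ⟨k, hk⟩ := hne
    refine ⟨algebraMap K E k, fun h => hk ?_⟩
    rw [← algebraMap_star_comm] at h
    exact (algebraMap K E).injective h
  obtain ⟨ψ, hψ⟩ := exists_psi hst (two_ne_zero : (2 : Δ) ≠ 0) hneE ψ0
  obtain ⟨st, stm, hstar⟩ := exists_star hst ψ hψ
  -- a common extension
  let F' := AlgebraicClosure F
  let lift : E →ₐ[K] F' := IsAlgClosed.lift
  let algE : Algebra E F' := lift.toRingHom.toAlgebra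
  have htow : IsScalarTower K E F' := IsScalarTower.of_algebraMap_eq fun x => (lift.commutes x).symm
  have hcF : CharZero F' := charZero_of_injective_algebraMap (algebraMap K F').injective
  let f' : D →ₐ[K] Matrix (Fin d) (Fin d) F' :=
    ((Algebra.ofId F F').restrictScalars K).mapMatrix.comp f
  have hf' : ∀ u, (f' u).det = algebraMap F F' (f u).det := by
    intro u
    have h1 : f' u = (f u).map (algebraMap F F') := rfl
    rw [h1]
    exact (RingHom.map_det (algebraMap F F') (f u)).symm
  let G : Matrix (Fin n) (Fin n) Δ →ₐ[E] Matrix (Fin d) (Fin d) F' :=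
    (bcf f').comp (ψ.symm : Matrix (Fin n) (Fin n) Δ →ₐ[E] E ⊗[K] D)
  obtain ⟨f2, hf2⟩ := exists_corner G hnq
  let θ : (Matrix (Fin n) (Fin n) Δ)ˣ →* A := (mdU F0 hmul hneg r).comp
    (Units.map (((trf b : E ⊗[K] D →ₐ[K] _) : E ⊗[K] D →* _).comp
      (ψ.symm : Matrix (Fin n) (Fin n) Δ →* E ⊗[K] D)))
  obtain ⟨s, hs⟩ : ∃ s : Matrix (Fin n) (Fin n) Δ → Matrix (Fin n) (Fin n) Δ,
      ∀ x, s x = ψ (star (ψ.symm x)) := ⟨_, fun x => rfl⟩
  have hs1 : s 1 = 1 := by rw [hs, map_one, star_one, map_one]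
  have hsdg : ∀ δ : Δ, s (1 - eU n Δ + Matrix.single 0 0 δ) =
      1 - eU n Δ + Matrix.single 0 0 (star δ) := by
    intro δ
    have h1 : s (1 - eU n Δ + Matrix.single 0 0 δ) =
        s 1 - s (eU n Δ) + s (Matrix.single 0 0 δ) := by
      simp only [hs, map_add, map_sub, star_add, star_sub]
    rw [h1, hs1, hs, hs, hψ, hstar]
  have hdg : ∀ δ : Δˣ, ((dgU 0 δ : (Matrix (Fin n) (Fin n) Δ)ˣ) : Matrix (Fin n) (Fin n) Δ) =
      1 - eU n Δ + Matrix.single 0 0 (δ : Δ) := by
    intro δ
    rw [dgU_val, eU]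
    ext i j
    rw [Matrix.diagonal_apply, Matrix.add_apply, Matrix.sub_apply, Matrix.one_apply,
      Matrix.single_apply, Matrix.single_apply]
    by_cases hij : i = j
    · subst hij
      by_cases hi : i = 0
      · subst hi; simp
      · simp [hi, Function.update_of_ne hi, Ne.symm hi]
    · rw [if_neg hij, if_neg hij, if_neg, if_neg]
      · simp
      · rintro ⟨rfl, rfl⟩; exact hij rfl
      · rintro ⟨rfl, rfl⟩; exact hij rfl
  let ω : Matrix (Fin n) (Fin n) Δ →* F' :=
    { toFun := fun x => (G (s x)).det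
      map_one' := by rw [hs1, map_one, Matrix.det_one]
      map_mul' := fun x y => by
        have h1 : s (x * y) = s y * s x := by simp only [hs, map_mul, star_mul]
        rw [h1, map_mul, Matrix.det_mul, mul_comm] }
  let χ : (Matrix (Fin n) (Fin n) Δ)ˣ →* A × (F'ˣ × F'ˣ) :=
    θ.prod ((Units.map (Matrix.detMonoidHom.comp (G : _ →* Matrix (Fin d) (Fin d) F'))).prod
      (Units.map ω))
  have h2Δ : (2 : Δ) ≠ 0 := two_ne_zero
  let U : (Matrix (Fin n) (Fin n) Δ)ˣ := Units.map
    ((ψ : E ⊗[K] D →* _).comp (Algebra.TensorProduct.includeRight : D →ₐ[K] E ⊗[K] D))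
    (Units.mk0 Z hZ)
  obtain ⟨δ, hδ⟩ := exists_dgU χ (chi_tvU h2Δ χ) 0 U
  have hδ1 : θ U = θ (dgU 0 δ) := congrArg Prod.fst hδ
  have hδ2 : (G (U : Matrix (Fin n) (Fin n) Δ)).det =
      (G (dgU 0 δ : (Matrix (Fin n) (Fin n) Δ)ˣ)).det :=
    congrArg Units.val (congrArg Prod.fst (congrArg Prod.snd hδ))
  have hδ3 : (G (s (U : Matrix (Fin n) (Fin n) Δ))).det =
      (G (s ((dgU 0 δ : (Matrix (Fin n) (Fin n) Δ)ˣ) : Matrix (Fin n) (Fin n) Δ))).det :=
    congrArg Units.val (congrArg Prod.snd (congrArg Prod.snd hδ))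
  have hU : ψ.symm (U : Matrix (Fin n) (Fin n) Δ) = 1 ⊗ₜ Z := ψ.symm_apply_apply _
  have hθU : θ U = F0 Z ^ r := by
    change mdU F0 hmul hneg r _ = _
    rw [mdU_diagonal F0 hmul hneg _ (fun _ => Z) (fun _ => hZ), Finset.prod_const,
      Finset.card_univ, Fintype.card_fin]
    change trf b (ψ.symm (U : Matrix (Fin n) (Fin n) Δ)) = _
    rw [hU, trf_one_tmul]
  have hsδ : (star δ : Δˣ) = star δ := rfl
  have hδ4 : (f2 (star (δ : Δ))).det = (f2 (δ : Δ)).det := by
    have h1 : (f2 (star (δ : Δ))).det = (f2 ((star δ : Δˣ) : Δ)).det := rfl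
    rw [h1, ← hf2, ← hf2, hdg (star δ)]
    change (G (1 - eU n Δ + Matrix.single 0 0 (star (δ : Δ)))).det = _
    rw [← hsdg, ← hdg, ← hδ3, ← hδ2, hs]
    change (bcf f' (ψ.symm (ψ (star (ψ.symm (U : Matrix (Fin n) (Fin n) Δ)))))).det =
      (bcf f' (ψ.symm (U : Matrix (Fin n) (Fin n) Δ))).det
    rw [ψ.symm_apply_apply, hU, TensorProduct.star_tmul, star_one, bcf_one_tmul, bcf_one_tmul,
      hf', hf', h]
  -- symmetric elements
  have hsymθ : ∀ δ : Δˣ, star (δ : Δ) = δ → θ (dgU 0 δ) = 1 := by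
    intro δ hδ
    change mdU F0 hmul hneg r (Units.map ((trf b : E ⊗[K] D →ₐ[K] _) : E ⊗[K] D →* _)
      (Units.map (ψ.symm : Matrix (Fin n) (Fin n) Δ →* E ⊗[K] D) (dgU 0 δ))) = 1
    apply trf_sym b hb F0 hmul hsym hneg
    change star (ψ.symm ((dgU 0 δ : (Matrix (Fin n) (Fin n) Δ)ˣ) : Matrix (Fin n) (Fin n) Δ)) =
      ψ.symm ((dgU 0 δ : (Matrix (Fin n) (Fin n) Δ)ˣ) : Matrix (Fin n) (Fin n) Δ)
    apply ψ.injective
    rw [ψ.apply_symm_apply, ← hs, hdg, hsdg, hδ]
  refine ⟨r, hodd, ?_⟩
  rw [← hθU, hδ1]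
  rcases hq with rfl | rfl
  · apply hsymθ
    obtain ⟨e, he⟩ : (δ : Δ) ∈ Set.range (algebraMap E Δ) := by
      obtain ⟨c, hc⟩ := (finrank_eq_one_iff_of_nonzero' (1 : Δ) one_ne_zero).mp
        (by rw [hΔ, one_pow]) (δ : Δ)
      exact ⟨c, by rw [← hc, Algebra.smul_def, mul_one]⟩
    rw [← he, ← algebraMap_star_comm, AlgHom.commutes, AlgHom.commutes, Matrix.det_fin_one,
      Matrix.det_fin_one, Matrix.algebraMap_matrix_apply, Matrix.algebraMap_matrix_apply,
      if_pos rfl, if_pos rfl] at hδ4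
    rw [← he, ← algebraMap_star_comm, (algebraMap E F').injective hδ4]
  · have hfQE : FiniteDimensional ℚ E := FiniteDimensional.trans ℚ K E
    have hfQΔ : FiniteDimensional ℚ Δ := FiniteDimensional.trans ℚ E Δ
    let F1 : Δ → A := fun x => if h : x = 0 then 1 else θ (dgU 0 (Units.mk0 x h))
    have hF1 : ∀ (x : Δ) (h : x ≠ 0), F1 x = θ (dgU 0 (Units.mk0 x h)) := fun x h => dif_neg h
    have h1 : F1 (δ : Δ) = 1 := by
      refine suk_two F1 ?_ ?_ hΔ hneE f2 δ.ne_zero hδ4
      · intro x y hx hy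
        rw [hF1 _ hx, hF1 _ hy, hF1 _ (mul_ne_zero hx hy), ← map_mul, ← dgU_mul]
        congr 2
        exact Units.ext rfl
      · intro x hx hxs
        rw [hF1 _ hx]
        exact hsymθ _ hxs
    rw [hF1 _ δ.ne_zero] at h1
    convert h1 using 3
    exact Units.ext rfl

/-- the reduced unitary Whitehead group is trivial in square-free degree -/
theorem suk_sqfree {d : ℕ} (hsq : Squarefree d) (hD : finrank K D = d ^ 2)
    (hne : ∃ k : K, star k ≠ k) (f : D →ₐ[K] Matrix (Fin d) (Fin d) F) {Z : D} (hZ : Z ≠ 0)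
    (h : (f (star Z)).det = (f Z).det) : F0 Z = 1 := by
  have hneg : F0 (-1) = 1 := hsym (-1) (neg_ne_zero.mpr one_ne_zero) (by simp only [star_neg, star_one])
  have hd : 0 < d := Nat.pos_of_ne_zero hsq.ne_zero
  have hZs : star Z ≠ 0 := star_ne_zero.mpr hZ
  have h1 : F0 (Z * star Z) = 1 := hsym _ (mul_ne_zero hZ hZs) (by simp only [star_mul, star_star])
  rw [hmul _ _ hZ hZs] at h1
  obtain ⟨u, hu⟩ : ∃ u, u = (star Z)⁻¹ * Z := ⟨_, rfl⟩
  have hu0 : u ≠ 0 := by rw [hu]; exact mul_ne_zero (inv_ne_zero hZs) hZ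
  have h2 : (f u).det = 1 := by
    have h3 : (f (star Z)).det * (f u).det = (f Z).det := by
      rw [← Matrix.det_mul, ← map_mul, hu, mul_inv_cancel_left₀ hZs]
    rw [h] at h3
    have h4 : (f Z).det ≠ 0 := by
      intro h0
      have h5 : (f (Z * Z⁻¹)).det = 0 := by rw [map_mul, Matrix.det_mul, h0, zero_mul]
      rw [mul_inv_cancel₀ hZ, map_one, Matrix.det_one] at h5
      exact one_ne_zero h5
    exact mul_left_cancel₀ h4 (by rw [h3, mul_one])
  have h3 : F0 u = F0 Z ^ 2 := by
    rw [hu, hmul _ _ (inv_ne_zero hZs) hZ, F0_inv F0 hmul hneg hZs, pow_two]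
    rw [eq_inv_of_mul_eq_one_right h1, inv_inv]
  have h4 : F0 u ^ (d ^ 2) = 1 := by
    have h5 : Algebra.norm K u = 1 := by
      have h6 := SF.norm_eq_det_pow hd hD f u
      rw [h2, one_pow] at h6
      apply (algebraMap K F).injective
      rw [h6, map_one]
    have h6 := F0_pow_finrank (K := K) F0 hmul hneg hu0
    rwa [h5, map_one, F0_one F0 hmul hneg, hD] at h6
  rw [h3, ← pow_mul] at h4
  rw [← orderOf_eq_one_iff]
  by_contra hne1
  obtain ⟨p, hp, hpo⟩ := Nat.exists_prime_and_dvd hne1
  by_cases hp2 : p = 2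
  · subst hp2
    obtain ⟨e, he, he1⟩ := suk_part F0 hmul hsym hsq hD hne f hZ h
    have h5 : 2 ∣ e := hpo.trans (orderOf_dvd_of_pow_eq_one he1)
    exact Nat.not_odd_iff_even.mpr (even_iff_two_dvd.mpr h5) he
  · obtain ⟨e, he, he1⟩ := sk1_part F0 hmul hneg hp hp2 hsq hD f h2
    rw [h3, ← pow_mul] at he1
    have h5 : p ∣ 2 * e := hpo.trans (orderOf_dvd_of_pow_eq_one he1)
    rcases (Nat.Prime.dvd_mul hp).mp h5 with h6 | h6
    · exact hp2 ((Nat.prime_dvd_prime_iff_eq hp Nat.prime_two).mp h6)
    · have h7 := Nat.dvd_gcd h6 (dvd_refl p)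
      rw [he.gcd_eq_one] at h7
      exact hp.one_lt.ne' (Nat.dvd_one.mp h7)

end Vale.Agent.P011S

end

section
/-!
Normal subgroups of the special unitary group of an anisotropic form: addition of the statement
for division algebras of square-free degree.
-/

set_option linter.unusedSectionVars false
set_option linter.unusedSimpArgs false

open Matrix Module
open scoped commutatorElement

namespace Vale.Agent.P011S

section

variable {K D F : Type} [Field K] [DivisionRing D] [Algebra K D] [Field F] [Algebra K F] {p : ℕ}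
  (f : D →ₐ[K] Matrix (Fin p) (Fin p) F) [StarRing D] [FormPos D] [CharZero D]
  [FiniteDimensional ℚ D]
variable {μ : Type} [Fintype μ] [DecidableEq μ]

theorem eq_top_of_kill' {H : Matrix μ μ D} (hH : An H) {R : ℕ} (hR : Room H R)
    (h1 : 1 ≤ R) (G : GlobF hH) {θ : D} (hθ0 : θ ≠ 0)
    (hθ : ∀ x, x * θ = θ * x) (hθs : star θ = -θ) (N : Subgroup (SU f H))
    (hN : commutator (UH H) ≤ N.map (inc f H))
    (hkill : ∀ Z : D, Z ≠ 0 → (f (star Z)).det = (f Z).det → G.F Z = 1) : N = ⊤ := by
  rw [eq_top_iff]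
  intro g _
  obtain ⟨Z, hZ0, hZ, hZg⟩ := exists_F_eq_SU f hH hR h1 G hθ0 hθ hθs g
  rw [hkill Z hZ0 hZ] at hZg
  obtain ⟨n, hn, hn'⟩ := hN ((cls_eq_one_iff _).mp hZg.symm)
  rwa [← inc_injective f H hn']

end

variable {p : ℕ} {K D F : Type} [Field K] [NumberField K] [StarRing K]
  [DivisionRing D] [StarRing D] [CharZero D] [Algebra K D] [StarModule K D]
  [FiniteDimensional K D] [Algebra.IsCentral K D] [Field F] [Algebra K F]

/-- Normal subgroups of the special unitary group of an anisotropic form in any degree. -/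
theorem normal_anis_sqfree (hK : ∃ k : K, star k ≠ k) (hpos : IsFormallyPositive D)
    (hdeg : finrank K D = p ^ 2)
    (f : D →ₐ[K] Matrix (Fin p) (Fin p) F) {m : ℕ} (H : Matrix (Fin m) (Fin m) D)
    (hH : IsAnisotropicForm H)
    (hM : HasOrthonormal H (12 * Module.finrank ℚ D) ∨ IsTwoUniversal H)
    (N : Subgroup (SU f H)) [hN : N.Normal] :
    N ≤ Subgroup.center (SU f H) ∨
      (ContainsCommutators f H N ∧ IsQuotientOfSUK f (SU f H ⧸ N) ∧
        (Squarefree p → N = ⊤)) := by
  rcases normal_anis hK hpos f H hH hM N with h | ⟨h1, h2⟩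
  · exact Or.inl h
  · refine Or.inr ⟨h1, h2, fun hp => ?_⟩
    have : FiniteDimensional ℚ D := FiniteDimensional.trans ℚ K D
    have : FormPos D := hpos.formPos
    have hA : An H := hH.an
    have hU : IsTwoUniversal H := by
      rcases hM with ⟨M, e, hM, he⟩ | h
      · apply IsTwoUniversal.of_room
        apply room_of_frame hA.herm e he
        calc 4 * (3 * Module.finrank ℚ D) = 12 * Module.finrank ℚ D := by ring
          _ ≤ M := hM
      · exact h
    have hR : Room H 2 := hU.room hA.herm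
    obtain ⟨N0, ⟨ρ⟩⟩ := exists_iota (D := D)
    obtain ⟨θ, hθ0, hθ, hθs⟩ : ∃ θ : D, θ ≠ 0 ∧ (∀ x, x * θ = θ * x) ∧ star θ = -θ := by
      obtain ⟨k, hk⟩ := hK
      refine ⟨algebraMap K D (k - star k), ?_, ?_, ?_⟩
      · rw [Ne, map_eq_zero]
        exact sub_ne_zero.mpr (Ne.symm hk)
      · intro x
        exact (Algebra.commutes _ x).symm
      · rw [← algebraMap_star_comm, star_sub, star_star, ← map_neg, neg_sub]
    obtain ⟨c, c', hc⟩ := exists_good (K := K) (D := D) hK
    obtain ⟨G⟩ := exists_globF ρ hA hR (by norm_num) hc hθ hθs hθ0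
    refine eq_top_of_kill' f hA hR (by norm_num) G hθ0 hθ hθs N ?_ ?_
    · rw [commutator_def, Subgroup.commutator_le]
      intro a _ b _
      obtain ⟨n, hn, hn'⟩ := h1 a a.2 b b.2
      exact ⟨n, hn, Subtype.ext hn'⟩
    · intro Z hZ0 hZ
      exact suk_sqfree (K := K) G.F G.mul G.sym hp hdeg hK f hZ0 hZ

end Vale.Agent.P011S

end
end
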